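import Mathlib

/-! Row 141, module H3 (auxiliary 4): elementary real estimates. -/

set_option autoImplicit false

namespace Crest.Agent.R141

theorem ass_bern {r : ℝ} (h0 : 0 ≤ r) (k : ℕ) : 1 - r ^ k ≤ k * (1 - r) := by
  have := one_add_mul_le_pow (a := r - 1) (by linarith) k
  rw [add_sub_cancel] at this
  linarith

theorem ass_pow_succ_sub {y : ℝ} (hy : 0 ≤ y) (k : ℕ) :
    ((y + 1) ^ k - y ^ k) * (y + 1) ≤ k * (y + 1) ^ k := by
  have hz : 0 < y + 1 := by linarith
  have h1 := ass_bern (r := y / (y + 1)) (by positivity) k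
  have h2 : 1 - y / (y + 1) = 1 / (y + 1) := by field_simp; ring
  rw [h2, div_pow] at h1
  have h3 := mul_le_mul_of_nonneg_right h1 (show 0 ≤ (y + 1) ^ k * (y + 1) by positivity)
  have e1 : (1 - y ^ k / (y + 1) ^ k) * ((y + 1) ^ k * (y + 1)) =
      ((y + 1) ^ k - y ^ k) * (y + 1) := by field_simp
  have e2 : k * (1 / (y + 1)) * ((y + 1) ^ k * (y + 1)) = k * (y + 1) ^ k := by field_simp
  rwa [e1, e2] at h3

theorem ass_le_pow_succ_sub {y : ℝ} (hy : 0 < y) (k : ℕ) :
    k * y ^ k ≤ ((y + 1) ^ k - y ^ k) * y := by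
  have h1 := one_add_mul_le_pow (a := 1 / y) (by have : 0 < 1 / y := by positivity
                                                 linarith) k
  have h2 : 1 + 1 / y = (y + 1) / y := by field_simp
  rw [h2, div_pow] at h1
  have h3 := mul_le_mul_of_nonneg_right h1 (show 0 ≤ y ^ k * y by positivity)
  have e1 : (1 + k * (1 / y)) * (y ^ k * y) = y ^ k * y + k * y ^ k := by field_simp
  have e2 : (y + 1) ^ k / y ^ k * (y ^ k * y) = (y + 1) ^ k * y := by field_simp
  rw [e1, e2] at h3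
  linarith

theorem ass_one_sub_le {x y : ℝ} (hx : 1 ≤ x) (hxy : x ≤ y) :
    1 - x / (y + 1) ≤ (y + 1 - x) / x := by
  have hz : 0 < y + 1 := by linarith
  have e : 1 - x / (y + 1) = (y + 1 - x) / (y + 1) := by field_simp
  rw [e]
  exact div_le_div_of_nonneg_left (by linarith) (by linarith) (by linarith)

theorem ass_err1 {α x y : ℝ} (hα : 0 ≤ α) (hx : 1 ≤ x) (hxy : x ≤ y) (q : ℕ) :
    α * (y + 1) / (y + 1) ^ (q + 1) * ((y + 1) ^ (q + 1) - (y ^ (q + 1) + (q + 1) * x ^ q)) +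
      (q + 1) * x ^ q * |α * (y + 1) / (y + 1) ^ (q + 1) - α / x ^ q| ≤
      2 * α * (q + 1) ^ 2 * ((y + 1 - x) / x) := by
  have hz : 0 < y + 1 := by linarith
  have hx0 : 0 < x := by linarith
  set r := x / (y + 1) with hr
  have hr0 : 0 ≤ r := by positivity
  have hr1 : r ≤ 1 := (div_le_one hz).mpr (by linarith)
  have hrq : r ^ q ≤ 1 := pow_le_one₀ hr0 hr1
  have e0 : α * (y + 1) / (y + 1) ^ (q + 1) = α / (y + 1) ^ q := by field_simp; ring
  rw [e0]
  have h1 : α / (y + 1) ^ q * ((y + 1) ^ (q + 1) - y ^ (q + 1)) ≤ α * (q + 1) := by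
    have := ass_pow_succ_sub (by linarith : 0 ≤ y) (q + 1)
    have h2 : (y + 1) ^ (q + 1) - y ^ (q + 1) ≤ (q + 1) * (y + 1) ^ q := by
      refine le_of_mul_le_mul_right ?_ hz
      push_cast at this
      calc _ ≤ _ := this
        _ = _ := by ring
    calc _ ≤ α / (y + 1) ^ q * ((q + 1) * (y + 1) ^ q) :=
          mul_le_mul_of_nonneg_left h2 (by positivity)
      _ = _ := by field_simp
  have h2 : α / (y + 1) ^ q * ((q + 1) * x ^ q) = α * (q + 1) * r ^ q := by
    rw [hr, div_pow]; field_simp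
  have h3 : (q + 1) * x ^ q * |α / (y + 1) ^ q - α / x ^ q| = α * (q + 1) * (1 - r ^ q) := by
    have e : α / (y + 1) ^ q - α / x ^ q = -(α / x ^ q * (1 - r ^ q)) := by
      rw [hr, div_pow]; field_simp; ring
    rw [e, abs_neg, abs_of_nonneg (mul_nonneg (by positivity) (by linarith))]
    field_simp
  have h4 := ass_bern hr0 q
  have h5 := ass_one_sub_le hx hxy
  rw [← hr] at h5
  have h6 : 1 - r ^ q ≤ (q + 1) * ((y + 1 - x) / x) := by
    have : (q : ℝ) * (1 - r) ≤ (q + 1) * ((y + 1 - x) / x) :=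
      mul_le_mul (by linarith) h5 (by linarith) (by positivity)
    linarith
  have h7 : α * (q + 1) * (1 - r ^ q) ≤ α * (q + 1) * ((q + 1) * ((y + 1 - x) / x)) :=
    mul_le_mul_of_nonneg_left h6 (by positivity)
  rw [h3, mul_sub, mul_add, h2]
  rw [mul_sub] at h1
  nlinarith

theorem ass_coef_nonneg {α y : ℝ} (hα : 0 ≤ α) (hy : 1 ≤ y) (q : ℕ) :
    0 ≤ α * y / y ^ (q + 1) - α * (y + 1) / (y + 1) ^ (q + 1) := by
  have hy0 : 0 < y := by linarith
  have e0 : α * (y + 1) / (y + 1) ^ (q + 1) = α / (y + 1) ^ q := by field_simp; ring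
  have e1 : α * y / y ^ (q + 1) = α / y ^ q := by field_simp; ring
  rw [e0, e1, sub_nonneg]
  exact div_le_div_of_nonneg_left hα (by positivity) (pow_le_pow_left₀ hy0.le (by linarith) q)

theorem ass_err2 {α x y : ℝ} (hα : 0 ≤ α) (hx : 1 ≤ x) (hxy : x ≤ y) (q : ℕ) :
    (α * y / y ^ (q + 1) - α * (y + 1) / (y + 1) ^ (q + 1)) * (y ^ (q + 1) - x ^ (q + 1)) +
      x ^ (q + 1) * |α * y / y ^ (q + 1) - α * (y + 1) / (y + 1) ^ (q + 1) - α * q / x ^ (q + 1)| ≤
      2 * α * (q + 1) ^ 2 * ((y + 1 - x) / x) := by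
  have hz : 0 < y + 1 := by linarith
  have hx0 : 0 < x := by linarith
  have hy0 : 0 < y := by linarith
  set r := x / (y + 1) with hr
  have hr0 : 0 ≤ r := by positivity
  have hd0 := ass_coef_nonneg hα (hx.trans hxy) q
  have ed : α * y / y ^ (q + 1) - α * (y + 1) / (y + 1) ^ (q + 1) =
      α * ((y + 1) ^ q - y ^ q) / (y ^ q * (y + 1) ^ q) := by field_simp; ring
  set d := α * y / y ^ (q + 1) - α * (y + 1) / (y + 1) ^ (q + 1) with hd
  have hup : d * y ^ (q + 1) ≤ α * q := by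
    have h1 := ass_pow_succ_sub hy0.le q
    have h2 : 0 ≤ (y + 1) ^ q - y ^ q :=
      sub_nonneg.mpr (pow_le_pow_left₀ hy0.le (by linarith) q)
    have h3 : ((y + 1) ^ q - y ^ q) * y ≤ q * (y + 1) ^ q := by nlinarith
    rw [ed]
    calc _ = α * (((y + 1) ^ q - y ^ q) * y) / (y + 1) ^ q := by field_simp; ring
      _ ≤ α * (q * (y + 1) ^ q) / (y + 1) ^ q := by gcongr
      _ = α * q := by field_simp
  have hlow : α * q ≤ d * (y + 1) ^ (q + 1) := by
    have h1 := ass_le_pow_succ_sub hy0 q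
    have h2 : 0 ≤ (y + 1) ^ q - y ^ q :=
      sub_nonneg.mpr (pow_le_pow_left₀ hy0.le (by linarith) q)
    have h3 : q * y ^ q ≤ ((y + 1) ^ q - y ^ q) * (y + 1) := by nlinarith
    rw [ed]
    calc α * q = α * (q * y ^ q) / y ^ q := by field_simp
      _ ≤ α * (((y + 1) ^ q - y ^ q) * (y + 1)) / y ^ q := by gcongr
      _ = _ := by field_simp; ring
  have hxy' : x ^ (q + 1) ≤ y ^ (q + 1) := pow_le_pow_left₀ hx0.le hxy _
  have hdx : d * x ^ (q + 1) ≤ α * q := (mul_le_mul_of_nonneg_left hxy' hd0).trans hup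
  have hdx' : α * q * r ^ (q + 1) ≤ d * x ^ (q + 1) := by
    have := mul_le_mul_of_nonneg_right hlow (pow_nonneg hr0 (q + 1))
    refine this.trans (le_of_eq ?_)
    rw [hr, div_pow]; field_simp
  have h3 : x ^ (q + 1) * |d - α * q / x ^ (q + 1)| = α * q - d * x ^ (q + 1) := by
    have e : d - α * q / x ^ (q + 1) = -((α * q - d * x ^ (q + 1)) / x ^ (q + 1)) := by
      field_simp; ring
    rw [e, abs_neg, abs_of_nonneg (div_nonneg (by linarith) (by positivity))]
    field_simp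
  have h4 := ass_bern hr0 (q + 1)
  have h5 := ass_one_sub_le hx hxy
  rw [← hr] at h5
  have h6 : 1 - r ^ (q + 1) ≤ (q + 1) * ((y + 1 - x) / x) := by
    push_cast at h4
    exact h4.trans (mul_le_mul_of_nonneg_left h5 (by positivity))
  have h7 : α * q * (1 - r ^ (q + 1)) ≤ α * q * ((q + 1) * ((y + 1 - x) / x)) :=
    mul_le_mul_of_nonneg_left h6 (by positivity)
  have h8 : 0 ≤ α * ((q + 1) * ((y + 1 - x) / x)) :=
    mul_nonneg hα (mul_nonneg (by positivity) (div_nonneg (by linarith) hx0.le))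
  rw [h3, mul_sub]
  nlinarith

/-- From block increments to a lower bound on the averages. -/
theorem ass_tele {a : ℕ → ℝ} {β : ℝ} {M n₀ : ℕ} (hM : 1 ≤ M)
    (h : ∀ n, n₀ ≤ n → a n + M * β ≤ a (n + M)) {ε : ℝ} (hε : 0 < ε) :
    ∀ᶠ N : ℕ in Filter.atTop, β - ε ≤ 1 / (N : ℝ) * a N := by
  obtain ⟨m, hm⟩ : ∃ m : ℝ, ∀ n, n < n₀ + M → m ≤ a n - n * β := by
    obtain ⟨m, hm⟩ := ((Finset.range (n₀ + M)).finite_toSet.image fun n => a n - n * β).bddBelow
    exact ⟨m, fun n hn => hm ⟨n, by simpa using hn, rfl⟩⟩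
  have hall : ∀ n, m ≤ a n - n * β := by
    intro n
    induction n using Nat.strong_induction_on with
    | _ n ih =>
      by_cases hn : n < n₀ + M
      · exact hm n hn
      · obtain ⟨k, rfl⟩ : ∃ k, n = k + M := ⟨n - M, by omega⟩
        have h1 := ih k (by omega)
        have h2 := h k (by omega)
        push_cast
        linarith
  have hlim : Filter.Tendsto (fun N : ℕ => m / (N : ℝ)) Filter.atTop (nhds 0) :=
    tendsto_const_div_atTop_nhds_zero_nat m
  filter_upwards [hlim.eventually (lt_mem_nhds (neg_lt_zero.mpr hε)), Filter.eventually_ge_atTop 1]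
    with N h1 h2
  have hN : (0 : ℝ) < N := by exact_mod_cast h2
  have h3 : m / N ≤ (a N - N * β) / N := div_le_div_of_nonneg_right (hall N) hN.le
  have e : (a N - N * β) / N = 1 / N * a N - β := by field_simp
  rw [e] at h3
  linarith

end Crest.Agent.R141
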