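import Crest.Agent.R141.ASSAux3
import Crest.Agent.R141.ASSAux4

/-! Row 141, module H3 (auxiliary 5): the one-step comparison. -/

set_option autoImplicit false
set_option linter.unusedSectionVars false

namespace Crest.Agent.R141

open Finset MeasureTheory Crest.ProbabilityR.Diluted

/-- The expectation of a functional of the Hamiltonian of the `N`-spin model. -/
noncomputable def assF (p : ℕ) (α : ℝ) (μ : Measure (Inter p)) (ν : Measure ℝ) (N : ℕ)
    (g : ((Fin N → Bool) → ℝ) → ℝ) : ℝ :=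
  assSm (CP (inten μ (fun _ : Fin p → Fin N => α * N / (N : ℝ) ^ p) (assClause N)))
    (assSm (assPhi ν N) g) 0

section

variable {p : ℕ} {α : ℝ} {μ : Measure (Inter p)} [IsProbabilityMeasure μ] {ν : Measure ℝ}
  [IsProbabilityMeasure ν]

theorem assF_mono (hμ : Integrable (fun θ : Inter p => ‖θ‖) μ)
    (hν : Integrable (fun x : ℝ => x) ν) {N : ℕ} {g g' : ((Fin N → Bool) → ℝ) → ℝ}
    (hg : AssLip g) (hg' : AssLip g') {c : ℝ} (h : ∀ x, g x + c ≤ g' x) :
    assF p α μ ν N g + c ≤ assF p α μ ν N g' :=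
  assSm_mono (hg.sm (assMom_phi hν N)) (hg'.sm (assMom_phi hν N))
    (assMom_CP_inten μ _ _ (measurable_assClause N) (integrable_assClause hμ N))
    (assSm_mono hg hg' (assMom_phi hν N) h) 0

theorem pressure_eq_assF (hα : 0 ≤ α) (hμ : Integrable (fun θ : Inter p => ‖θ‖) μ)
    (hν : Integrable (fun x : ℝ => x) ν) {N : ℕ} (hN : 1 ≤ N) :
    pressure p α μ ν N = 1 / (N : ℝ) * assF p α μ ν N assLogZ := by
  have hN0 : (0 : ℝ) < N := by exact_mod_cast hN
  have hφ := assMom_phi hν N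
  have hg := (assLip_logZ N).sm hφ
  unfold pressure assF
  congr 1
  have e0 : ∀ (P : Measure ((Fin N → Bool) → ℝ)) (g : ((Fin N → Bool) → ℝ) → ℝ),
      assSm P g 0 = ∫ y, g y ∂P := fun P g => by simp [assSm]
  rw [e0, integral_CP_inten μ (by positivity) _ (measurable_assClause N)
    (integrable_assClause hμ N) hg]
  have e1 : α * N / (N : ℝ) ^ p * Fintype.card (Fin p → Fin N) = α * N := by
    simp only [Fintype.card_fun, Fintype.card_fin, Nat.cast_pow]
    field_simp
  rw [e1]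
  refine tsum_congr fun M => ?_
  congr 1
  refine integral_congr_ae (Filter.Eventually.of_forall fun θs => ?_)
  simp only
  have key : ∀ (idx : Fin M → Fin p → Fin N) (hs : Fin N → ℝ), logPartition N θs idx hs =
      assLogZ (∑ k, assClause N (idx k) (θs k) + assFld N hs) := by
    intro idx hs
    unfold logPartition assLogZ
    congr 1
    refine Finset.sum_congr rfl fun s _ => ?_
    rw [Pi.add_apply, Finset.sum_apply]
    rfl
  have hint : ∀ x, Integrable (fun hs => assLogZ (x + assFld N hs))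
      (Measure.pi fun _ : Fin N => ν) := by
    intro x
    have := ((assLip_logZ N).shift x).integrable hφ
    unfold assPhi at this
    rwa [integrable_map_measure ((assLip_logZ N).shift x).continuous.aestronglyMeasurable
      (continuous_assFld N).measurable.aemeasurable] at this
  have e2 : ∀ x, assSm (assPhi ν N) assLogZ x =
      ∫ hs, assLogZ (x + assFld N hs) ∂(Measure.pi fun _ : Fin N => ν) := by
    intro x
    unfold assSm assPhi
    rw [integral_map (continuous_assFld N).measurable.aemeasurable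
      ((assLip_logZ N).shift x).continuous.aestronglyMeasurable]
  simp only [key, e2]
  rw [assAvg_integral _ (fun idx => hint _)]
  rfl

end

section step

variable {q : ℕ} {α : ℝ} {μ : Measure ((Fin (q + 1) → Bool) → ℝ)} [IsProbabilityMeasure μ]
  {ν : Measure ℝ} [IsProbabilityMeasure ν]

theorem ass_inten_split
    (hsym : ∀ π : Equiv.Perm (Fin (q + 1)), μ.map (fun (θ : (Fin (q + 1) → Bool) → ℝ)
      (s : Fin (q + 1) → Bool) => θ (fun l => s (π l))) = μ)
    {n N : ℕ} (h : n ≤ N) {c c1 : ℝ} (hc : 0 ≤ c) (hc1 : 0 ≤ c1) :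
    inten μ (assPush (assEmb (q := q) h) (Sum.elim (fun _ => c) (fun _ => c1)))
        (assClause (N + 1)) =
      (inten μ (fun _ : Fin (q + 1) → Fin N => c) (assClause N)).map (assIota N) +
        inten μ (fun _ : Fin (q + 1 - 1) → Fin n => (q + 1) * c1) (assCl1 h) := by
  rw [inten_assPush μ _ (by rintro (t | t); exacts [hc, hc1]), inten_sum,
    inten_map μ _ _ (measurable_assClause N)]
  congr 1
  simp only [Sum.elim_inr]
  rw [inten_prod_fst μ c1 _ (assCl1 h)]
  · simp
  · intro l idx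
    rw [assClause_emb_inr, ← Measure.map_map (measurable_assCl1 h idx) (measurable_comp_inter _),
      hsym]

theorem ass_stepA (hα : 0 ≤ α) (hμ : Integrable (fun θ : (Fin (q + 1) → Bool) → ℝ => ‖θ‖) μ)
    (hsym : ∀ π : Equiv.Perm (Fin (q + 1)), μ.map (fun (θ : (Fin (q + 1) → Bool) → ℝ)
      (s : Fin (q + 1) → Bool) => θ (fun l => s (π l))) = μ)
    {n N : ℕ} (hn : 1 ≤ n) (h : n ≤ N) {g : ((Fin (N + 1) → Bool) → ℝ) → ℝ} (hg : AssLip g) :
    |assSm (CP (inten μ (fun _ : Fin (q + 1) → Fin (N + 1) =>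
          α * (N + 1) / ((N : ℝ) + 1) ^ (q + 1)) (assClause (N + 1)))) g 0 -
      assSm (CP ((inten μ (fun _ : Fin (q + 1) → Fin N => α * (N + 1) / ((N : ℝ) + 1) ^ (q + 1))
          (assClause N)).map (assIota N) +
        inten μ (fun _ : Fin (q + 1 - 1) → Fin n => (q + 1) * (α / (n : ℝ) ^ q)) (assCl1 h))) g 0| ≤
      2 * α * (q + 1) ^ 2 * (((N : ℝ) + 1 - n) / n) * ∫ θ, ‖θ‖ ∂μ := by
  have hc : 0 ≤ α * (N + 1) / ((N : ℝ) + 1) ^ (q + 1) := by positivity
  have hc1 : 0 ≤ α / (n : ℝ) ^ q := by positivity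
  rw [← ass_inten_split hsym h hc hc1]
  refine (abs_integral_CP_sub_le μ (fun _ => hc)
    (assPush_nonneg _ (by rintro (t | t); exacts [hc, hc1])) _ (measurable_assClause (N + 1)) hμ
    (fun t θ => norm_comp_inter_le _ θ) (hg.shift 0)).trans ?_
  refine mul_le_mul_of_nonneg_right ?_ (integral_nonneg fun θ => norm_nonneg θ)
  refine (sum_abs_sub_assPush_le (assEmb_injective h) hc _).trans ?_
  refine le_trans (le_of_eq ?_) (ass_err1 hα (x := n) (y := N) (by exact_mod_cast hn)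
    (by exact_mod_cast h) q)
  simp [Fintype.sum_sum_type]

theorem ass_stepB (hα : 0 ≤ α) (hμ : Integrable (fun θ : (Fin (q + 1) → Bool) → ℝ => ‖θ‖) μ)
    {n N : ℕ} (hn : 1 ≤ n) (h : n ≤ N) {g : ((Fin N → Bool) → ℝ) → ℝ} (hg : AssLip g) :
    |assSm (CP (inten μ (fun _ : Fin (q + 1) → Fin N =>
          α * N / (N : ℝ) ^ (q + 1)) (assClause N))) g 0 -
      assSm (CP (inten μ (fun _ : Fin (q + 1) → Fin N => α * (N + 1) / ((N : ℝ) + 1) ^ (q + 1))
          (assClause N) +
        inten μ (fun _ : Fin (q + 1) → Fin n => α * q / (n : ℝ) ^ (q + 1)) (assCl2 h))) g 0| ≤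
      2 * α * (q + 1) ^ 2 * (((N : ℝ) + 1 - n) / n) * ∫ θ, ‖θ‖ ∂μ := by
  have hc : 0 ≤ α * (N + 1) / ((N : ℝ) + 1) ^ (q + 1) := by positivity
  have hc2 : 0 ≤ α * q / (n : ℝ) ^ (q + 1) := by positivity
  have hN : (1 : ℝ) ≤ N := by exact_mod_cast hn.trans h
  set e : (Fin (q + 1) → Fin n) → Fin (q + 1) → Fin N := fun idx l => Fin.castLE h (idx l) with he
  have hinj : Function.Injective e := fun idx idx' hh =>
    funext fun l => Fin.castLE_injective h (congrFun hh l)
  have e1 : inten μ (fun _ : Fin (q + 1) → Fin n => α * q / (n : ℝ) ^ (q + 1)) (assCl2 h) =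
      inten μ (assPush e (fun _ => α * q / (n : ℝ) ^ (q + 1))) (assClause N) :=
    (inten_assPush μ e (fun _ => hc2) (assClause N)).symm
  have hp := assPush_nonneg e (c := fun _ => α * q / (n : ℝ) ^ (q + 1)) (fun _ => hc2)
  rw [e1, ← inten_add μ (fun _ => hc) hp]
  refine (abs_integral_CP_sub_le μ (fun _ => by positivity)
    (fun t => add_nonneg hc (hp t)) _ (measurable_assClause N) hμ
    (fun t θ => norm_comp_inter_le _ θ) (hg.shift 0)).trans ?_
  refine mul_le_mul_of_nonneg_right ?_ (integral_nonneg fun θ => norm_nonneg θ)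
  simp only [← sub_sub]
  refine (sum_abs_sub_assPush_le hinj (ass_coef_nonneg hα hN q) _).trans ?_
  refine le_trans (le_of_eq ?_) (ass_err2 hα (x := n) (y := N) (by exact_mod_cast hn)
    (by exact_mod_cast h) q)
  simp

theorem ass_stepC (hα : 0 ≤ α) (hμ : Integrable (fun θ : (Fin (q + 1) → Bool) → ℝ => ‖θ‖) μ)
    (hν : Integrable (fun x : ℝ => x) ν) {n N : ℕ} (hn : 1 ≤ n) (h : n ≤ N) {b C : ℝ}
    {Xi : ((Fin n → Bool) → ℝ) → ℝ} (hXi : CavityData (q + 1) α μ ν b C n Xi)
    (ρ : Measure ((Fin N → Bool) → ℝ)) [IsFiniteMeasure ρ] (hρ : AssMom ρ) :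
    assSm (CP (ρ + inten μ (fun _ : Fin (q + 1) → Fin n => α * q / (n : ℝ) ^ (q + 1)) (assCl2 h)))
        (assSm (assPhi ν N) (fun H => Xi (assMarg h H))) 0 + b ≤
      assSm (CP (ρ.map (assIota N) +
        inten μ (fun _ : Fin (q + 1 - 1) → Fin n => (q + 1) * (α / (n : ℝ) ^ q)) (assCl1 h)))
        (assSm (assPhi ν (N + 1)) (fun H => Xi (assMarg (h.trans (Nat.le_succ N)) H))) 0 := by
  have hn0 : (0 : ℝ) < n := by exact_mod_cast hn
  have hl : AssLip Xi := hXi.lip
  have hg := hl.comp_marg h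
  have hg' := hl.comp_marg (h.trans (Nat.le_succ N))
  have hι := norm_assIota_le N
  have hφ := assMom_phi hν N
  have hψ := assMom_psi hν N
  have hφι := hφ.map_clm (assIota N) hι
  have h0 : AssMom (CP ρ) := integrable_norm_CP ρ hρ
  have h0ι := h0.map_clm (assIota N) hι
  have h1 := assMom_CP_inten μ (fun _ : Fin (q + 1 - 1) → Fin n => (q + 1) * (α / (n : ℝ) ^ q)) _
    (measurable_assCl1 h) (integrable_assCl1 hμ h)
  have h2 := assMom_CP_inten μ (fun _ : Fin (q + 1) → Fin n => α * q / (n : ℝ) ^ (q + 1)) _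
    (measurable_assCl2 h) (integrable_assCl2 hμ h)
  have : IsProbabilityMeasure ((assPhi ν N).map (assIota N)) :=
    Measure.isProbabilityMeasure_map (assIota N).continuous.measurable.aemeasurable
  have : IsProbabilityMeasure ((CP ρ).map (assIota N)) :=
    Measure.isProbabilityMeasure_map (assIota N).continuous.measurable.aemeasurable
  rw [CP_add, CP_add, ← CP_map, assPhi_succ, Measure.conv_comm (assPsi ν N),
    assSm_conv hφι hψ hg', assSm_conv h0 h2 (hg.sm hφ), assSm_comm h2 hφ hg,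
    assSm_conv h0ι h1 ((hg'.sm hψ).sm hφι), assSm_comm h1 hφι (hg'.sm hψ),
    ← map_zero (assIota N), assSm_map _ (((hg'.sm hψ).sm h1).sm hφι)]
  simp only [assSm_map _ ((hg'.sm hψ).sm h1)]
  refine assSm_mono ((hg.sm h2).sm hφ) ((((hg'.sm hψ).sm h1).comp_clm _ hι).sm hφ) h0
    (assSm_mono (hg.sm h2) (((hg'.sm hψ).sm h1).comp_clm _ hι) hφ fun H => ?_) 0
  have e1 := ass_site_eq hμ hν h hl hXi.shift
    (c := (q + 1) * (α / (n : ℝ) ^ q)) (by positivity) H
  have e2 := ass_edge_eq hμ h hl (c := α * q / (n : ℝ) ^ (q + 1)) (by positivity) H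
  have w1 : (q + 1) * (α / (n : ℝ) ^ q) * Fintype.card (Fin (q + 1 - 1) → Fin n) =
      α * ((q + 1 : ℕ) : ℝ) := by
    simp only [Fintype.card_fun, Fintype.card_fin, Nat.cast_pow, Nat.add_sub_cancel]
    push_cast
    field_simp
  have w2 : α * q / (n : ℝ) ^ (q + 1) * Fintype.card (Fin (q + 1) → Fin n) =
      α * (((q + 1 : ℕ) : ℝ) - 1) := by
    simp only [Fintype.card_fun, Fintype.card_fin, Nat.cast_pow]
    push_cast
    field_simp
    ring
  rw [w1] at e1
  rw [w2] at e2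
  have h3 := hXi.cav (assMarg h H)
  rw [← e1, ← e2] at h3
  linarith

theorem ass_step (hα : 0 ≤ α) (hμ : Integrable (fun θ : (Fin (q + 1) → Bool) → ℝ => ‖θ‖) μ)
    (hν : Integrable (fun x : ℝ => x) ν)
    (hsym : ∀ π : Equiv.Perm (Fin (q + 1)), μ.map (fun (θ : (Fin (q + 1) → Bool) → ℝ)
      (s : Fin (q + 1) → Bool) => θ (fun l => s (π l))) = μ)
    {n N : ℕ} (hn : 1 ≤ n) (h : n ≤ N) {b C : ℝ}
    {Xi : ((Fin n → Bool) → ℝ) → ℝ} (hXi : CavityData (q + 1) α μ ν b C n Xi) :
    assF (q + 1) α μ ν N (fun H => Xi (assMarg h H)) + b -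
        4 * α * (q + 1) ^ 2 * (((N : ℝ) + 1 - n) / n) * ∫ θ, ‖θ‖ ∂μ ≤
      assF (q + 1) α μ ν (N + 1) (fun H => Xi (assMarg (h.trans (Nat.le_succ N)) H)) := by
  have hl : AssLip Xi := hXi.lip
  have hA := ass_stepA hα hμ hsym hn h
    ((hl.comp_marg (h.trans (Nat.le_succ N))).sm (assMom_phi hν (N + 1)))
  have hB := ass_stepB hα hμ hn h ((hl.comp_marg h).sm (assMom_phi hν N))
  have hC := ass_stepC hα hμ hν hn h hXi
    (inten μ (fun _ : Fin (q + 1) → Fin N => α * (N + 1) / ((N : ℝ) + 1) ^ (q + 1)) (assClause N))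
    (assMom_inten μ _ _ (measurable_assClause N) (integrable_assClause hμ N))
  unfold assF
  push_cast
  rw [abs_le] at hA hB
  linarith [hA.1, hB.2]

end step

end Crest.Agent.R141
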