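import Crest.Agent.R141.LabLog

/-! Row 141, module H2: compound Poisson laws on a finite-dimensional function space. -/

set_option autoImplicit false

namespace Crest.Agent.R141

open Finset MeasureTheory Crest.ProbabilityR.Diluted

variable {A B : Type} [Fintype A] [Fintype B]

/-- The law of a sum of `M` independent terms (unnormalised). -/
noncomputable def cpow (ρ : Measure (A → ℝ)) (M : ℕ) : Measure (A → ℝ) :=
  (Measure.pi fun _ : Fin M => ρ).map (fun ξ => ∑ k, ξ k)

/-- The compound Poisson law with finite intensity `ρ`. -/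
noncomputable def CP (ρ : Measure (A → ℝ)) : Measure (A → ℝ) :=
  Measure.sum fun M : ℕ =>
    ENNReal.ofReal (Real.exp (-(ρ.real Set.univ)) / (M.factorial : ℝ)) • cpow ρ M

/-- An intensity given by a finite family of measurable images of `μ`. -/
noncomputable def inten {Θ T : Type} [MeasurableSpace Θ] [Fintype T] (μ : Measure Θ) (c : T → ℝ)
    (a : T → Θ → A → ℝ) : Measure (A → ℝ) :=
  ∑ t, ENNReal.ofReal (c t) • μ.map (a t)

instance isFiniteMeasure_inten {Θ T : Type} [MeasurableSpace Θ] [Fintype T] (μ : Measure Θ)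
    [IsFiniteMeasure μ] (c : T → ℝ) (a : T → Θ → A → ℝ) : IsFiniteMeasure (inten μ c a) := by
  refine ⟨?_⟩
  simp only [inten, Measure.coe_finsetSum, Finset.sum_apply, Measure.smul_apply, smul_eq_mul]
  exact ENNReal.sum_lt_top.2 fun t _ => ENNReal.mul_lt_top ENNReal.ofReal_lt_top (measure_lt_top _ _)

omit [Fintype A] in
theorem cp_meas_sum (M : ℕ) : Measurable (fun ξ : Fin M → A → ℝ => ∑ k, ξ k) :=
  Finset.measurable_sum _ fun k _ => measurable_pi_apply k

instance cp_isFiniteMeasure_cpow (ρ : Measure (A → ℝ)) [IsFiniteMeasure ρ] (M : ℕ) :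
    IsFiniteMeasure (cpow ρ M) := by
  unfold cpow
  infer_instance

theorem cp_cpow_univ (ρ : Measure (A → ℝ)) [IsFiniteMeasure ρ] (M : ℕ) :
    cpow ρ M Set.univ = ENNReal.ofReal ((ρ.real Set.univ) ^ M) := by
  unfold cpow
  rw [Measure.map_apply (cp_meas_sum M) MeasurableSet.univ, Set.preimage_univ, Measure.pi_univ,
    ENNReal.ofReal_pow measureReal_nonneg, ofReal_measureReal]
  simp

theorem cp_hasSum_real (r : ℝ) :
    HasSum (fun M : ℕ => Real.exp (-r) / (M.factorial : ℝ) * r ^ M) 1 := by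
  have h := (NormedSpace.expSeries_div_hasSum_exp r).mul_left (Real.exp (-r))
  rw [← Real.exp_eq_exp_ℝ, ← Real.exp_add, neg_add_cancel, Real.exp_zero] at h
  have e : (fun M : ℕ => Real.exp (-r) / (M.factorial : ℝ) * r ^ M) =
      fun M : ℕ => Real.exp (-r) * (r ^ M / (M.factorial : ℝ)) := by
    funext M
    ring
  rw [e]
  exact h

instance isProbabilityMeasure_CP (ρ : Measure (A → ℝ)) [IsFiniteMeasure ρ] :
    IsProbabilityMeasure (CP ρ) := by
  refine ⟨?_⟩
  unfold CP
  rw [Measure.sum_apply _ MeasurableSet.univ]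
  simp only [Measure.smul_apply, smul_eq_mul, cp_cpow_univ]
  have h := cp_hasSum_real (ρ.real Set.univ)
  have h0 : ∀ M : ℕ, 0 ≤ Real.exp (-(ρ.real Set.univ)) / (M.factorial : ℝ) := fun M => by positivity
  simp only [← ENNReal.ofReal_mul (h0 _)]
  rw [← ENNReal.ofReal_tsum_of_nonneg (fun M => mul_nonneg (h0 M) (by positivity)) h.summable,
    h.tsum_eq, ENNReal.ofReal_one]

theorem cp_integrable_char (ρ : Measure (A → ℝ)) [IsFiniteMeasure ρ] (L : StrongDual ℝ (A → ℝ)) :
    Integrable (fun v => Complex.exp (L v * Complex.I)) ρ :=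
  (integrable_const (1 : ℝ)).mono (by fun_prop) (by simp)

theorem cp_char_cpow (ρ : Measure (A → ℝ)) [IsFiniteMeasure ρ] (M : ℕ)
    (L : StrongDual ℝ (A → ℝ)) : charFunDual (cpow ρ M) L = charFunDual ρ L ^ M := by
  simp only [charFunDual_apply, cpow]
  rw [integral_map (cp_meas_sum M).aemeasurable (by fun_prop)]
  simp only [map_sum, Complex.ofReal_sum, Finset.sum_mul, Complex.exp_sum]
  rw [integral_fintype_prod_eq_pow (fun v : A → ℝ => Complex.exp (L v * Complex.I))]
  simp

theorem cp_char_CP (ρ : Measure (A → ℝ)) [IsFiniteMeasure ρ] (L : StrongDual ℝ (A → ℝ)) :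
    charFunDual (CP ρ) L = Complex.exp (charFunDual ρ L - (ρ.real Set.univ : ℝ)) := by
  have h1 := hasSum_integral_measure (cp_integrable_char (CP ρ) L)
  have h0 : ∀ M : ℕ, 0 ≤ Real.exp (-(ρ.real Set.univ)) / (M.factorial : ℝ) := fun M => by positivity
  simp only [integral_smul_measure, ENNReal.toReal_ofReal (h0 _), ← charFunDual_apply,
    cp_char_cpow] at h1
  have h2 := (NormedSpace.expSeries_div_hasSum_exp (charFunDual ρ L)).mul_left
    (Complex.exp (-(ρ.real Set.univ : ℝ)))
  rw [← Complex.exp_eq_exp_ℂ, ← Complex.exp_add, neg_add_eq_sub] at h2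
  refine HasSum.unique h1 ?_
  have e : (fun M : ℕ => (Real.exp (-(ρ.real Set.univ)) / (M.factorial : ℝ)) •
      charFunDual ρ L ^ M) = fun M : ℕ => Complex.exp (-(ρ.real Set.univ : ℝ)) *
        (charFunDual ρ L ^ M / (M.factorial : ℂ)) := by
    funext M
    simp only [Complex.real_smul]
    push_cast
    ring
  rw [e]
  exact h2

theorem CP_add (ρ ρ' : Measure (A → ℝ)) [IsFiniteMeasure ρ] [IsFiniteMeasure ρ'] :
    CP (ρ + ρ') = (CP ρ).conv (CP ρ') := by
  apply Measure.ext_of_charFunDual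
  funext L
  rw [charFunDual_conv, cp_char_CP, cp_char_CP, cp_char_CP, ← Complex.exp_add]
  congr 1
  rw [charFunDual_apply, integral_add_measure (cp_integrable_char ρ L) (cp_integrable_char ρ' L),
    measureReal_add_apply]
  simp only [charFunDual_apply]
  push_cast
  ring

theorem CP_map (ρ : Measure (A → ℝ)) [IsFiniteMeasure ρ] (L : (A → ℝ) →L[ℝ] (B → ℝ)) :
    (CP ρ).map L = CP (ρ.map L) := by
  apply Measure.ext_of_charFunDual
  funext L'
  rw [charFunDual_map, cp_char_CP, cp_char_CP, charFunDual_map,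
    map_measureReal_apply L.continuous.measurable MeasurableSet.univ, Set.preimage_univ]

theorem cp_integrable_norm_cpow (ρ : Measure (A → ℝ)) [IsFiniteMeasure ρ]
    (h : Integrable (fun ξ => ‖ξ‖) ρ) (M : ℕ) : Integrable (fun ξ => ‖ξ‖) (cpow ρ M) := by
  unfold cpow
  rw [integrable_map_measure (by fun_prop) (cp_meas_sum M).aemeasurable]
  refine (integrable_finsetSum Finset.univ
    (fun k _ => integrable_comp_eval (μ := fun _ : Fin M => ρ) (i := k) h)).mono'
    ((cp_meas_sum M).norm.aestronglyMeasurable) (Filter.Eventually.of_forall fun ξ => ?_)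
  simp only [Function.comp, norm_norm]
  exact norm_sum_le _ _

theorem cp_integral_norm_cpow_le (ρ : Measure (A → ℝ)) [IsFiniteMeasure ρ]
    (h : Integrable (fun ξ => ‖ξ‖) ρ) (M : ℕ) :
    ∫ ξ, ‖ξ‖ ∂(cpow ρ M) ≤ M * (ρ.real Set.univ) ^ (M - 1) * ∫ ξ, ‖ξ‖ ∂ρ := by
  have hi := cp_integrable_norm_cpow ρ h M
  unfold cpow at hi ⊢
  rw [integrable_map_measure (by fun_prop) (cp_meas_sum M).aemeasurable] at hi
  rw [integral_map (cp_meas_sum M).aemeasurable (by fun_prop)]
  have hk := fun k : Fin M => integrable_comp_eval (μ := fun _ : Fin M => ρ) (i := k) h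
  refine (integral_mono hi (integrable_finsetSum Finset.univ (fun k _ => hk k))
    (fun ξ => norm_sum_le _ _)).trans (le_of_eq ?_)
  rw [integral_finsetSum _ (fun k _ => hk k)]
  have : ∀ k : Fin M, ∫ ξ : Fin M → A → ℝ, ‖ξ k‖ ∂(Measure.pi fun _ : Fin M => ρ) =
      (ρ.real Set.univ) ^ (M - 1) * ∫ ξ, ‖ξ‖ ∂ρ := by
    intro k
    have h1 := integral_map (μ := Measure.pi fun _ : Fin M => ρ) (φ := Function.eval k)
      (measurable_pi_apply k).aemeasurable (f := fun ξ : A → ℝ => ‖ξ‖) (by fun_prop)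
    rw [Measure.pi_map_eval, integral_smul_measure] at h1
    refine h1.symm.trans ?_
    simp [Measure.real]
  simp only [this, Finset.sum_const, Finset.card_univ, Fintype.card_fin, nsmul_eq_mul, mul_assoc]

theorem cp_hasSum_moment (r I : ℝ) :
    HasSum (fun M : ℕ => Real.exp (-r) / (M.factorial : ℝ) * (M * r ^ (M - 1) * I)) I := by
  rw [← hasSum_nat_add_iff' 1]
  have h := (cp_hasSum_real r).mul_right I
  simp only [Finset.range_one, Finset.sum_singleton, Nat.cast_zero, zero_mul, mul_zero, sub_zero,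
    Nat.add_sub_cancel]
  rw [one_mul] at h
  have e : (fun n : ℕ => Real.exp (-r) / ((n + 1).factorial : ℝ) * (((n + 1 : ℕ) : ℝ) * r ^ n * I)) =
      fun i : ℕ => Real.exp (-r) / (i.factorial : ℝ) * r ^ i * I := by
    funext n
    rw [Nat.factorial_succ]
    push_cast
    field_simp
  rw [e]
  exact h

theorem cp_term_le (ρ : Measure (A → ℝ)) [IsFiniteMeasure ρ]
    (h : Integrable (fun ξ => ‖ξ‖) ρ) (M : ℕ) :
    ∫ ξ, ‖ξ‖ ∂(ENNReal.ofReal (Real.exp (-(ρ.real Set.univ)) / (M.factorial : ℝ)) • cpow ρ M) ≤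
      Real.exp (-(ρ.real Set.univ)) / (M.factorial : ℝ) *
        (M * (ρ.real Set.univ) ^ (M - 1) * ∫ ξ, ‖ξ‖ ∂ρ) := by
  rw [integral_smul_measure, ENNReal.toReal_ofReal (by positivity), smul_eq_mul]
  exact mul_le_mul_of_nonneg_left (cp_integral_norm_cpow_le ρ h M) (by positivity)

theorem integrable_norm_CP (ρ : Measure (A → ℝ)) [IsFiniteMeasure ρ]
    (h : Integrable (fun ξ => ‖ξ‖) ρ) : Integrable (fun ξ => ‖ξ‖) (CP ρ) := by
  refine integrable_sum_measure
    (fun M => (cp_integrable_norm_cpow ρ h M).smul_measure ENNReal.ofReal_ne_top) ?_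
  simp only [norm_norm]
  exact Summable.of_nonneg_of_le (fun M => integral_nonneg fun ξ => norm_nonneg ξ)
    (cp_term_le ρ h) (cp_hasSum_moment _ _).summable

theorem integral_norm_CP_le (ρ : Measure (A → ℝ)) [IsFiniteMeasure ρ]
    (h : Integrable (fun ξ => ‖ξ‖) ρ) : ∫ ξ, ‖ξ‖ ∂(CP ρ) ≤ ∫ ξ, ‖ξ‖ ∂ρ :=
  hasSum_le (cp_term_le ρ h) (hasSum_integral_measure (integrable_norm_CP ρ h))
    (cp_hasSum_moment _ _)

theorem cp_lip_continuous {g : (A → ℝ) → ℝ} (hg : ∀ H H', |g H - g H'| ≤ ‖H - H'‖) :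
    Continuous g :=
  (LipschitzWith.of_dist_le_mul (K := 1) fun H H' => by
    simpa [Real.dist_eq, dist_eq_norm] using hg H H').continuous

theorem cp_lip_abs_le {g : (A → ℝ) → ℝ} (hg : ∀ H H', |g H - g H'| ≤ ‖H - H'‖) (H : A → ℝ) :
    ‖g H‖ ≤ |g 0| + ‖H‖ := by
  have h1 := hg H 0
  rw [sub_zero] at h1
  have h2 := abs_add_le (g 0) (g H - g 0)
  rw [add_sub_cancel] at h2
  rw [Real.norm_eq_abs]
  linarith

theorem cp_lip_integrable {g : (A → ℝ) → ℝ} (hg : ∀ H H', |g H - g H'| ≤ ‖H - H'‖)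
    (ν : Measure (A → ℝ)) [IsFiniteMeasure ν] (h : Integrable (fun ξ => ‖ξ‖) ν) :
    Integrable g ν :=
  ((integrable_const |g 0|).add h).mono' (cp_lip_continuous hg).aestronglyMeasurable
    (Filter.Eventually.of_forall (cp_lip_abs_le hg))

theorem cp_integrable_norm_inten {Θ T : Type} [MeasurableSpace Θ] [Fintype T] (μ : Measure Θ)
    (c : T → ℝ) (a : T → Θ → A → ℝ) (ha : ∀ t, Measurable (a t))
    (hi : ∀ t, Integrable (fun θ => ‖a t θ‖) μ) : Integrable (fun ξ => ‖ξ‖) (inten μ c a) := by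
  unfold inten
  refine integrable_finsetSum_measure.2 fun t _ => Integrable.smul_measure ?_ ENNReal.ofReal_ne_top
  rw [integrable_map_measure (by fun_prop) (ha t).aemeasurable]
  exact hi t

theorem cp_integral_inten {Θ T E : Type} [MeasurableSpace Θ] [Fintype T] [NormedAddCommGroup E]
    [NormedSpace ℝ E] (μ : Measure Θ)
    {c : T → ℝ} (hc : ∀ t, 0 ≤ c t) (a : T → Θ → A → ℝ) (ha : ∀ t, Measurable (a t))
    {f : (A → ℝ) → E} (hf : Continuous f) (hi : ∀ t, Integrable (fun θ => f (a t θ)) μ) :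
    ∫ ξ, f ξ ∂(inten μ c a) = ∑ t, c t • ∫ θ, f (a t θ) ∂μ := by
  unfold inten
  rw [integral_finsetSum_measure]
  · refine Finset.sum_congr rfl fun t _ => ?_
    rw [integral_smul_measure, ENNReal.toReal_ofReal (hc t),
      integral_map (ha t).aemeasurable hf.aestronglyMeasurable]
  · intro t _
    refine Integrable.smul_measure ?_ ENNReal.ofReal_ne_top
    rw [integrable_map_measure hf.aestronglyMeasurable (ha t).aemeasurable]
    exact hi t

theorem cp_cpow_inten {Θ T : Type} [MeasurableSpace Θ] [Fintype T] [DecidableEq T]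
    (μ : Measure Θ) [IsProbabilityMeasure μ] {c : ℝ} (hc : 0 ≤ c) (a : T → Θ → A → ℝ)
    (ha : ∀ t, Measurable (a t)) (M : ℕ) :
    cpow (inten μ (fun _ => c) a) M = inten (Measure.pi fun _ : Fin M => μ) (fun _ => c ^ M)
      (fun (ts : Fin M → T) θs => ∑ k, a (ts k) (θs k)) := by
  have hm : ∀ ts : Fin M → T, Measurable (fun θs : Fin M → Θ => ∑ k, a (ts k) (θs k)) :=
    fun ts => Finset.measurable_sum _ fun k _ => (ha _).comp (measurable_pi_apply k)
  apply Measure.ext_of_charFunDual
  funext L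
  have hcont : Continuous (fun v : A → ℝ => Complex.exp (L v * Complex.I)) := by fun_prop
  rw [cp_char_cpow, charFunDual_apply, charFunDual_apply,
    cp_integral_inten μ (fun _ => hc) a ha hcont (fun t => (integrable_const (1 : ℝ)).mono
      (hcont.measurable.comp (ha t)).aestronglyMeasurable (by simp)),
    cp_integral_inten _ (fun _ => pow_nonneg hc M) _ hm hcont
      (fun t => (integrable_const (1 : ℝ)).mono
      (hcont.measurable.comp (hm t)).aestronglyMeasurable
      (Filter.Eventually.of_forall fun _ => by rw [Complex.norm_exp_ofReal_mul_I]; simp))]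
  rw [Finset.sum_pow', Fintype.piFinset_univ]
  refine Finset.sum_congr rfl fun ts _ => ?_
  simp only [map_sum, Complex.ofReal_sum, Finset.sum_mul, Complex.exp_sum]
  rw [integral_fintype_prod_eq_prod (fun k θ => Complex.exp (L (a (ts k) θ) * Complex.I))]
  simp only [Complex.real_smul, Finset.prod_mul_distrib, Finset.prod_const, Finset.card_univ,
    Fintype.card_fin]
  push_cast
  rfl

/-- The explicit form of a compound Poisson integral with uniform coefficients. -/
theorem integral_CP_inten {Θ T : Type} [MeasurableSpace Θ] [Fintype T] [DecidableEq T]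
    (μ : Measure Θ) [IsProbabilityMeasure μ] {c : ℝ} (hc : 0 ≤ c) (a : T → Θ → A → ℝ)
    (ha : ∀ t, Measurable (a t)) (hi : ∀ t, Integrable (fun θ => ‖a t θ‖) μ)
    {g : (A → ℝ) → ℝ} (hg : ∀ H H', |g H - g H'| ≤ ‖H - H'‖) :
    ∫ H, g H ∂(CP (inten μ (fun _ => c) a)) =
      ∑' M : ℕ, poissonWeight (c * Fintype.card T) M *
        ∫ θs, avg (fun ts : Fin M → T => g (∑ k, a (ts k) (θs k)))
          ∂(Measure.pi fun _ : Fin M => μ) := by
  have hint := cp_lip_integrable hg _ (integrable_norm_CP _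
    (cp_integrable_norm_inten μ (fun _ => c) a ha hi))
  have hr : (inten μ (fun _ => c) a).real Set.univ = c * Fintype.card T := by
    have := cp_integral_inten μ (c := fun _ => c) (fun _ => hc) a ha (f := fun _ => (1 : ℝ))
      continuous_const (fun _ => integrable_const _)
    simpa [mul_comm] using this
  unfold CP at hint ⊢
  rw [integral_sum_measure hint]
  refine tsum_congr fun M => ?_
  have hm : ∀ ts : Fin M → T, Measurable (fun θs : Fin M → Θ => ∑ k, a (ts k) (θs k)) :=
    fun ts => Finset.measurable_sum _ fun k _ => (ha _).comp (measurable_pi_apply k)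
  have hgi : ∀ ts : Fin M → T, Integrable (fun θs : Fin M → Θ => g (∑ k, a (ts k) (θs k)))
      (Measure.pi fun _ : Fin M => μ) := by
    intro ts
    refine ((integrable_const |g 0|).add (integrable_finsetSum Finset.univ
      (fun k _ => integrable_comp_eval (μ := fun _ : Fin M => μ) (i := k) (hi (ts k))))).mono'
      ((cp_lip_continuous hg).measurable.comp (hm ts)).aestronglyMeasurable
      (Filter.Eventually.of_forall fun θs => (cp_lip_abs_le hg _).trans ?_)
    exact add_le_add le_rfl (norm_sum_le _ _)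
  rw [integral_smul_measure, ENNReal.toReal_ofReal (by positivity), hr, cp_cpow_inten μ hc a ha M,
    cp_integral_inten _ (fun _ => pow_nonneg hc M) _ hm (cp_lip_continuous hg) hgi]
  simp only [avg, smul_eq_mul]
  rw [integral_const_mul, integral_finsetSum _ (fun ts _ => hgi ts), ← Finset.mul_sum,
    poissonWeight]
  simp only [Fintype.card_fun, Fintype.card_fin, Nat.cast_pow, mul_pow]
  by_cases h0 : (Fintype.card T : ℝ) ^ M = 0
  · have : IsEmpty (Fin M → T) := by
      rw [← Fintype.card_eq_zero_iff, Fintype.card_fun, Fintype.card_fin]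
      exact_mod_cast h0
    simp
  · field_simp

theorem cp_abs_add_sub_le (ρ σ : Measure (A → ℝ)) [IsFiniteMeasure ρ] [IsFiniteMeasure σ]
    (hρ : Integrable (fun ξ => ‖ξ‖) ρ) (hσ : Integrable (fun ξ => ‖ξ‖) σ)
    {g : (A → ℝ) → ℝ} (hg : ∀ H H', |g H - g H'| ≤ ‖H - H'‖) :
    |∫ H, g H ∂(CP (ρ + σ)) - ∫ H, g H ∂(CP ρ)| ≤ ∫ ξ, ‖ξ‖ ∂σ := by
  have h1 := cp_lip_integrable hg _ (integrable_norm_CP _ (hρ.add_measure hσ))
  have h2 := cp_lip_integrable hg _ (integrable_norm_CP _ hρ)
  have h3 := integrable_norm_CP _ hσ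
  rw [CP_add] at h1 ⊢
  have h4 : Integrable (fun z : (A → ℝ) × (A → ℝ) => g (z.1 + z.2)) ((CP ρ).prod (CP σ)) := by
    unfold Measure.conv at h1
    rwa [integrable_map_measure (cp_lip_continuous hg).aestronglyMeasurable (by fun_prop)] at h1
  rw [integral_conv h1, ← integral_sub h4.integral_prod_left h2, ← Real.norm_eq_abs]
  refine (norm_integral_le_of_norm_le_const (C := ∫ ξ, ‖ξ‖ ∂(CP σ))
    (Filter.Eventually.of_forall fun x => ?_)).trans ?_
  · have h5 : Integrable (fun y => g (x + y)) (CP σ) :=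
      cp_lip_integrable (g := fun y => g (x + y)) (fun H H' => by simpa using hg (x + H) (x + H'))
        _ h3
    have h6 : g x = ∫ _y, g x ∂(CP σ) := by simp
    rw [h6, ← integral_sub h5 (integrable_const _)]
    refine norm_integral_le_of_norm_le h3 (Filter.Eventually.of_forall fun y => ?_)
    simpa using hg (x + y) x
  · simpa using integral_norm_CP_le σ hσ

/-- Changing the coefficients of the intensity changes Lipschitz integrals by at most the total
change times the first moment. -/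
theorem abs_integral_CP_sub_le {Θ T : Type} [MeasurableSpace Θ] [Fintype T] (μ : Measure Θ)
    [IsProbabilityMeasure μ] {c c' : T → ℝ} (hc : ∀ t, 0 ≤ c t) (hc' : ∀ t, 0 ≤ c' t)
    (a : T → Θ → A → ℝ) (ha : ∀ t, Measurable (a t)) {w : Θ → ℝ} (hw : Integrable w μ)
    (haw : ∀ t θ, ‖a t θ‖ ≤ w θ) {g : (A → ℝ) → ℝ} (hg : ∀ H H', |g H - g H'| ≤ ‖H - H'‖) :
    |∫ H, g H ∂(CP (inten μ c a)) - ∫ H, g H ∂(CP (inten μ c' a))| ≤
      (∑ t, |c t - c' t|) * ∫ θ, w θ ∂μ := by
  have hi : ∀ t, Integrable (fun θ => ‖a t θ‖) μ := fun t =>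
    hw.mono' (ha t).norm.aestronglyMeasurable
      (Filter.Eventually.of_forall fun θ => by simpa using haw t θ)
  have key : ∀ {d e : T → ℝ}, (∀ t, 0 ≤ e t) → (∀ t, e t ≤ d t) →
      |∫ H, g H ∂(CP (inten μ d a)) - ∫ H, g H ∂(CP (inten μ e a))| ≤
        (∑ t, (d t - e t)) * ∫ θ, w θ ∂μ := by
    intro d e he hed
    have hsplit : inten μ d a = inten μ e a + inten μ (fun t => d t - e t) a := by
      unfold inten
      rw [← Finset.sum_add_distrib]
      refine Finset.sum_congr rfl fun t _ => ?_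
      rw [← add_smul, ← ENNReal.ofReal_add (he t) (sub_nonneg.2 (hed t)), add_sub_cancel]
    rw [hsplit]
    refine (cp_abs_add_sub_le _ _ (cp_integrable_norm_inten μ _ a ha hi)
      (cp_integrable_norm_inten μ _ a ha hi) hg).trans ?_
    rw [cp_integral_inten μ (fun t => sub_nonneg.2 (hed t)) a ha continuous_norm hi,
      Finset.sum_mul]
    refine Finset.sum_le_sum fun t _ => ?_
    exact mul_le_mul_of_nonneg_left (integral_mono (hi t) hw (haw t)) (sub_nonneg.2 (hed t))
  have h1 := key (d := c) (e := fun t => min (c t) (c' t)) (fun t => le_min (hc t) (hc' t))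
    (fun t => min_le_left _ _)
  have h2 := key (d := c') (e := fun t => min (c t) (c' t)) (fun t => le_min (hc t) (hc' t))
    (fun t => min_le_right _ _)
  have h3 : ∑ t, |c t - c' t| =
      ∑ t, (c t - min (c t) (c' t)) + ∑ t, (c' t - min (c t) (c' t)) := by
    rw [← Finset.sum_add_distrib]
    refine Finset.sum_congr rfl fun t _ => ?_
    rcases le_total (c t) (c' t) with h | h
    · rw [min_eq_left h, abs_of_nonpos (by linarith)]; ring
    · rw [min_eq_right h, abs_of_nonneg (by linarith)]; ring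
  rw [h3, add_mul]
  rw [abs_le] at h1 h2 ⊢
  constructor <;> linarith [h1.1, h1.2, h2.1, h2.2]

end Crest.Agent.R141
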