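import Crest.Agent.R141.Cavity
import Crest.Agent.R141.CP
import Crest.Agent.R141.ASSAux5

/-! Row 141, module H3: the Aizenman-Sims-Starr scheme. -/

set_option autoImplicit false

namespace Crest.Agent.R141

open Finset MeasureTheory Crest.ProbabilityR.Diluted

/-- The interaction law is invariant under permutations of the `p` arguments. -/
def SymLaw {p : ℕ} (μ : Measure (Inter p)) : Prop :=
  ∀ π : Equiv.Perm (Fin p), μ.map (fun (θ : Inter p) (s : Fin p → Bool) => θ (fun l => s (π l))) = μ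

theorem ass {p : ℕ} (hp : 1 ≤ p) {α : ℝ} (hα : 0 ≤ α) {μ : Measure (Inter p)}
    [IsProbabilityMeasure μ] {ν : Measure ℝ} [IsProbabilityMeasure ν]
    (hμ : Integrable (fun θ : Inter p => ‖θ‖) μ) (hν : Integrable (fun x : ℝ => x) ν)
    (hsym : SymLaw μ) {b C : ℝ} (h : ∀ n : ℕ, 1 ≤ n → ∃ Xi, CavityData p α μ ν b C n Xi)
    {ε : ℝ} (hε : 0 < ε) : ∀ᶠ N in Filter.atTop, b - ε ≤ pressure p α μ ν N := by
  obtain ⟨q, rfl⟩ : ∃ q, p = q + 1 := ⟨p - 1, by omega⟩
  set K : ℝ := 4 * α * (q + 1) ^ 2 * ∫ θ, ‖θ‖ ∂μ with hK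
  have hK0 : 0 ≤ K := mul_nonneg (by positivity) (integral_nonneg fun θ => norm_nonneg θ)
  obtain ⟨M, hM⟩ := exists_nat_ge (max 1 (8 * C / ε))
  have hM1 : (1 : ℝ) ≤ M := (le_max_left _ _).trans hM
  have hMC : 8 * C ≤ M * ε := (div_le_iff₀ hε).mp ((le_max_right _ _).trans hM)
  obtain ⟨n₀, hn₀⟩ := exists_nat_ge (max 1 (4 * K * M / ε))
  have hblock : ∀ n, n₀ ≤ n → assF (q + 1) α μ ν n assLogZ + M * (b - ε / 2) ≤
      assF (q + 1) α μ ν (n + M) assLogZ := by
    intro n hn
    have hn' : (n₀ : ℝ) ≤ n := by exact_mod_cast hn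
    have hn1 : (1 : ℝ) ≤ n := ((le_max_left _ _).trans hn₀).trans hn'
    have hn1' : 1 ≤ n := by exact_mod_cast hn1
    have hn0 : (0 : ℝ) < n := by linarith
    have hnK : 4 * K * M ≤ n * ε := (div_le_iff₀ hε).mp (((le_max_right _ _).trans hn₀).trans hn')
    obtain ⟨Xi, hXi⟩ := h n hn1'
    have hl : AssLip Xi := hXi.lip
    have hind : ∀ j : ℕ, j ≤ M →
        assF (q + 1) α μ ν n (fun H => Xi (assMarg le_rfl H)) + j * (b - K * (M / n)) ≤
          assF (q + 1) α μ ν (n + j) (fun H => Xi (assMarg (Nat.le_add_right n j) H)) := by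
      intro j
      induction j with
      | zero => intro _; simp
      | succ j ih =>
        intro hj
        have h1 := ih (by omega)
        have h2 := ass_step hα hμ hν hsym hn1' (Nat.le_add_right n j) hXi
        have hj' : (j : ℝ) + 1 ≤ M := by exact_mod_cast hj
        have h3 : K * ((((n + j : ℕ) : ℝ) + 1 - n) / n) ≤ K * (M / n) := by
          refine mul_le_mul_of_nonneg_left (div_le_div_of_nonneg_right ?_ hn0.le) hK0
          push_cast
          linarith
        have h4 : 4 * α * (q + 1) ^ 2 * ((((n + j : ℕ) : ℝ) + 1 - n) / n) * ∫ θ, ‖θ‖ ∂μ =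
            K * ((((n + j : ℕ) : ℝ) + 1 - n) / n) := by rw [hK]; ring
        rw [h4] at h2
        refine le_trans ?_ h2
        push_cast at h3 ⊢
        linarith
    have h1 := hind M le_rfl
    have h2 := assF_mono (α := α) hμ hν (hl.comp_marg (Nat.le_add_right n M)) (assLip_logZ (n + M))
      (c := n * Real.log 2 - C) (fun H => by
        have := abs_le.mp (hXi.near (assMarg (Nat.le_add_right n M) H))
        rw [assLogZ_eq (Nat.le_add_right n M)]
        linarith [this.2])
    have h3 := assF_mono (α := α) hμ hν (assLip_logZ n) (hl.comp_marg le_rfl)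
      (c := -(n * Real.log 2) - C) (fun H => by
        have := abs_le.mp (hXi.near (assMarg le_rfl H))
        rw [assLogZ_eq le_rfl]
        linarith [this.1])
    have h4 : K * (M / n) ≤ ε / 4 := by
      rw [← mul_div_assoc, div_le_iff₀ hn0]
      linarith
    have h5 : (M : ℝ) * (K * (M / n)) ≤ M * (ε / 4) :=
      mul_le_mul_of_nonneg_left h4 (by linarith)
    linarith
  filter_upwards [ass_tele (a := fun N => assF (q + 1) α μ ν N assLogZ) (by exact_mod_cast hM1)
    hblock (half_pos hε), Filter.eventually_ge_atTop 1] with N h1 h2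
  rw [pressure_eq_assF hα hμ hν h2]
  linarith

end Crest.Agent.R141
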