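import Crest.Agent.R141.CP

/-! Row 141, module H3 (auxiliary 1): smoothing of Lipschitz functions by probability measures,
and reindexing of intensities. -/

set_option autoImplicit false
set_option linter.unusedSectionVars false

namespace Crest.Agent.R141

open Finset MeasureTheory Crest.ProbabilityR.Diluted

variable {A B : Type} [Fintype A] [Fintype B]

/-- 1-Lipschitz functions. -/
def AssLip (g : (A → ℝ) → ℝ) : Prop := ∀ H H', |g H - g H'| ≤ ‖H - H'‖

/-- Finite first moment. -/
def AssMom (P : Measure (A → ℝ)) : Prop := Integrable (fun y => ‖y‖) P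

/-- Smoothing. -/
noncomputable def assSm (P : Measure (A → ℝ)) (g : (A → ℝ) → ℝ) (x : A → ℝ) : ℝ :=
  ∫ y, g (x + y) ∂P

theorem AssLip.continuous {g : (A → ℝ) → ℝ} (hg : AssLip g) : Continuous g := by
  refine (LipschitzWith.of_dist_le_mul (K := 1) fun x y => ?_).continuous
  rw [Real.dist_eq, dist_eq_norm, NNReal.coe_one, one_mul]
  exact hg x y

theorem AssLip.shift {g : (A → ℝ) → ℝ} (hg : AssLip g) (x : A → ℝ) :
    AssLip (fun y => g (x + y)) := fun H H' => by
  have := hg (x + H) (x + H')
  rwa [add_sub_add_left_eq_sub] at this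

theorem AssLip.sub_const {g : (A → ℝ) → ℝ} (hg : AssLip g) (c : ℝ) :
    AssLip (fun y => g y - c) := fun H H' => by
  have := hg H H'
  rwa [sub_sub_sub_cancel_right]

theorem AssLip.integrable {g : (A → ℝ) → ℝ} (hg : AssLip g) {P : Measure (A → ℝ)}
    [IsFiniteMeasure P] (hP : AssMom P) : Integrable g P := by
  refine Integrable.mono' ((integrable_const |g 0|).add hP) hg.continuous.aestronglyMeasurable
    (Filter.Eventually.of_forall fun y => ?_)
  have h1 := hg y 0
  rw [sub_zero] at h1
  have h2 := abs_sub_abs_le_abs_sub (g y) (g 0)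
  simp only [Real.norm_eq_abs, Pi.add_apply]
  linarith

theorem AssLip.sm {g : (A → ℝ) → ℝ} (hg : AssLip g) {P : Measure (A → ℝ)}
    [IsProbabilityMeasure P] (hP : AssMom P) : AssLip (assSm P g) := fun H H' => by
  unfold assSm
  rw [← integral_sub ((hg.shift H).integrable hP) ((hg.shift H').integrable hP)]
  have := norm_integral_le_of_norm_le_const (μ := P) (f := fun y => g (H + y) - g (H' + y))
    (C := ‖H - H'‖) (Filter.Eventually.of_forall fun y => by
      have := hg (H + y) (H' + y)
      rwa [add_sub_add_right_eq_sub] at this)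
  simpa using this

theorem AssLip.comp_clm {g : (B → ℝ) → ℝ} (hg : AssLip g) (L : (A → ℝ) →L[ℝ] (B → ℝ))
    (hL : ∀ x, ‖L x‖ ≤ ‖x‖) : AssLip (fun x => g (L x)) := fun H H' =>
  (hg _ _).trans (by rw [← map_sub]; exact hL _)

theorem assSm_mono {g g' : (A → ℝ) → ℝ} (hg : AssLip g) (hg' : AssLip g') {P : Measure (A → ℝ)}
    [IsProbabilityMeasure P] (hP : AssMom P) {c : ℝ} (h : ∀ x, g x + c ≤ g' x) (x : A → ℝ) :
    assSm P g x + c ≤ assSm P g' x := by
  unfold assSm
  have h1 : ∫ y, g (x + y) ∂P + c = ∫ y, (g (x + y) + c) ∂P := by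
    rw [integral_add ((hg.shift x).integrable hP) (integrable_const c)]
    simp
  rw [h1]
  exact integral_mono (((hg.shift x).integrable hP).add (integrable_const c))
    ((hg'.shift x).integrable hP) fun y => h _

theorem assSm_sub_const {g : (A → ℝ) → ℝ} (hg : AssLip g) {P : Measure (A → ℝ)}
    [IsProbabilityMeasure P] (hP : AssMom P) (c : ℝ) (x : A → ℝ) :
    assSm P g x - c = ∫ y, (g (x + y) - c) ∂P := by
  unfold assSm
  rw [integral_sub ((hg.shift x).integrable hP) (integrable_const c)]
  simp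

theorem AssMom.prod_add {P Q : Measure (A → ℝ)} [IsProbabilityMeasure P] [IsProbabilityMeasure Q]
    (hP : AssMom P) (hQ : AssMom Q) {g : (A → ℝ) → ℝ} (hg : AssLip g) :
    Integrable (fun z : (A → ℝ) × (A → ℝ) => g (z.1 + z.2)) (P.prod Q) := by
  have h1 : Integrable (fun z : (A → ℝ) × (A → ℝ) => ‖z.1‖) (P.prod Q) := hP.comp_fst Q
  have h2 : Integrable (fun z : (A → ℝ) × (A → ℝ) => ‖z.2‖) (P.prod Q) := hQ.comp_snd P
  refine Integrable.mono' ((integrable_const |g 0|).add (h1.add h2))
    (hg.continuous.comp (continuous_fst.add continuous_snd)).aestronglyMeasurable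
    (Filter.Eventually.of_forall fun z => ?_)
  have h3 := hg (z.1 + z.2) 0
  rw [sub_zero] at h3
  have h4 := abs_sub_abs_le_abs_sub (g (z.1 + z.2)) (g 0)
  have h5 := norm_add_le z.1 z.2
  simp only [Real.norm_eq_abs, Pi.add_apply]
  linarith

theorem assLip_norm : AssLip (fun y : A → ℝ => ‖y‖) := fun H H' => abs_norm_sub_norm_le H H'

theorem AssMom.conv {P Q : Measure (A → ℝ)} [IsProbabilityMeasure P] [IsProbabilityMeasure Q]
    (hP : AssMom P) (hQ : AssMom Q) : AssMom (P.conv Q) := by
  unfold AssMom Measure.conv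
  rw [integrable_map_measure continuous_norm.aestronglyMeasurable (by fun_prop)]
  exact hP.prod_add hQ assLip_norm

theorem assSm_conv {P Q : Measure (A → ℝ)} [IsProbabilityMeasure P] [IsProbabilityMeasure Q]
    (hP : AssMom P) (hQ : AssMom Q) {g : (A → ℝ) → ℝ} (hg : AssLip g) :
    assSm (P.conv Q) g = assSm P (assSm Q g) := by
  funext x
  unfold assSm
  rw [integral_conv ((hg.shift x).integrable (hP.conv hQ))]
  simp only [add_assoc]

theorem assSm_comm {P Q : Measure (A → ℝ)} [IsProbabilityMeasure P] [IsProbabilityMeasure Q]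
    (hP : AssMom P) (hQ : AssMom Q) {g : (A → ℝ) → ℝ} (hg : AssLip g) :
    assSm P (assSm Q g) = assSm Q (assSm P g) := by
  rw [← assSm_conv hP hQ hg, ← assSm_conv hQ hP hg, Measure.conv_comm]

theorem AssMom.map_clm {P : Measure (A → ℝ)} (hP : AssMom P) (L : (A → ℝ) →L[ℝ] (B → ℝ))
    (hL : ∀ x, ‖L x‖ ≤ ‖x‖) : AssMom (P.map L) := by
  unfold AssMom
  rw [integrable_map_measure continuous_norm.aestronglyMeasurable
    L.continuous.measurable.aemeasurable]
  exact Integrable.mono' hP (continuous_norm.comp L.continuous).aestronglyMeasurable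
    (Filter.Eventually.of_forall fun y => by simpa using hL y)

theorem assSm_map {P : Measure (A → ℝ)} (L : (A → ℝ) →L[ℝ] (B → ℝ)) {g : (B → ℝ) → ℝ}
    (hg : AssLip g) (x : A → ℝ) :
    assSm (P.map L) g (L x) = assSm P (fun y => g (L y)) x := by
  unfold assSm
  rw [integral_map L.continuous.measurable.aemeasurable
    (hg.shift (L x)).continuous.aestronglyMeasurable]
  simp only [map_add]

/-! ### intensities -/

section inten

variable {Θ T T' : Type} [MeasurableSpace Θ] [Fintype T] [Fintype T']

theorem assMom_inten (μ : Measure Θ) (c : T → ℝ) (a : T → Θ → A → ℝ)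
    (ha : ∀ t, Measurable (a t)) (hi : ∀ t, Integrable (fun θ => ‖a t θ‖) μ) :
    AssMom (inten μ c a) := by
  unfold AssMom inten
  refine integrable_finsetSum_measure.mpr fun t _ => ?_
  refine Integrable.smul_measure ?_ ENNReal.ofReal_ne_top
  rw [integrable_map_measure continuous_norm.aestronglyMeasurable (ha t).aemeasurable]
  exact hi t

theorem assMom_CP_inten (μ : Measure Θ) [IsFiniteMeasure μ] (c : T → ℝ) (a : T → Θ → A → ℝ)
    (ha : ∀ t, Measurable (a t)) (hi : ∀ t, Integrable (fun θ => ‖a t θ‖) μ) :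
    AssMom (CP (inten μ c a)) :=
  integrable_norm_CP _ (assMom_inten μ c a ha hi)

/-- Push a coefficient family forward along a map of index types. -/
noncomputable def assPush (e : T' → T) (c : T' → ℝ) (t : T) : ℝ :=
  open Classical in ∑ t', if e t' = t then c t' else 0

omit [Fintype T] in
theorem assPush_nonneg (e : T' → T) {c : T' → ℝ} (hc : ∀ t, 0 ≤ c t) (t : T) :
    0 ≤ assPush e c t :=
  Finset.sum_nonneg fun t' _ => by split_ifs; exacts [hc t', le_rfl]

theorem inten_assPush (μ : Measure Θ) (e : T' → T) {c : T' → ℝ} (hc : ∀ t, 0 ≤ c t)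
    (a : T → Θ → A → ℝ) : inten μ (assPush e c) a = inten μ c (fun t' => a (e t')) := by
  classical
  unfold inten assPush
  have h1 : ∀ t, ENNReal.ofReal (∑ t', if e t' = t then c t' else 0) • μ.map (a t) =
      ∑ t', if e t' = t then ENNReal.ofReal (c t') • μ.map (a (e t')) else 0 := by
    intro t
    rw [ENNReal.ofReal_sum_of_nonneg (fun t' _ => by split_ifs; exacts [hc t', le_rfl]),
      Finset.sum_smul]
    refine Finset.sum_congr rfl fun t' _ => ?_
    split_ifs with h
    · rw [h]
    · simp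
  simp only [h1]
  rw [Finset.sum_comm]
  refine Finset.sum_congr rfl fun t' _ => ?_
  rw [Finset.sum_ite_eq]
  simp

theorem sum_abs_sub_assPush_le {e : T' → T} (he : Function.Injective e) {d : ℝ} (hd : 0 ≤ d)
    (c : T' → ℝ) :
    ∑ t, |d - assPush e c t| ≤
      d * ((Fintype.card T : ℝ) - Fintype.card T') + ∑ t', |d - c t'| := by
  classical
  have h1 : ∀ t', assPush e c (e t') = c t' := by
    intro t'
    unfold assPush
    rw [Finset.sum_eq_single t']
    · simp
    · intro b _ hb
      rw [if_neg (fun h => hb (he h))]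
    · simp
  have h2 : ∀ t, t ∉ Finset.univ.image e → assPush e c t = 0 := by
    intro t ht
    unfold assPush
    refine Finset.sum_eq_zero fun t' _ => if_neg fun h => ht ?_
    exact Finset.mem_image.mpr ⟨t', Finset.mem_univ _, h⟩
  rw [← Finset.sum_add_sum_compl (Finset.univ.image e), Finset.sum_image (fun a _ b _ h => he h),
    add_comm]
  refine add_le_add (le_of_eq ?_) (le_of_eq (Finset.sum_congr rfl fun t' _ => by rw [h1]))
  rw [Finset.sum_congr rfl (g := fun _ => d) (fun t ht => by
    rw [h2 t (Finset.mem_compl.mp ht), sub_zero, abs_of_nonneg hd])]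
  rw [Finset.sum_const, Finset.card_compl, Finset.card_image_of_injective _ he, nsmul_eq_mul,
    Finset.card_univ, Nat.cast_sub (Fintype.card_le_of_injective e he), mul_comm]

theorem inten_add (μ : Measure Θ) {c c' : T → ℝ} (hc : ∀ t, 0 ≤ c t) (hc' : ∀ t, 0 ≤ c' t)
    (a : T → Θ → A → ℝ) :
    inten μ (fun t => c t + c' t) a = inten μ c a + inten μ c' a := by
  unfold inten
  rw [← Finset.sum_add_distrib]
  refine Finset.sum_congr rfl fun t _ => ?_
  rw [ENNReal.ofReal_add (hc t) (hc' t), add_smul]

theorem inten_sum (μ : Measure Θ) (c : T ⊕ T' → ℝ) (a : T ⊕ T' → Θ → A → ℝ) :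
    inten μ c a = inten μ (fun t => c (Sum.inl t)) (fun t => a (Sum.inl t)) +
      inten μ (fun t => c (Sum.inr t)) (fun t => a (Sum.inr t)) := by
  unfold inten
  rw [Fintype.sum_sum_type]

theorem inten_map (μ : Measure Θ) (c : T → ℝ) (a : T → Θ → A → ℝ) (ha : ∀ t, Measurable (a t))
    (L : (A → ℝ) →L[ℝ] (B → ℝ)) :
    (inten μ c a).map L = inten μ c (fun t θ => L (a t θ)) := by
  unfold inten
  rw [Measure.map_finset_sum' L.continuous.measurable.aemeasurable]
  refine Finset.sum_congr rfl fun t _ => ?_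
  rw [Measure.map_smul, Measure.map_map L.continuous.measurable (ha t)]
  rfl

theorem inten_prod_fst (μ : Measure Θ) (c : ℝ) (a : T × T' → Θ → A → ℝ)
    (a' : T' → Θ → A → ℝ) (h : ∀ t t', μ.map (a (t, t')) = μ.map (a' t')) :
    inten μ (fun _ => c) a = inten μ (fun _ => Fintype.card T * c) a' := by
  unfold inten
  rw [Fintype.sum_prod_type_right]
  refine Finset.sum_congr rfl fun t' _ => ?_
  simp only [h]
  rw [Finset.sum_const, Finset.card_univ, ENNReal.ofReal_mul (Nat.cast_nonneg _),
    ENNReal.ofReal_natCast, mul_smul, Nat.cast_smul_eq_nsmul]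

end inten

end Crest.Agent.R141
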