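import Crest.Agent.R141.ASSAux1

/-! Row 141, module H3 (auxiliary 2): clauses, fields, marginal Hamiltonians. -/

set_option autoImplicit false
set_option linter.unusedSectionVars false

namespace Crest.Agent.R141

open Finset MeasureTheory Crest.ProbabilityR.Diluted

/-- The Hamiltonian of one clause. -/
def assClause {p : ℕ} (N : ℕ) (idx : Fin p → Fin N) (θ : Inter p) : (Fin N → Bool) → ℝ :=
  fun s => θ (fun l => s (idx l))

/-- The Hamiltonian of the fields. -/
noncomputable def assFld (N : ℕ) (hs : Fin N → ℝ) : (Fin N → Bool) → ℝ :=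
  fun s => ∑ i, hs i * spinVal (s i)

/-- The Hamiltonian of the field on the last spin. -/
noncomputable def assFld1 (N : ℕ) (h : ℝ) : (Fin (N + 1) → Bool) → ℝ :=
  fun s => h * spinVal (s (Fin.last N))

/-- Hamiltonians not depending on the last spin. -/
noncomputable def assIota (N : ℕ) : ((Fin N → Bool) → ℝ) →L[ℝ] ((Fin (N + 1) → Bool) → ℝ) :=
  ContinuousLinearMap.pi fun s => ContinuousLinearMap.proj (fun i : Fin N => s i.castSucc)

theorem assIota_apply (N : ℕ) (H : (Fin N → Bool) → ℝ) (s : Fin (N + 1) → Bool) :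
    assIota N H s = H (fun i => s i.castSucc) := rfl

theorem norm_assIota_le (N : ℕ) (H : (Fin N → Bool) → ℝ) : ‖assIota N H‖ ≤ ‖H‖ :=
  (pi_norm_le_iff_of_nonneg (norm_nonneg _)).mpr fun _ => norm_le_pi_norm H _

theorem measurable_comp_inter {p : ℕ} {S : Type} (f : S → Fin p → Bool) :
    Measurable (fun (θ : Inter p) (s : S) => θ (f s)) :=
  measurable_pi_lambda _ fun _ => measurable_pi_apply _

theorem norm_comp_inter_le {p : ℕ} {S : Type} [Fintype S] (f : S → Fin p → Bool) (θ : Inter p) :
    ‖(fun s : S => θ (f s))‖ ≤ ‖θ‖ :=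
  (pi_norm_le_iff_of_nonneg (norm_nonneg _)).mpr fun _ => norm_le_pi_norm θ _

theorem integrable_norm_comp_inter {p : ℕ} {μ : Measure (Inter p)}
    (hμ : Integrable (fun θ : Inter p => ‖θ‖) μ) {S : Type} [Fintype S] (f : S → Fin p → Bool) :
    Integrable (fun θ : Inter p => ‖(fun s : S => θ (f s))‖) μ :=
  Integrable.mono' hμ (measurable_comp_inter f).norm.aestronglyMeasurable
    (Filter.Eventually.of_forall fun θ => by simpa using norm_comp_inter_le f θ)

theorem abs_spinVal (b : Bool) : |spinVal b| = 1 := by cases b <;> simp [spinVal]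

theorem continuous_assFld (N : ℕ) : Continuous (assFld N) := by
  unfold assFld; fun_prop

theorem continuous_assFld1 (N : ℕ) : Continuous (assFld1 N) := by
  unfold assFld1; fun_prop

theorem norm_assFld1_le (N : ℕ) (h : ℝ) : ‖assFld1 N h‖ ≤ |h| :=
  (pi_norm_le_iff_of_nonneg (abs_nonneg _)).mpr fun s => by
    simp [assFld1, abs_spinVal]

theorem norm_assFld_le (N : ℕ) (hs : Fin N → ℝ) : ‖assFld N hs‖ ≤ ∑ i, |hs i| :=
  (pi_norm_le_iff_of_nonneg (Finset.sum_nonneg fun _ _ => abs_nonneg _)).mpr fun s => by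
    rw [Real.norm_eq_abs]
    refine (Finset.abs_sum_le_sum_abs _ _).trans (le_of_eq ?_)
    simp [abs_mul, abs_spinVal]

/-- The law of the field Hamiltonian. -/
noncomputable def assPhi (ν : Measure ℝ) (N : ℕ) : Measure ((Fin N → Bool) → ℝ) :=
  (Measure.pi fun _ : Fin N => ν).map (assFld N)

/-- The law of the field Hamiltonian of the last spin. -/
noncomputable def assPsi (ν : Measure ℝ) (N : ℕ) : Measure ((Fin (N + 1) → Bool) → ℝ) :=
  ν.map (assFld1 N)

instance (ν : Measure ℝ) [IsProbabilityMeasure ν] (N : ℕ) : IsProbabilityMeasure (assPhi ν N) :=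
  Measure.isProbabilityMeasure_map (continuous_assFld N).measurable.aemeasurable

instance (ν : Measure ℝ) [IsProbabilityMeasure ν] (N : ℕ) : IsProbabilityMeasure (assPsi ν N) :=
  Measure.isProbabilityMeasure_map (continuous_assFld1 N).measurable.aemeasurable

theorem assMom_phi {ν : Measure ℝ} [IsProbabilityMeasure ν] (hν : Integrable (fun x : ℝ => x) ν)
    (N : ℕ) : AssMom (assPhi ν N) := by
  unfold AssMom assPhi
  rw [integrable_map_measure continuous_norm.aestronglyMeasurable
    (continuous_assFld N).measurable.aemeasurable]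
  have h1 : Integrable (fun hs : Fin N → ℝ => ∑ i, |hs i|) (Measure.pi fun _ : Fin N => ν) :=
    integrable_finsetSum _ fun i _ =>
      (measurePreserving_eval (fun _ : Fin N => ν) i).integrable_comp_of_integrable hν.abs
  exact Integrable.mono' h1 (continuous_norm.comp (continuous_assFld N)).aestronglyMeasurable
    (Filter.Eventually.of_forall fun hs => by simpa using norm_assFld_le N hs)

theorem assMom_psi {ν : Measure ℝ} (hν : Integrable (fun x : ℝ => x) ν)
    (N : ℕ) : AssMom (assPsi ν N) := by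
  unfold AssMom assPsi
  rw [integrable_map_measure continuous_norm.aestronglyMeasurable
    (continuous_assFld1 N).measurable.aemeasurable]
  exact Integrable.mono' hν.abs (continuous_norm.comp (continuous_assFld1 N)).aestronglyMeasurable
    (Filter.Eventually.of_forall fun h => by simpa using norm_assFld1_le N h)

theorem assPhi_succ (ν : Measure ℝ) [IsProbabilityMeasure ν] (N : ℕ) :
    assPhi ν (N + 1) = (assPsi ν N).conv ((assPhi ν N).map (assIota N)) := by
  have hι := (assIota N).continuous.measurable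
  have hf := (continuous_assFld N).measurable
  have hf1 := (continuous_assFld1 N).measurable
  have hmp := measurePreserving_piFinSuccAbove (fun _ : Fin (N + 1) => ν) (Fin.last N)
  unfold assPhi assPsi Measure.conv
  rw [Measure.map_map hι hf, Measure.map_prod_map _ _ hf1 (hι.comp hf),
    Measure.map_map (by fun_prop) (hf1.prodMap (hι.comp hf)), ← hmp.map_eq,
    Measure.map_map (Measurable.comp (by fun_prop) (hf1.prodMap (hι.comp hf))) hmp.measurable]
  congr 1
  funext hs s
  simp [assFld, assFld1, assIota_apply, Fin.sum_univ_castSucc, MeasurableEquiv.piFinSuccAbove,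
    Fin.insertNthEquiv, Fin.init, add_comm]

/-! ### log-sum-exp -/

theorem log_sum_exp_le {S : Type} [Fintype S] (P : S → Prop) [DecidablePred P] (hP : ∃ s, P s)
    (H H' : S → ℝ) {c : ℝ} (h : ∀ s, H s ≤ H' s + c) :
    Real.log (∑ s, if P s then Real.exp (H s) else 0) ≤
      Real.log (∑ s, if P s then Real.exp (H' s) else 0) + c := by
  have pos : ∀ G : S → ℝ, 0 < ∑ s, if P s then Real.exp (G s) else 0 := by
    intro G
    obtain ⟨s₀, hs₀⟩ := hP
    refine Finset.sum_pos' (fun s _ => by split_ifs; exacts [(Real.exp_pos _).le, le_rfl])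
      ⟨s₀, Finset.mem_univ _, by rw [if_pos hs₀]; exact Real.exp_pos _⟩
  rw [← Real.log_exp c, ← Real.log_mul (pos H').ne' (Real.exp_pos c).ne']
  refine Real.log_le_log (pos H) ?_
  rw [Finset.sum_mul]
  refine Finset.sum_le_sum fun s _ => ?_
  split_ifs
  · rw [← Real.exp_add]; exact Real.exp_le_exp.mpr (h s)
  · simp

theorem abs_log_sum_exp_sub_le {S : Type} [Fintype S] (P : S → Prop) [DecidablePred P]
    (hP : ∃ s, P s) (H H' : S → ℝ) :
    |Real.log (∑ s, if P s then Real.exp (H s) else 0) -
      Real.log (∑ s, if P s then Real.exp (H' s) else 0)| ≤ ‖H - H'‖ := by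
  have h1 : ∀ s, |H s - H' s| ≤ ‖H - H'‖ := fun s => norm_le_pi_norm (H - H') s
  have h2 := log_sum_exp_le P hP H H' (c := ‖H - H'‖) fun s => by
    have := abs_le.mp (h1 s); linarith [this.2]
  have h3 := log_sum_exp_le P hP H' H (c := ‖H - H'‖) fun s => by
    have := abs_le.mp (h1 s); linarith [this.1]
  rw [abs_le]; constructor <;> linarith

/-- The logarithm of the partition function. -/
noncomputable def assLogZ {N : ℕ} (H : (Fin N → Bool) → ℝ) : ℝ := Real.log (∑ s, Real.exp (H s))

theorem assLip_logZ (N : ℕ) : AssLip (assLogZ (N := N)) := fun H H' => by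
  have := abs_log_sum_exp_sub_le (fun _ : Fin N → Bool => True) ⟨fun _ => true, trivial⟩ H H'
  simpa [assLogZ] using this

/-- Restriction to the first `n` spins. -/
def assRes {n N : ℕ} (h : n ≤ N) (s : Fin N → Bool) : Fin n → Bool := fun i => s (Fin.castLE h i)

theorem assRes_surj {n N : ℕ} (h : n ≤ N) (x : Fin n → Bool) : ∃ s, assRes h s = x :=
  ⟨fun i => if hi : i.val < n then x ⟨i.val, hi⟩ else false, funext fun i => by simp [assRes]⟩

/-- The marginal Hamiltonian on the first `n` spins. -/
noncomputable def assMarg {n N : ℕ} (h : n ≤ N) (H : (Fin N → Bool) → ℝ) : (Fin n → Bool) → ℝ :=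
  fun x => Real.log (∑ s, if assRes h s = x then Real.exp (H s) else 0)

theorem assMarg_pos {n N : ℕ} (h : n ≤ N) (H : (Fin N → Bool) → ℝ) (x : Fin n → Bool) :
    0 < ∑ s, if assRes h s = x then Real.exp (H s) else 0 := by
  obtain ⟨s₀, hs₀⟩ := assRes_surj h x
  exact Finset.sum_pos' (fun s _ => by split_ifs; exacts [(Real.exp_pos _).le, le_rfl])
    ⟨s₀, Finset.mem_univ _, by rw [if_pos hs₀]; exact Real.exp_pos _⟩

theorem norm_assMarg_sub_le {n N : ℕ} (h : n ≤ N) (H H' : (Fin N → Bool) → ℝ) :
    ‖assMarg h H - assMarg h H'‖ ≤ ‖H - H'‖ :=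
  (pi_norm_le_iff_of_nonneg (norm_nonneg _)).mpr fun x =>
    abs_log_sum_exp_sub_le (fun s => assRes h s = x) (assRes_surj h x) H H'

theorem AssLip.comp_marg {n N : ℕ} (h : n ≤ N) {Xi : ((Fin n → Bool) → ℝ) → ℝ} (hXi : AssLip Xi) :
    AssLip (fun H => Xi (assMarg h H)) := fun H H' =>
  (hXi _ _).trans (norm_assMarg_sub_le h H H')

theorem assLogZ_eq {n N : ℕ} (h : n ≤ N) (H : (Fin N → Bool) → ℝ) :
    assLogZ H = n * Real.log 2 + Real.log (avg (fun x => Real.exp (assMarg h H x))) := by
  have h1 : ∑ x, Real.exp (assMarg h H x) = ∑ s, Real.exp (H s) := by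
    unfold assMarg
    simp only [Real.exp_log (assMarg_pos h H _)]
    rw [Finset.sum_comm]
    simp
  have h2 : 0 < ∑ s, Real.exp (H s) :=
    Finset.sum_pos (fun s _ => Real.exp_pos _) Finset.univ_nonempty
  unfold avg assLogZ
  rw [h1, Real.log_mul (by positivity) h2.ne', Real.log_inv]
  simp

theorem assMarg_add {n N : ℕ} (h : n ≤ N) (H : (Fin N → Bool) → ℝ) (f : (Fin n → Bool) → ℝ) :
    assMarg h (H + fun s => f (assRes h s)) = fun x => assMarg h H x + f x := by
  funext x
  unfold assMarg
  rw [← Real.log_exp (f x), ← Real.log_mul (assMarg_pos h H x).ne' (Real.exp_pos _).ne',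
    Finset.sum_mul]
  congr 1
  refine Finset.sum_congr rfl fun s _ => ?_
  split_ifs with hs
  · rw [Pi.add_apply, hs, Real.exp_add]
  · simp

theorem assMarg_iota {n N : ℕ} (h : n ≤ N) (H : (Fin N → Bool) → ℝ)
    (f : (Fin n → Bool) → Bool → ℝ) :
    assMarg (h.trans (Nat.le_succ N))
      (assIota N H + fun s => f (assRes (h.trans (Nat.le_succ N)) s) (s (Fin.last N))) =
      fun x => assMarg h H x + Real.log (∑ ε, Real.exp (f x ε)) := by
  funext x
  have hpos : 0 < ∑ ε, Real.exp (f x ε) :=
    Finset.sum_pos (fun _ _ => Real.exp_pos _) Finset.univ_nonempty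
  unfold assMarg
  rw [← Real.log_mul (assMarg_pos h H x).ne' hpos.ne', Finset.sum_mul_sum,
    ← (Fin.snocEquiv (fun _ : Fin (N + 1) => Bool)).sum_comp, Fintype.sum_prod_type_right]
  congr 1
  refine Finset.sum_congr rfl fun s _ => Finset.sum_congr rfl fun ε _ => ?_
  have e1 : assRes (h.trans (Nat.le_succ N))
      (Fin.snocEquiv (fun _ : Fin (N + 1) => Bool) (ε, s)) = assRes h s := by
    funext i
    have : Fin.castLE (h.trans (Nat.le_succ N)) i = (Fin.castLE h i).castSucc := rfl
    simp only [assRes, this, Fin.snocEquiv, Equiv.coe_fn_mk, Fin.snoc_castSucc]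
  rw [Pi.add_apply, e1, assIota_apply]
  simp only [Fin.snocEquiv, Equiv.coe_fn_mk, Fin.snoc_castSucc, Fin.snoc_last]
  split_ifs with hs
  · rw [hs, Real.exp_add]
  · simp

end Crest.Agent.R141
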