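import Crest.Agent.R141.BasicProj

/-! Row 141, module G0: elementary facts on `labLog`, `siteV` and Poisson weights, shared by the
bridge, the cavity estimate, the upper bound and the symmetrisation. -/

set_option autoImplicit false

namespace Crest.Agent.R141

open Finset Sys MeasureTheory Crest.ProbabilityR.Diluted

/-! ### `supNorm` is the sup norm -/

theorem supNorm_eq_norm {p : ℕ} (θ : Inter p) : supNorm θ = ‖θ‖ := by
  apply le_antisymm
  · exact ciSup_le fun s => by simpa using norm_le_pi_norm θ s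
  · have hb : BddAbove (Set.range fun s : Fin p → Bool => |θ s|) := (Set.finite_range _).bddAbove
    have h0 : 0 ≤ supNorm θ := (abs_nonneg _).trans (le_ciSup hb (fun _ => true))
    exact (pi_norm_le_iff_of_nonneg h0).2 fun s => le_ciSup hb s

/-! ### Poisson weights -/

theorem poissonWeight_nonneg {lam : ℝ} (h : 0 ≤ lam) (k : ℕ) : 0 ≤ poissonWeight lam k := by
  unfold poissonWeight
  positivity

theorem hasSum_poissonWeight (lam : ℝ) : HasSum (poissonWeight lam) 1 := by
  have h := (NormedSpace.expSeries_div_hasSum_exp (𝔸 := ℝ) lam).mul_left (Real.exp (-lam))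
  rw [← Real.exp_eq_exp_ℝ, ← Real.exp_add, neg_add_cancel, Real.exp_zero] at h
  have e : poissonWeight lam = fun k => Real.exp (-lam) * (lam ^ k / (Nat.factorial k : ℝ)) := by
    funext k
    rw [poissonWeight, mul_div_assoc]
  rw [e]
  exact h

theorem poissonWeight_succ (lam : ℝ) (k : ℕ) :
    ((k : ℝ) + 1) * poissonWeight lam (k + 1) = lam * poissonWeight lam k := by
  unfold poissonWeight
  rw [Nat.factorial_succ]
  have h1 : (Nat.factorial k : ℝ) ≠ 0 := by exact_mod_cast Nat.factorial_ne_zero k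
  have h2 : (k : ℝ) + 1 ≠ 0 := by positivity
  push_cast
  field_simp
  ring

theorem hasSum_poissonWeight_mul (lam : ℝ) : HasSum (fun k => poissonWeight lam k * k) lam := by
  rw [← hasSum_nat_add_iff' 1]
  have h := (hasSum_poissonWeight lam).mul_left lam
  simp only [range_one, sum_singleton, Nat.cast_zero, mul_zero, sub_zero]
  rw [mul_one] at h
  have e : (fun k : ℕ => poissonWeight lam (k + 1) * ((k + 1 : ℕ) : ℝ)) =
      fun k => lam * poissonWeight lam k := by
    funext k
    rw [← poissonWeight_succ]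
    push_cast
    ring
  rw [e]
  exact h

theorem labLog_hasSum_lin (lam A B : ℝ) :
    HasSum (fun k : ℕ => poissonWeight lam k * (A + B * k)) (A + B * lam) := by
  have h := ((hasSum_poissonWeight lam).mul_left A).add ((hasSum_poissonWeight_mul lam).mul_left B)
  rw [mul_one] at h
  have e : (fun k : ℕ => poissonWeight lam k * (A + B * k)) =
      fun k => A * poissonWeight lam k + B * (poissonWeight lam k * k) := by
    funext k
    ring
  rw [e]
  exact h

/-- Sequences of at most linear growth are Poisson-summable. -/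
theorem summable_poissonWeight_mul {lam : ℝ} (h : 0 ≤ lam) {g : ℕ → ℝ} {A B : ℝ}
    (hg : ∀ k, |g k| ≤ A + B * k) : Summable (fun k => poissonWeight lam k * g k) := by
  refine Summable.of_norm_bounded (labLog_hasSum_lin lam A B).summable fun k => ?_
  rw [Real.norm_eq_abs, abs_mul, abs_of_nonneg (poissonWeight_nonneg h k)]
  exact mul_le_mul_of_nonneg_left (hg k) (poissonWeight_nonneg h k)

theorem abs_tsum_poissonWeight_mul_le {lam : ℝ} (h : 0 ≤ lam) {g : ℕ → ℝ} {A B : ℝ}
    (hg : ∀ k, |g k| ≤ A + B * k) : |∑' k, poissonWeight lam k * g k| ≤ A + B * lam := by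
  rw [← Real.norm_eq_abs]
  refine tsum_of_norm_bounded (labLog_hasSum_lin lam A B) fun k => ?_
  rw [Real.norm_eq_abs, abs_mul, abs_of_nonneg (poissonWeight_nonneg h k)]
  exact mul_le_mul_of_nonneg_left (hg k) (poissonWeight_nonneg h k)

/-! ### the site factor -/

theorem siteV_pos {p k : ℕ} (h : ℝ) (θs : Fin k → Inter p) (s : Fin k × Fin (p - 1) → Bool) :
    0 < siteV h θs s := by
  unfold siteV
  exact mul_pos (by norm_num) (sum_pos (fun _ _ => Real.exp_pos _) univ_nonempty)

theorem labLog_log_avg_exp_le (x y : Bool → ℝ) {c : ℝ} (h : ∀ ε, x ε ≤ y ε + c) :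
    Real.log ((1 / 2) * ∑ ε : Bool, Real.exp (x ε)) ≤
      Real.log ((1 / 2) * ∑ ε : Bool, Real.exp (y ε)) + c := by
  have hy : 0 < (1 / 2 : ℝ) * ∑ ε : Bool, Real.exp (y ε) :=
    mul_pos (by norm_num) (sum_pos (fun _ _ => Real.exp_pos _) univ_nonempty)
  have hx : 0 < (1 / 2 : ℝ) * ∑ ε : Bool, Real.exp (x ε) :=
    mul_pos (by norm_num) (sum_pos (fun _ _ => Real.exp_pos _) univ_nonempty)
  rw [← Real.log_exp c, ← Real.log_mul hy.ne' (Real.exp_pos c).ne']
  refine Real.log_le_log hx ?_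
  rw [mul_assoc, sum_mul]
  refine mul_le_mul_of_nonneg_left (sum_le_sum fun ε _ => ?_) (by norm_num)
  rw [← Real.exp_add]
  exact Real.exp_le_exp.2 (h ε)

theorem labLog_abs_log_avg_exp_le (x y : Bool → ℝ) {c : ℝ} (h : ∀ ε, |x ε - y ε| ≤ c) :
    |Real.log ((1 / 2) * ∑ ε : Bool, Real.exp (x ε)) -
      Real.log ((1 / 2) * ∑ ε : Bool, Real.exp (y ε))| ≤ c := by
  have h1 := labLog_log_avg_exp_le x y (c := c) fun ε => by linarith [(abs_le.1 (h ε)).2]
  have h2 := labLog_log_avg_exp_le y x (c := c) fun ε => by linarith [(abs_le.1 (h ε)).1]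
  rw [abs_le]
  constructor <;> linarith

theorem labLog_abs_spinVal (ε : Bool) : |spinVal ε| = 1 := by
  cases ε <;> simp [spinVal]

theorem labLog_siteV_sub_le {p k : ℕ} (h h' : ℝ) (θs θs' : Fin k → Inter p)
    (s : Fin k × Fin (p - 1) → Bool) :
    |Real.log (siteV h θs s) - Real.log (siteV h' θs' s)| ≤ |h - h'| + ∑ j, ‖θs j - θs' j‖ := by
  unfold siteV
  refine labLog_abs_log_avg_exp_le _ _ fun ε => ?_
  have e1 : h * spinVal ε + ∑ j : Fin k, θs j (ext (fun l => s (j, l)) ε) -
      (h' * spinVal ε + ∑ j : Fin k, θs' j (ext (fun l => s (j, l)) ε)) =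
      (h - h') * spinVal ε + ∑ j : Fin k, (θs j - θs' j) (ext (fun l => s (j, l)) ε) := by
    simp only [Pi.sub_apply, sum_sub_distrib]
    ring
  rw [e1]
  refine (abs_add_le _ _).trans (add_le_add ?_ ?_)
  · rw [abs_mul, labLog_abs_spinVal, mul_one]
  · refine (abs_sum_le_sum_abs _ _).trans (sum_le_sum fun j _ => ?_)
    exact norm_le_pi_norm (θs j - θs' j) _

theorem abs_log_siteV_le {p k : ℕ} (h : ℝ) (θs : Fin k → Inter p)
    (s : Fin k × Fin (p - 1) → Bool) : |Real.log (siteV h θs s)| ≤ |h| + ∑ j, ‖θs j‖ := by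
  have h1 := labLog_siteV_sub_le h 0 θs 0 s
  have h2 : siteV 0 (0 : Fin k → Inter p) s = 1 := by simp [siteV]
  simpa [h2] using h1

theorem abs_log_siteV_sub_le {p k : ℕ} (h h' : ℝ) (θs θs' : Fin k → Inter p)
    (s : Fin k × Fin (p - 1) → Bool) :
    |Real.log (siteV h θs s) - Real.log (siteV h' θs' s)| ≤ |h - h'| + ∑ j, ‖θs j - θs' j‖ := by
  exact labLog_siteV_sub_le h h' θs θs' s

/-! ### `labLog` -/

variable {Λ : Type} [Fintype Λ] [DecidableEq Λ] {m : ℕ → ℝ} {r : ℕ} {Lab : Sys Bool}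

theorem labLog_sum_prod (hL : Prob (r + 2) Lab) :
    ∑ u : Λ → Lab.ι, ∏ l, Lab.p (u l) = 1 := by
  have h := Finset.prod_univ_sum (fun _ : Λ => (univ : Finset Lab.ι)) (fun _ a => Lab.p a)
  rw [Fintype.piFinset_univ] at h
  rw [← h]
  exact prod_eq_one fun l _ => hL.2.1

theorem abs_labLog_sub_le (hm : ∀ d, 0 < m d) (hL : Prob (r + 2) Lab) {V V' : (Λ → Bool) → ℝ}
    {c : ℝ} (hV : ∀ s, 0 < V s) (hV' : ∀ s, 0 < V' s)
    (h : ∀ s, |Real.log (V s) - Real.log (V' s)| ≤ c) :
    |labLog m r Lab V - labLog m r Lab V'| ≤ c := by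
  unfold labLog
  rw [← sum_sub_distrib]
  refine (abs_sum_le_sum_abs _ _).trans ?_
  calc ∑ u : Λ → Lab.ι, |(∏ l, Lab.p (u l)) *
          Real.log (T m (r + 1) (piProd (r + 1) (fun l => Lab.ch (u l))) (fun L => V L.val)) -
        (∏ l, Lab.p (u l)) *
          Real.log (T m (r + 1) (piProd (r + 1) (fun l => Lab.ch (u l))) (fun L => V' L.val))|
      ≤ ∑ u : Λ → Lab.ι, (∏ l, Lab.p (u l)) * c := by
        refine sum_le_sum fun u _ => ?_
        have hp : 0 ≤ ∏ l, Lab.p (u l) := prod_nonneg fun l _ => (hL.1 _).le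
        rw [← mul_sub, abs_mul, abs_of_nonneg hp]
        refine mul_le_mul_of_nonneg_left ?_ hp
        exact abs_log_T_sub_le hm (prob_piProd fun l => hL.2.2 _)
          (allAt_of_forall _ _ fun Q => ⟨hV _, hV' _, h _⟩)
    _ = c := by rw [← sum_mul, labLog_sum_prod hL, one_mul]

theorem labLog_const_mul (hm : ∀ d, 0 < m d) (hL : Prob (r + 2) Lab) {V : (Λ → Bool) → ℝ}
    (hV : ∀ s, 0 < V s) {c : ℝ} (hc : 0 < c) :
    labLog m r Lab (fun s => c * V s) = Real.log c + labLog m r Lab V := by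
  unfold labLog
  have h1 : ∀ u : Λ → Lab.ι,
      Real.log (T m (r + 1) (piProd (r + 1) (fun l => Lab.ch (u l))) (fun L => c * V L.val)) =
      Real.log c +
        Real.log (T m (r + 1) (piProd (r + 1) (fun l => Lab.ch (u l))) (fun L => V L.val)) := by
    intro u
    have hP : Prob (r + 1) (piProd (r + 1) (fun l => Lab.ch (u l))) :=
      prob_piProd fun l => hL.2.2 _
    have hA : AllAt (r + 1) (piProd (r + 1) (fun l => Lab.ch (u l))) (fun Q => 0 < V Q.val) :=
      allAt_of_forall _ _ fun Q => hV _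
    rw [T_const_mul hm hP hA hc, Real.log_mul hc.ne' (T_pos hP hA).ne']
  simp only [h1, mul_add, sum_add_distrib]
  rw [← sum_mul, labLog_sum_prod hL, one_mul]

theorem labLog_one (hm : ∀ d, 0 < m d) (hL : Prob (r + 2) Lab) :
    labLog m r Lab (fun _ : Λ → Bool => 1) = 0 := by
  unfold labLog
  refine sum_eq_zero fun u _ => ?_
  rw [T_const hm (prob_piProd fun l => hL.2.2 _) one_pos, Real.log_one, mul_zero]

theorem abs_labLog_le (hm : ∀ d, 0 < m d) (hL : Prob (r + 2) Lab) {V : (Λ → Bool) → ℝ} {c : ℝ}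
    (hV : ∀ s, 0 < V s) (h : ∀ s, |Real.log (V s)| ≤ c) : |labLog m r Lab V| ≤ c := by
  have h1 := abs_labLog_sub_le hm hL (V' := fun _ => 1) hV (fun _ => one_pos) (c := c)
    (fun s => by simpa using h s)
  rwa [labLog_one hm hL, sub_zero] at h1

/-- Additivity over disjoint groups of labels. -/
theorem labLog_groups (hm : ∀ d, 0 < m d) (hL : Prob (r + 2) Lab) {G : Type} [Fintype G]
    [DecidableEq G] {Λ' : G → Type} [∀ g, Fintype (Λ' g)] [∀ g, DecidableEq (Λ' g)]
    (e : ∀ g, Λ' g → Λ) (he : Function.Injective (fun x : Σ g, Λ' g => e x.1 x.2))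
    (V : ∀ g, (Λ' g → Bool) → ℝ) (hV : ∀ g s, 0 < V g s) :
    labLog m r Lab (fun s : Λ → Bool => ∏ g, V g (fun l => s (e g l))) =
      ∑ g, labLog m r Lab (V g) := by
  unfold labLog
  have h1 : ∀ u : Λ → Lab.ι,
      Real.log (T m (r + 1) (piProd (r + 1) (fun l => Lab.ch (u l)))
        (fun L => ∏ g, V g (fun l => L.val (e g l)))) =
      ∑ g, Real.log (T m (r + 1) (piProd (r + 1) (fun l => Lab.ch (u (e g l))))
        (fun L => V g L.val)) := by
    intro u
    rw [T_piProd_groups hm e he (S := fun l => Lab.ch (u l)) (fun l => hL.2.2 _) V hV,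
      Real.log_prod]
    intro g _
    exact (T_pos (prob_piProd fun l => hL.2.2 _) (allAt_of_forall _ _ fun Q => hV _ _)).ne'
  simp only [h1, mul_sum]
  rw [sum_comm]
  refine sum_congr rfl fun g _ => ?_
  have hg : Function.Injective (e g) := fun a b hab => by
    have := he (a₁ := ⟨g, a⟩) (a₂ := ⟨g, b⟩) hab
    simpa using this
  exact pi_marginal (A := fun _ => Lab.ι) (fun _ => Lab.p) (fun _ => hL.2.1) (e g) hg
    (fun b => Real.log (T m (r + 1) (piProd (r + 1) (fun l => Lab.ch (b l))) (fun L => V g L.val)))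

theorem continuous_labLog_site (hm : ∀ d, 0 < m d) (hL : Prob (r + 2) Lab) (p k : ℕ) :
    Continuous (fun z : (Fin k → Inter p) × ℝ => labLog m r Lab (siteV z.2 z.1)) := by
  refine (LipschitzWith.of_dist_le_mul (K := 1 + k) fun z z' => ?_).continuous
  rw [Real.dist_eq]
  refine abs_labLog_sub_le hm hL (siteV_pos _ _) (siteV_pos _ _) fun s => ?_
  refine (abs_log_siteV_sub_le _ _ _ _ s).trans ?_
  have h1 : |z.2 - z'.2| ≤ dist z z' := by
    rw [← Real.dist_eq, Prod.dist_eq]; exact le_max_right _ _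
  have h2 : ∀ j, ‖z.1 j - z'.1 j‖ ≤ dist z z' := fun j => by
    rw [← dist_eq_norm, Prod.dist_eq]
    exact (dist_le_pi_dist _ _ j).trans (le_max_left _ _)
  have h3 : ∑ j, ‖z.1 j - z'.1 j‖ ≤ k * dist z z' := by
    refine (sum_le_sum fun j _ => h2 j).trans ?_
    simp
  push_cast
  linarith

theorem continuous_labLog_edge (hm : ∀ d, 0 < m d) (hL : Prob (r + 2) Lab) (p : ℕ) :
    Continuous (fun θ : Inter p => labLog m r Lab (fun s : Fin p → Bool => Real.exp (θ s))) := by
  refine (LipschitzWith.of_dist_le_mul (K := 1) fun θ θ' => ?_).continuous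
  rw [Real.dist_eq]
  refine abs_labLog_sub_le hm hL (fun _ => Real.exp_pos _) (fun _ => Real.exp_pos _) fun s => ?_
  rw [Real.log_exp, Real.log_exp, ← Real.dist_eq, NNReal.coe_one, one_mul]
  exact dist_le_pi_dist _ _ s

/-! ### integrals against `μ^k` and `ν` of functions of linear growth -/

section integ

variable {p : ℕ} {μ : Measure (Inter p)} [IsProbabilityMeasure μ] {ν : Measure ℝ}
  [IsProbabilityMeasure ν]

theorem integrable_sum_norm (hμ : Integrable (fun θ : Inter p => ‖θ‖) μ) (J : Type) [Fintype J] :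
    Integrable (fun θs : J → Inter p => ∑ j, ‖θs j‖) (Measure.pi fun _ : J => μ) := by
  refine integrable_finsetSum _ fun j _ => ?_
  exact (measurePreserving_eval (fun _ : J => μ) j).integrable_comp_of_integrable hμ

theorem integral_sum_norm (hμ : Integrable (fun θ : Inter p => ‖θ‖) μ) (J : Type) [Fintype J] :
    ∫ θs : J → Inter p, ∑ j, ‖θs j‖ ∂(Measure.pi fun _ : J => μ) =
      Fintype.card J * ∫ θ, ‖θ‖ ∂μ := by
  have hj : ∀ j : J, Integrable (fun θs : J → Inter p => ‖θs j‖) (Measure.pi fun _ : J => μ) :=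
    fun j => (measurePreserving_eval (fun _ : J => μ) j).integrable_comp_of_integrable hμ
  rw [integral_finsetSum _ fun j _ => hj j]
  have h : ∀ j : J, ∫ θs : J → Inter p, ‖θs j‖ ∂(Measure.pi fun _ : J => μ) = ∫ θ, ‖θ‖ ∂μ := by
    intro j
    have h1 := (measurePreserving_eval (fun _ : J => μ) j)
    rw [← h1.map_eq, integral_map h1.measurable.aemeasurable continuous_norm.aestronglyMeasurable,
      h1.map_eq]
  simp [h]

theorem labLog_integrable_bound (hμ : Integrable (fun θ : Inter p => ‖θ‖) μ)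
    (hν : Integrable (fun x : ℝ => x) ν) (J : Type) [Fintype J] (A B : ℝ) :
    Integrable (fun z : (J → Inter p) × ℝ => A + B * (|z.2| + ∑ j, ‖z.1 j‖))
      ((Measure.pi fun _ : J => μ).prod ν) := by
  refine (integrable_const A).add (Integrable.const_mul (Integrable.add ?_ ?_) B)
  · exact hν.abs.comp_snd _
  · exact (integrable_sum_norm hμ J).comp_fst _

/-- A continuous function bounded by `A + |h| + ∑ ‖θ j‖` is integrable on the product. -/
theorem integrable_of_growth (hμ : Integrable (fun θ : Inter p => ‖θ‖) μ)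
    (hν : Integrable (fun x : ℝ => x) ν) {J : Type} [Fintype J] {f : (J → Inter p) × ℝ → ℝ}
    (hf : Continuous f) {A B : ℝ} (hb : ∀ z, |f z| ≤ A + B * (|z.2| + ∑ j, ‖z.1 j‖)) :
    Integrable f ((Measure.pi fun _ : J => μ).prod ν) := by
  exact (labLog_integrable_bound hμ hν J A B).mono' hf.aestronglyMeasurable
    (Filter.Eventually.of_forall hb)

theorem abs_integral_integral_le (hμ : Integrable (fun θ : Inter p => ‖θ‖) μ)
    (hν : Integrable (fun x : ℝ => x) ν) {J : Type} [Fintype J] {f : (J → Inter p) × ℝ → ℝ}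
    (hf : Continuous f) {A B : ℝ} (hb : ∀ z, |f z| ≤ A + B * (|z.2| + ∑ j, ‖z.1 j‖)) :
    |∫ θs, ∫ h, f (θs, h) ∂ν ∂(Measure.pi fun _ : J => μ)| ≤
      A + B * ((∫ h, |h| ∂ν) + Fintype.card J * ∫ θ, ‖θ‖ ∂μ) := by
  rw [← integral_prod f (integrable_of_growth hμ hν hf hb), ← Real.norm_eq_abs]
  refine (norm_integral_le_of_norm_le (labLog_integrable_bound hμ hν J A B)
    (Filter.Eventually.of_forall hb)).trans (le_of_eq ?_)
  have h1 : Integrable (fun z : (J → Inter p) × ℝ => |z.2|) ((Measure.pi fun _ : J => μ).prod ν) :=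
    hν.abs.comp_snd _
  have h2 : Integrable (fun z : (J → Inter p) × ℝ => ∑ j, ‖z.1 j‖)
      ((Measure.pi fun _ : J => μ).prod ν) := (integrable_sum_norm hμ J).comp_fst _
  have h3 : Integrable (fun z : (J → Inter p) × ℝ => B * (|z.2| + ∑ j, ‖z.1 j‖))
      ((Measure.pi fun _ : J => μ).prod ν) := (h1.add h2).const_mul B
  rw [integral_add (integrable_const A) h3, integral_const_mul,
    integral_add h1 h2, integral_fun_snd (fun h : ℝ => |h|),
    integral_fun_fst (fun θs : J → Inter p => ∑ j, ‖θs j‖), integral_sum_norm hμ]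
  simp

end integ

end Crest.Agent.R141
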