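import Crest.Agent.R141.Core
import Crest.Agent.R141.LabLog

/-! Row 141, module H1: the perturbed free energy and its cavity estimate. -/

set_option autoImplicit false

namespace Crest.Agent.R141

open Finset Sys MeasureTheory Crest.ProbabilityR.Diluted

/-- A perturbed free-energy functional of Hamiltonians on `n` spins with a cavity lower bound. -/
structure CavityData (p : ℕ) (α : ℝ) (μ : Measure (Inter p)) (ν : Measure ℝ) (b C : ℝ) (n : ℕ)
    (Xi : ((Fin n → Bool) → ℝ) → ℝ) : Prop where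
  lip : ∀ H H', |Xi H - Xi H'| ≤ ‖H - H'‖
  shift : ∀ H (c : ℝ), Xi (fun x => H x + c) = Xi H + c
  near : ∀ H, |Xi H - Real.log (avg (fun x => Real.exp (H x)))| ≤ C
  cav : ∀ H, b ≤ Real.log 2 +
    (∑' k : ℕ, poissonWeight (α * p) k * ∫ θs, ∫ h,
      avg (fun idx : Fin k × Fin (p - 1) → Fin n =>
        Xi (fun x => H x + Real.log (siteV h θs (fun l => x (idx l)))) - Xi H)
      ∂ν ∂(Measure.pi fun _ : Fin k => μ)) -
    ∑' k : ℕ, poissonWeight (α * (p - 1 : ℝ)) k * ∫ θs,
      avg (fun idx : Fin k → Fin p → Fin n =>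
        Xi (fun x => H x + ∑ j, θs j (fun l => x (idx j l))) - Xi H)
      ∂(Measure.pi fun _ : Fin k => μ)

/-! ### disorder averages of functions of linear growth -/

section cavAux

variable {p : ℕ} {μ : Measure (Inter p)} [IsProbabilityMeasure μ] {ν : Measure ℝ}
  [IsProbabilityMeasure ν]

/-- the size of the disorder at a cavity site -/
noncomputable def cavG {p : ℕ} (k : ℕ) (z : (Fin k → Inter p) × ℝ) : ℝ := |z.2| + ∑ j, ‖z.1 j‖

theorem cavG_nonneg (k : ℕ) (z : (Fin k → Inter p) × ℝ) : 0 ≤ cavG k z := by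
  unfold cavG; positivity

theorem continuous_cavG (k : ℕ) : Continuous (cavG (p := p) k) := by
  unfold cavG; fun_prop

/-- Poisson-weighted disorder average -/
noncomputable def cavE (μ : Measure (Inter p)) (ν : Measure ℝ) (lam : ℝ)
    (f : ∀ k : ℕ, (Fin k → Inter p) × ℝ → ℝ) : ℝ :=
  ∑' k : ℕ, poissonWeight lam k * ∫ θs, ∫ h, f k (θs, h) ∂ν ∂(Measure.pi fun _ : Fin k => μ)

/-- continuous with linear growth -/
def CavAdm {p : ℕ} (f : ∀ k : ℕ, (Fin k → Inter p) × ℝ → ℝ) : Prop :=
  ∀ k, Continuous (f k) ∧ ∀ z, |f k z| ≤ cavG k z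

theorem CavAdm.integrable (hμ : Integrable (fun θ : Inter p => ‖θ‖) μ)
    (hν : Integrable (fun x : ℝ => x) ν) {f : ∀ k : ℕ, (Fin k → Inter p) × ℝ → ℝ} (hf : CavAdm f)
    (k : ℕ) : Integrable (f k) ((Measure.pi fun _ : Fin k => μ).prod ν) :=
  integrable_of_growth hμ hν (hf k).1 (A := 0) (B := 1) fun z => by
    simpa [cavG] using (hf k).2 z

theorem CavAdm.summable (hμ : Integrable (fun θ : Inter p => ‖θ‖) μ)
    (hν : Integrable (fun x : ℝ => x) ν) {f : ∀ k : ℕ, (Fin k → Inter p) × ℝ → ℝ} (hf : CavAdm f)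
    {lam : ℝ} (hlam : 0 ≤ lam) : Summable fun k : ℕ => poissonWeight lam k *
      ∫ θs, ∫ h, f k (θs, h) ∂ν ∂(Measure.pi fun _ : Fin k => μ) := by
  refine summable_poissonWeight_mul hlam (A := ∫ h, |h| ∂ν) (B := ∫ θ, ‖θ‖ ∂μ) fun k => ?_
  have := abs_integral_integral_le hμ hν (hf k).1 (A := 0) (B := 1) fun z => by
    simpa [cavG] using (hf k).2 z
  simpa [mul_comm] using this

theorem cavE_sub (hμ : Integrable (fun θ : Inter p => ‖θ‖) μ)
    (hν : Integrable (fun x : ℝ => x) ν) {f g : ∀ k : ℕ, (Fin k → Inter p) × ℝ → ℝ} (hf : CavAdm f)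
    (hg : CavAdm g) {lam : ℝ} (hlam : 0 ≤ lam) :
    cavE μ ν lam f - cavE μ ν lam g = cavE μ ν lam fun k z => f k z - g k z := by
  unfold cavE
  rw [← (hf.summable hμ hν hlam).tsum_sub (hg.summable hμ hν hlam)]
  refine tsum_congr fun k => ?_
  have e := integral_prod (fun z => f k z - g k z)
    ((hf.integrable hμ hν k).sub (hg.integrable hμ hν k))
  rw [← mul_sub, ← integral_prod _ (hf.integrable hμ hν k), ← integral_prod _ (hg.integrable hμ hν k),
    ← integral_sub (hf.integrable hμ hν k) (hg.integrable hμ hν k), e]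

theorem cavE_avg (hμ : Integrable (fun θ : Inter p => ‖θ‖) μ)
    (hν : Integrable (fun x : ℝ => x) ν) {J : Type} [Fintype J]
    {f : J → ∀ k : ℕ, (Fin k → Inter p) × ℝ → ℝ} (hf : ∀ j, CavAdm (f j))
    {lam : ℝ} (hlam : 0 ≤ lam) :
    cavE μ ν lam (fun k z => avg fun j => f j k z) = avg fun j => cavE μ ν lam (f j) := by
  unfold cavE avg
  rw [← Summable.tsum_finsetSum fun j _ => (hf j).summable hμ hν hlam, ← tsum_mul_left]
  refine tsum_congr fun k => ?_
  have hi := fun j => (hf j).integrable hμ hν k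
  have e := integral_prod (fun z => (Fintype.card J : ℝ)⁻¹ * ∑ j, f j k z)
    ((integrable_finsetSum _ fun j _ => hi j).const_mul _)
  rw [← e, integral_const_mul, integral_finsetSum _ fun j _ => hi j, ← mul_sum, mul_left_comm]
  simp only [integral_prod _ (hi _)]

theorem cav_tail (hμ : Integrable (fun θ : Inter p => ‖θ‖) μ)
    (hν : Integrable (fun x : ℝ => x) ν) {lam : ℝ} (hlam : 0 ≤ lam) {ε : ℝ} (hε : 0 < ε) :
    ∀ᶠ B : ℕ in Filter.atTop, ∀ ξ : ℝ, 0 ≤ ξ → ∀ f g : ∀ k : ℕ, (Fin k → Inter p) × ℝ → ℝ,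
      CavAdm f → CavAdm g → (∀ (k : ℕ) z, k + cavG k z ≤ B → |f k z - g k z| ≤ ξ) →
      |cavE μ ν lam f - cavE μ ν lam g| ≤ ξ + ε := by
  let τ : ℕ → ℕ → ℝ := fun B k =>
    ∫ z, max ((k : ℝ) + cavG k z - B / 2) 0 ∂((Measure.pi fun _ : Fin k => μ).prod ν)
  have hG : CavAdm (p := p) cavG := fun k =>
    ⟨continuous_cavG k, fun z => (abs_of_nonneg (cavG_nonneg k z)).le⟩
  have hGi : ∀ k : ℕ, Integrable (fun z => (k : ℝ) + cavG k z)
      ((Measure.pi fun _ : Fin k => μ).prod ν) := fun k =>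
    (integrable_const _).add (hG.integrable hμ hν k)
  have hbd : ∀ (B k : ℕ) (z : (Fin k → Inter p) × ℝ),
      ‖max ((k : ℝ) + cavG k z - B / 2) 0‖ ≤ k + cavG k z := by
    intro B k z
    have h1 := cavG_nonneg k z
    rw [Real.norm_of_nonneg (le_max_right _ _)]
    exact max_le (by linarith [show (0 : ℝ) ≤ B / 2 by positivity]) (by positivity)
  have hτi : ∀ B k : ℕ, Integrable (fun z => max ((k : ℝ) + cavG k z - B / 2) 0)
      ((Measure.pi fun _ : Fin k => μ).prod ν) := fun B k =>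
    ((hGi k).sub (integrable_const _)).pos_part
  have hτ0 : ∀ B k, 0 ≤ τ B k := fun B k => integral_nonneg fun z => le_max_right _ _
  have hτb : ∀ B k, |τ B k| ≤ (∫ h, |h| ∂ν) + (1 + ∫ θ, ‖θ‖ ∂μ) * k := by
    intro B k
    have h1 : |τ B k| ≤ ∫ z, ((k : ℝ) + cavG k z) ∂((Measure.pi fun _ : Fin k => μ).prod ν) :=
      norm_integral_le_of_norm_le (hGi k) (Filter.Eventually.of_forall (hbd B k))
    rw [integral_add (integrable_const _) (hG.integrable hμ hν k),
      integral_prod _ (hG.integrable hμ hν k)] at h1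
    have h2 := abs_integral_integral_le hμ hν (hG k).1 (A := 0) (B := 1) fun z => by
      simpa [cavG] using (hG k).2 z
    have h3 := le_abs_self (∫ θs, ∫ h, cavG k (θs, h) ∂ν ∂(Measure.pi fun _ : Fin k => μ))
    simp only [integral_const, probReal_univ, smul_eq_mul, one_mul, Fintype.card_fin] at h1 h2
    linarith
  have hτlim : ∀ k, Filter.Tendsto (fun B => τ B k) Filter.atTop (nhds 0) := by
    intro k
    have := tendsto_integral_of_dominated_convergence
      (μ := (Measure.pi fun _ : Fin k => μ).prod ν)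
      (F := fun (B : ℕ) z => max ((k : ℝ) + cavG k z - B / 2) 0) (f := fun _ => 0) _
      (fun B => (hτi B k).aestronglyMeasurable) (hGi k)
      (fun B => Filter.Eventually.of_forall (hbd B k))
      (Filter.Eventually.of_forall fun z => by
        refine tendsto_const_nhds.congr' ?_
        filter_upwards [Filter.eventually_ge_atTop ⌈2 * ((k : ℝ) + cavG k z)⌉₊] with B hB
        have : 2 * ((k : ℝ) + cavG k z) ≤ B := Nat.ceil_le.mp hB
        exact (max_eq_right (by linarith)).symm)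
    simpa using this
  have hsum : Summable fun k : ℕ =>
      poissonWeight lam k * ((∫ h, |h| ∂ν) + (1 + ∫ θ, ‖θ‖ ∂μ) * k) :=
    summable_poissonWeight_mul hlam (A := ∫ h, |h| ∂ν) (B := 1 + ∫ θ, ‖θ‖ ∂μ) fun k =>
      (abs_of_nonneg ((abs_nonneg _).trans (hτb 0 k))).le
  have hlim : Filter.Tendsto (fun B => ∑' k, poissonWeight lam k * τ B k) Filter.atTop
      (nhds (∑' _k : ℕ, (0 : ℝ))) := by
    refine tendsto_tsum_of_dominated_convergence hsum
      (fun k => by simpa using (hτlim k).const_mul (poissonWeight lam k)) ?_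
    refine Filter.Eventually.of_forall fun B k => ?_
    rw [norm_mul, Real.norm_of_nonneg (poissonWeight_nonneg hlam k)]
    exact mul_le_mul_of_nonneg_left (hτb B k) (poissonWeight_nonneg hlam k)
  rw [tsum_zero] at hlim
  filter_upwards [hlim.eventually (ge_mem_nhds (show (0 : ℝ) < ε / 4 by positivity))]
    with B hB ξ hξ f g hf hg hfg
  rw [cavE_sub hμ hν hf hg hlam]
  have h1 : ∀ k, |∫ θs, ∫ h, (f k (θs, h) - g k (θs, h)) ∂ν ∂(Measure.pi fun _ : Fin k => μ)| ≤
      ξ + 4 * τ B k := by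
    intro k
    have hi := (hf.integrable hμ hν k).sub (hg.integrable hμ hν k)
    have e := integral_prod (fun z => f k z - g k z) hi
    rw [← e]
    have h2 := norm_integral_le_of_norm_le (f := fun z => f k z - g k z)
      ((integrable_const ξ).add ((hτi B k).const_mul 4)) (Filter.Eventually.of_forall fun z => by
        simp only [Pi.add_apply, Real.norm_eq_abs]
        by_cases hz : (k : ℝ) + cavG k z ≤ B
        · have := hfg k z hz
          have := le_max_right ((k : ℝ) + cavG k z - B / 2) 0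
          linarith
        · have a1 := (hf k).2 z
          have a2 := (hg k).2 z
          have a3 := abs_sub (f k z) (g k z)
          have a4 := le_max_left ((k : ℝ) + cavG k z - B / 2) 0
          have a5 : (0 : ℝ) ≤ k := by positivity
          push Not at hz
          linarith)
    simp only [Pi.add_apply] at h2
    rw [integral_add (integrable_const ξ) ((hτi B k).const_mul 4), integral_const_mul] at h2
    simpa using h2
  have hs1 : Summable fun k => poissonWeight lam k * τ B k :=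
    summable_poissonWeight_mul hlam (hτb B)
  have hs2 : HasSum (fun k => poissonWeight lam k * (ξ + 4 * τ B k))
      (ξ + 4 * ∑' k, poissonWeight lam k * τ B k) := by
    have := ((hasSum_poissonWeight lam).mul_right ξ).add (hs1.hasSum.mul_left 4)
    rw [one_mul] at this
    exact this.congr_fun fun k => by ring
  have hfin : ξ + 4 * ∑' k, poissonWeight lam k * τ B k ≤ ξ + ε := by linarith
  refine le_trans ?_ hfin
  rw [← Real.norm_eq_abs]
  unfold cavE
  refine tsum_of_norm_bounded hs2 fun k => ?_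
  rw [norm_mul, Real.norm_of_nonneg (poissonWeight_nonneg hlam k)]
  exact mul_le_mul_of_nonneg_left (h1 k) (poissonWeight_nonneg hlam k)

theorem cavE_edge (hμ : Integrable (fun θ : Inter p => ‖θ‖) μ) {e : Inter p → ℝ}
    (he : Continuous e) (hb : ∀ θ, |e θ| ≤ ‖θ‖) (lam : ℝ) :
    cavE μ ν lam (fun _ z => ∑ j, e (z.1 j)) = lam * ∫ θ, e θ ∂μ := by
  have hi : Integrable e μ :=
    hμ.mono' he.aestronglyMeasurable (Filter.Eventually.of_forall hb)
  unfold cavE
  rw [← ((hasSum_poissonWeight_mul lam).mul_right _).tsum_eq]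
  refine tsum_congr fun k => ?_
  simp only [integral_const, probReal_univ, smul_eq_mul, one_mul]
  have hj : ∀ j : Fin k, MeasurePreserving (fun θs : Fin k → Inter p => θs j)
      (Measure.pi fun _ : Fin k => μ) μ := fun j => measurePreserving_eval _ j
  rw [integral_finsetSum (f := fun (j : Fin k) (θs : Fin k → Inter p) => e (θs j)) _
    fun j _ => (hj j).integrable_comp_of_integrable hi]
  have : ∀ j : Fin k, ∫ θs, e (θs j) ∂(Measure.pi fun _ : Fin k => μ) = ∫ θ, e θ ∂μ := by
    intro j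
    rw [← (hj j).map_eq, integral_map (hj j).aemeasurable he.aestronglyMeasurable, (hj j).map_eq]
  simp [this, mul_assoc]

end cavAux

/-! ### the perturbed free energy of one item -/

section cavXi

variable {X : Type} [Fintype X] [Nonempty X] {m : ℕ → ℝ} {r : ℕ}

/-- the uniform measure on the configurations, below `r` trivial levels -/
noncomputable def cavU (X : Type) [Fintype X] [Nonempty X] (r : ℕ) : Sys X :=
  lift r (node (Classical.arbitrary X) X (fun _ => (Fintype.card X : ℝ)⁻¹) fun x => leaf x)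

theorem prob_cavU : Prob (r + 1) (cavU X r) := by
  rw [Nat.add_comm]
  have hX : (0 : ℝ) < Fintype.card X := by exact_mod_cast Fintype.card_pos
  refine prob_lift r ⟨fun _ => inv_pos.mpr hX, ?_, fun _ => trivial⟩
  rw [sum_node]
  simp [hX.ne']

/-- free energy perturbed by the item `A` -/
noncomputable def cavXi (m : ℕ → ℝ) (r : ℕ) (A : Sys (X → ℝ)) (H : X → ℝ) : ℝ :=
  Real.log (T m (r + 1) (prod (r + 1) (cavU X r) A) fun P => Real.exp (H P.val.1) * fac P)

/-- the Gibbs system -/
noncomputable def cavS (m : ℕ → ℝ) (r : ℕ) (H : X → ℝ) : Sys X :=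
  tilt m (r + 1) (cavU X r) fun L => Real.exp (H L.val)

theorem prob_cavS (hm : ∀ d, 0 < m d) (H : X → ℝ) : Prob (r + 1) (cavS m r H) :=
  prob_tilt' hm prob_cavU (allAt_of_forall _ _ fun _ => Real.exp_pos _)

variable {lo hi : ℝ} {A : Sys (X → ℝ)}

theorem cavXi_lip (hm : ∀ d, 0 < m d) (hlo : 0 < lo) (hA : Item (r + 1) lo hi A) (H H' : X → ℝ) :
    |cavXi m r A H - cavXi m r A H'| ≤ ‖H - H'‖ := by
  refine abs_log_T_sub_le hm (prob_prod prob_cavU hA.1) ((hA.allAt_fac _).imp fun Z hZ => ?_)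
  have h0 : 0 < fac Z := hlo.trans_le hZ.1
  refine ⟨by positivity, by positivity, ?_⟩
  rw [Real.log_mul (Real.exp_pos _).ne' h0.ne', Real.log_mul (Real.exp_pos _).ne' h0.ne',
    Real.log_exp, Real.log_exp, add_sub_add_right_eq_sub]
  exact norm_le_pi_norm (H - H') Z.val.1

theorem cavXi_shift (hm : ∀ d, 0 < m d) (hlo : 0 < lo) (hA : Item (r + 1) lo hi A) (H : X → ℝ)
    (c : ℝ) : cavXi m r A (fun x => H x + c) = cavXi m r A H + c := by
  have hpos : AllAt (r + 1) (prod (r + 1) (cavU X r) A)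
      fun P => 0 < Real.exp (H P.val.1) * fac P :=
    (hA.allAt_fac _).imp fun Z hZ => mul_pos (Real.exp_pos _) (hlo.trans_le hZ.1)
  have hP := prob_prod (prob_cavU (X := X) (r := r)) hA.1
  have := T_const_mul hm hP hpos (Real.exp_pos c)
  unfold cavXi
  rw [← Real.log_exp c, ← Real.log_mul (T_pos hP hpos).ne' (Real.exp_pos c).ne', mul_comm, ← this,
    Real.log_exp]
  congr 2
  ext P
  rw [Real.exp_add]; ring

theorem cavXi_near (hm : Exps m) (hlo : 0 < lo) (hA : Item (r + 1) lo hi A) (H : X → ℝ) :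
    |cavXi m r A H - Real.log (avg fun x => Real.exp (H x))| ≤
      max |Real.log lo| |Real.log hi| := by
  have hX : (0 : ℝ) < Fintype.card X := by exact_mod_cast Fintype.card_pos
  have e1 : T m (r + 1) (prod (r + 1) (cavU X r) A) (fun P => Real.exp (H P.val.1)) =
      avg fun x => Real.exp (H x) := by
    rw [(proj_prod_fst (cavU X r) hA.1).T_eq fun x => Real.exp (H x)]
    have e0 : T m 1 (node (Classical.arbitrary X) X (fun _ => (Fintype.card X : ℝ)⁻¹) fun x => leaf x)
        (fun L => Real.exp (H L.val)) = avg fun x => Real.exp (H x) := by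
      show (∑ x : X, (Fintype.card X : ℝ)⁻¹ * Real.exp (H x) ^ m 0) ^ (m 0)⁻¹ = _
      simp [hm.zero, avg, mul_sum]
    rw [Nat.add_comm, cavU, T_lift hm.pos 1 r _ ?_, e0]
    rw [e0]
    exact mul_pos (inv_pos.mpr hX) (Finset.sum_pos (fun _ _ => Real.exp_pos _) univ_nonempty)
  rw [← e1]
  refine abs_log_T_sub_le hm.pos (prob_prod prob_cavU hA.1) ((hA.allAt_fac _).imp fun Z hZ => ?_)
  have h0 : 0 < fac Z := hlo.trans_le hZ.1
  refine ⟨by positivity, by positivity, ?_⟩
  rw [Real.log_mul (Real.exp_pos _).ne' h0.ne', add_sub_cancel_left]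
  exact abs_le_max_abs_abs (Real.log_le_log hlo hZ.1) (Real.log_le_log h0 hZ.2)

theorem cavXi_add (hm : ∀ d, 0 < m d) (hlo : 0 < lo) (hA : Item (r + 1) lo hi A) (H W : X → ℝ) :
    cavXi m r A (fun x => H x + W x) - cavXi m r A H =
      Real.log (T m (r + 1) (add m (r + 1) (cavS m r H) A) fun Q => Real.exp (W Q.val)) := by
  have hP := prob_prod (prob_cavU (X := X) (r := r)) hA.1
  have hS := prob_cavS (r := r) hm H
  have hw : AllAt (r + 1) (prod (r + 1) (cavU X r) A) fun P => 0 < Real.exp (H P.val.1) :=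
    allAt_of_forall _ _ fun _ => Real.exp_pos _
  have key : ∀ W : X → ℝ, T m (r + 1) (prod (r + 1) (cavU X r) A)
      (fun P => Real.exp (H P.val.1 + W P.val.1) * fac P) =
      T m (r + 1) (prod (r + 1) (cavU X r) A) (fun P => Real.exp (H P.val.1)) *
        (TA m (r + 1) (cavS m r H) A *
          T m (r + 1) (add m (r + 1) (cavS m r H) A) fun Q => Real.exp (W Q.val)) := by
    intro W
    rw [T_add_mul hm hlo hS hA (V := fun x => Real.exp (W x)) fun _ => Real.exp_pos _, cavS,
      ← tilt_prod_fst hm prob_cavU hA.1 (V := fun x => Real.exp (H x))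
        (allAt_of_forall _ _ fun _ => Real.exp_pos _),
      ← T_mul hm hP hw ((hA.allAt_fac _).imp fun Z hZ =>
        mul_pos (hlo.trans_le hZ.1) (Real.exp_pos _))]
    congr 1
    ext P
    rw [Real.exp_add]; ring
  have h0 := key fun _ => 0
  have hadd := prob_add hm hlo hS hA
  simp only [add_zero, Real.exp_zero, T_const hm hadd one_pos, mul_one] at h0
  have p1 := T_pos (m := m) hP hw
  have p2 := TA_pos hm hlo hS hA
  have p3 : 0 < T m (r + 1) (add m (r + 1) (cavS m r H) A) fun Q => Real.exp (W Q.val) :=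
    T_pos hadd (allAt_of_forall _ _ fun _ => Real.exp_pos _)
  unfold cavXi
  rw [key W, h0, ← mul_assoc, Real.log_mul (mul_pos p1 p2).ne' p3.ne', add_sub_cancel_left]

omit [Fintype X] [Nonempty X] in
theorem cav_allAt_tilt (φ : X → Bool) (Φ : Sys X → ℝ) : ∀ (d : ℕ) (S : Sys X),
    AllAt d S (fun Q => ∀ b : Bool, ∃ ω, φ (Q.ch ω).val = b) →
    AllAt d (tilt m (d + 1) S Φ) fun Q => ∀ b : Bool, ∃ ω, φ (Q.ch ω).val = b
  | 0, _, h => h
  | d + 1, _, h => fun ω => cav_allAt_tilt φ Φ d _ (h ω)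

/-- the label system of a system of configurations -/
noncomputable def cavLab {I : Type} [Fintype I] (spin : I → X → Bool) (r : ℕ) (S : Sys X) :
    Sys Bool :=
  node true I (fun _ => (Fintype.card I : ℝ)⁻¹) fun i => map (spin i) (r + 1) S

omit [Fintype X] [Nonempty X] in
theorem prob_cavLab {I : Type} [Fintype I] [Nonempty I] (spin : I → X → Bool) {S : Sys X}
    (hS : Prob (r + 1) S) : Prob (r + 2) (cavLab spin r S) := by
  have hX : (0 : ℝ) < Fintype.card I := by exact_mod_cast Fintype.card_pos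
  refine ⟨fun _ => inv_pos.mpr hX, ?_, fun i => prob_map _ hS⟩
  show ∑ _i : I, (Fintype.card I : ℝ)⁻¹ = 1
  simp [hX.ne']

theorem full_cavLab {I : Type} [Fintype I] (spin : I → X → Bool) (hs : ∀ i b, ∃ x, spin i x = b)
    (hA : Prob (r + 1) A) (H : X → ℝ) :
    Full (r + 1) (cavLab spin r (add m (r + 1) (cavS m r H) A)) := by
  intro i
  refine full_map_add hA (spin i) (cav_allAt_tilt _ _ _ _ ?_)
  have := (allAt_lift (b := 0) r
    (S := node (Classical.arbitrary X) X (fun _ => (Fintype.card X : ℝ)⁻¹) fun x => leaf x)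
    (P := fun Q => ∀ b : Bool, ∃ ω, spin i (Q.ch ω).val = b)).mpr (hs i)
  rwa [Nat.zero_add] at this

omit [Fintype X] [Nonempty X] in
theorem labLog_cavLab {I : Type} [Fintype I] (spin : I → X → Bool) (S : Sys X) {Λ : Type}
    [Fintype Λ] [DecidableEq Λ] (V : (Λ → Bool) → ℝ) :
    labLog m r (cavLab spin r S) V = avg fun idx : Λ → I => Real.log (T m (r + 1)
      (piProd (r + 1) fun _ : Λ => S) fun Q => V fun l => spin (idx l) (Q.val l)) := by
  unfold labLog avg
  rw [mul_sum]
  refine Finset.sum_congr rfl fun u _ => ?_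
  congr 1
  · show ∏ _l : Λ, (Fintype.card I : ℝ)⁻¹ = _
    simp
  · exact congrArg Real.log
      ((proj_piProd (φ := fun l => spin (u l)) fun l => proj_map _ _ S).T_eq V).symm

end cavXi

theorem cav_avg_equiv {I I' : Type} [Fintype I] [Fintype I'] (e : I ≃ I') (f : I' → ℝ) :
    avg (fun i => f (e i)) = avg f := by
  unfold avg
  rw [Fintype.card_congr e, e.sum_comp]

theorem cav_abs_avg_le {I : Type} [Fintype I] [Nonempty I] {f : I → ℝ} {c : ℝ}
    (h : ∀ i, |f i| ≤ c) : |avg f| ≤ c :=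
  (abs_avg_le f).trans ((avg_mono h).trans_eq (avg_const c))

theorem cav_continuous_avg {I Z : Type} [Fintype I] [TopologicalSpace Z] {f : I → Z → ℝ}
    (h : ∀ i, Continuous (f i)) : Continuous fun z => avg fun i => f i z :=
  continuous_const.mul (continuous_finsetSum _ fun i _ => h i)

/-- increments of a Lipschitz functional are admissible -/
theorem cavAdm_incr {p : ℕ} {X : Type} [Fintype X] {Xi : (X → ℝ) → ℝ}
    (lip : ∀ H H', |Xi H - Xi H'| ≤ ‖H - H'‖) (H : X → ℝ) {I : ℕ → Type} [∀ k, Fintype (I k)]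
    [∀ k, Nonempty (I k)] (W : ∀ k, (Fin k → Inter p) × ℝ → I k → X → ℝ)
    (hW : ∀ k i x, Continuous fun z => W k z i x) (hb : ∀ k z i x, |W k z i x| ≤ cavG k z) :
    CavAdm fun k z => avg fun i => Xi (fun x => H x + W k z i x) - Xi H := by
  have hXi : Continuous Xi := by
    refine (LipschitzWith.of_dist_le_mul (K := 1) fun H H' => ?_).continuous
    simpa [dist_eq_norm] using lip H H'
  refine fun k => ⟨cav_continuous_avg fun i => (hXi.comp (continuous_pi fun x =>
    continuous_const.add (hW k i x))).sub continuous_const, fun z => cav_abs_avg_le fun i => ?_⟩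
  refine (lip _ _).trans ((pi_norm_le_iff_of_nonneg (cavG_nonneg k z)).mpr fun x => ?_)
  simpa using hb k z i x

theorem cavity {p : ℕ} (hp : 1 ≤ p) {α : ℝ} (hα : 0 ≤ α) {μ : Measure (Inter p)}
    [IsProbabilityMeasure μ] {ν : Measure ℝ} [IsProbabilityMeasure ν]
    (hμ : Integrable (fun θ : Inter p => ‖θ‖) μ) (hν : Integrable (fun x : ℝ => x) ν) {b : ℝ}
    (hb : ∀ (r : ℕ) (m : ℕ → ℝ) (Lab : Sys Bool), Exps m → (∀ d, d < r → m (d + 1) < m d) →
      Prob (r + 2) Lab → Full (r + 1) Lab → b ≤ Pfin p α μ ν m r Lab)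
    {ε : ℝ} (hε : 0 < ε) :
    ∃ C : ℝ, ∀ n : ℕ, 1 ≤ n → ∃ Xi, CavityData p α μ ν (b - ε) C n Xi := by
  have hp' : (1 : ℝ) ≤ p := by exact_mod_cast hp
  have hl1 : 0 ≤ α * p := by positivity
  have hl2 : 0 ≤ α * (p - 1 : ℝ) := mul_nonneg hα (by linarith)
  have hε8 : 0 < ε / 8 := by positivity
  obtain ⟨B, hB1, hB2⟩ := ((cav_tail hμ hν hl1 hε8).and (cav_tail hμ hν hl2 hε8)).exists
  have hB0 : (0 : ℝ) ≤ B := by positivity
  obtain ⟨r, m, J, _, _, lo, hi, hm, hm', hlo, hcore⟩ := core (B * p)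
    (lam := 1 - Real.exp (-(2 * B))) (by
      rw [sub_nonneg]; exact Real.exp_le_one_iff.mpr (by linarith))
    (by linarith [Real.exp_pos (-(2 * (B : ℝ)))]) hε8
  refine ⟨max |Real.log lo| |Real.log hi|, fun n hn => ?_⟩
  have : Nonempty (Fin n) := ⟨⟨0, hn⟩⟩
  obtain ⟨A, hA, hcore⟩ := hcore (Fin n → Bool) (Fin n) fun i x => x i
  refine ⟨fun H => avg fun j => cavXi m r (A j) H, fun H H' => ?_, fun H c => ?_, fun H => ?_,
    fun H => ?_⟩
  · rw [← avg_sub]; exact cav_abs_avg_le fun j => cavXi_lip hm.pos hlo (hA j) H H'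
  · simp only [cavXi_shift hm.pos hlo (hA _), avg_add, avg_const]
  · rw [← avg_const (I := J) (Real.log _), ← avg_sub]
    exact cav_abs_avg_le fun j => cavXi_near hm hlo (hA j) H
  obtain ⟨ξ, hξ, hcore⟩ := hcore (cavS m r H) (prob_cavS hm.pos H)
  have hξ0 : ∀ j, 0 ≤ ξ j := fun j => (abs_nonneg _).trans
    (hcore j Empty (by simp) (fun _ => 1) fun _ => ⟨by
      rw [sub_sub_cancel]; exact Real.exp_le_one_iff.mpr (by linarith), le_rfl⟩)
  set S : J → Sys (Fin n → Bool) := fun j => add m (r + 1) (cavS m r H) (A j) with hSdef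
  have hS : ∀ j, Prob (r + 1) (S j) := fun j => prob_add hm.pos hlo (prob_cavS hm.pos H) (hA j)
  set Lab : J → Sys Bool := fun j => cavLab (fun (i : Fin n) x => x i) r (S j) with hLabdef
  have hLab : ∀ j, Prob (r + 2) (Lab j) := fun j => prob_cavLab _ (hS j)
  -- the comparison on good disorder
  have hgood : ∀ (j : J) (Λ : Type) [Fintype Λ] [DecidableEq Λ], Fintype.card Λ ≤ B * p →
      ∀ W : (Λ → Bool) → ℝ, (∀ s, |W s| ≤ B) →
      |avg (fun idx : Λ → Fin n => cavXi m r (A j) (fun x => H x + W fun l => x (idx l)) -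
          cavXi m r (A j) H) - labLog m r (Lab j) fun s => Real.exp (W s)| ≤ ξ j := by
    intro j Λ _ _ hΛ W hW
    have h1 := hcore j Λ hΛ (fun s => Real.exp (-B) * Real.exp (W s)) fun s => by
      rw [← Real.exp_add, sub_sub_cancel, Real.exp_le_exp, Real.exp_le_one_iff]
      have := abs_le.mp (hW s)
      constructor <;> linarith
    have e := labLog_cavLab (m := m) (r := r) (fun (i : Fin n) (x : Fin n → Bool) => x i) (S j)
      (fun s => Real.exp (-B) * Real.exp (W s))
    replace h1 : |avg (fun idx : Λ → Fin n => Real.log (T m (r + 1) (S j)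
        fun Q => Real.exp (-B) * Real.exp (W fun l => Q.val (idx l)))) -
        labLog m r (Lab j) (fun s => Real.exp (-B) * Real.exp (W s))| ≤ ξ j := by
      rw [hLabdef]
      simp only
      rw [e]
      exact h1
    rw [labLog_const_mul hm.pos (hLab j) (fun _ => Real.exp_pos _)
      (Real.exp_pos _)] at h1
    have h2 : ∀ idx : Λ → Fin n, Real.log (T m (r + 1) (S j)
        fun Q => Real.exp (-B) * Real.exp (W fun l => Q.val (idx l))) =
        Real.log (Real.exp (-B)) + (cavXi m r (A j) (fun x => H x + W fun l => x (idx l)) -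
          cavXi m r (A j) H) := by
      intro idx
      have hpos : AllAt (r + 1) (S j) fun Q => 0 < Real.exp (W fun l => Q.val (idx l)) :=
        allAt_of_forall _ _ fun _ => Real.exp_pos _
      rw [T_const_mul hm.pos (hS j) hpos (Real.exp_pos _),
        Real.log_mul (Real.exp_pos _).ne' (T_pos (hS j) hpos).ne',
        cavXi_add hm.pos hlo (hA j) H fun x => W fun l => x (idx l)]
    simp only [h2, avg_add, avg_const, add_sub_add_left_eq_sub] at h1
    exact h1
  -- the four families of integrands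
  let f1 : J → ∀ k : ℕ, (Fin k → Inter p) × ℝ → ℝ := fun j k z =>
    avg fun idx : Fin k × Fin (p - 1) → Fin n => cavXi m r (A j)
      (fun x => H x + Real.log (siteV z.2 z.1 fun l => x (idx l))) - cavXi m r (A j) H
  let g1 : J → ∀ k : ℕ, (Fin k → Inter p) × ℝ → ℝ := fun j k z =>
    labLog m r (Lab j) (siteV z.2 z.1)
  let f2 : J → ∀ k : ℕ, (Fin k → Inter p) × ℝ → ℝ := fun j k z =>
    avg fun idx : Fin k → Fin p → Fin n => cavXi m r (A j)
      (fun x => H x + ∑ i, z.1 i fun l => x (idx i l)) - cavXi m r (A j) H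
  let e : J → Inter p → ℝ := fun j θ => labLog m r (Lab j) fun s : Fin p → Bool => Real.exp (θ s)
  let g2 : J → ∀ k : ℕ, (Fin k → Inter p) × ℝ → ℝ := fun j k z => ∑ i, e j (z.1 i)
  have hsumb : ∀ (k : ℕ) (z : (Fin k → Inter p) × ℝ) (s : Fin k → Fin p → Bool),
      |∑ i, z.1 i (s i)| ≤ cavG k z := by
    intro k z s
    refine (abs_sum_le_sum_abs _ _).trans ?_
    refine le_trans (Finset.sum_le_sum fun i _ => norm_le_pi_norm (z.1 i) (s i)) ?_
    exact le_add_of_nonneg_left (abs_nonneg _)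
  have heb : ∀ j θ, |e j θ| ≤ ‖θ‖ := fun j θ =>
    abs_labLog_le hm.pos (hLab j) (fun _ => Real.exp_pos _) fun s => by
      rw [Real.log_exp]; exact norm_le_pi_norm θ s
  have hec : ∀ j, Continuous (e j) := fun j => continuous_labLog_edge hm.pos (hLab j) p
  have hf1 : ∀ j, CavAdm (f1 j) := fun j =>
    cavAdm_incr (cavXi_lip hm.pos hlo (hA j)) H
      (fun k z (idx : Fin k × Fin (p - 1) → Fin n) x =>
        Real.log (siteV z.2 z.1 fun l => x (idx l)))
      (fun k idx x => Continuous.log (by unfold siteV; fun_prop) fun z => (siteV_pos _ _ _).ne')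
      fun k z idx x => abs_log_siteV_le _ _ _
  have hg1 : ∀ j, CavAdm (g1 j) := fun j k =>
    ⟨continuous_labLog_site hm.pos (hLab j) p k, fun z =>
      abs_labLog_le hm.pos (hLab j) (siteV_pos _ _) (abs_log_siteV_le _ _)⟩
  have hf2 : ∀ j, CavAdm (f2 j) := fun j =>
    cavAdm_incr (cavXi_lip hm.pos hlo (hA j)) H
      (fun k z (idx : Fin k → Fin p → Fin n) x => ∑ i, z.1 i fun l => x (idx i l))
      (fun k idx x => by fun_prop) fun k z idx x => hsumb k z _
  have hg2 : ∀ j, CavAdm (g2 j) := fun j k =>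
    ⟨continuous_finsetSum _ fun i _ => (hec j).comp (by fun_prop), fun z =>
      (abs_sum_le_sum_abs _ _).trans ((Finset.sum_le_sum fun i _ => heb j _).trans
        (le_add_of_nonneg_left (abs_nonneg _)))⟩
  have hkB : ∀ (k : ℕ) (z : (Fin k → Inter p) × ℝ), k + cavG k z ≤ B → k ≤ B ∧ cavG k z ≤ B := by
    intro k z h
    have h1 := cavG_nonneg k z
    have h2 : (0 : ℝ) ≤ k := by positivity
    exact ⟨by exact_mod_cast (show (k : ℝ) ≤ B by linarith), by linarith⟩
  have c1 : ∀ j, |cavE μ ν (α * p) (f1 j) - cavE μ ν (α * p) (g1 j)| ≤ ξ j + ε / 8 := by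
    intro j
    refine hB1 _ (hξ0 j) _ _ (hf1 j) (hg1 j) fun k z hz => ?_
    have := hgood j (Fin k × Fin (p - 1))
      (by simpa using Nat.mul_le_mul (hkB k z hz).1 (Nat.sub_le p 1))
      (fun s => Real.log (siteV z.2 z.1 s)) fun s => (abs_log_siteV_le _ _ _).trans (hkB k z hz).2
    simp only [Real.exp_log (siteV_pos _ _ _)] at this
    exact this
  have c2 : ∀ j, |cavE μ ν (α * (p - 1 : ℝ)) (f2 j) - cavE μ ν (α * (p - 1 : ℝ)) (g2 j)| ≤
      ξ j + ε / 8 := by
    intro j
    refine hB2 _ (hξ0 j) _ _ (hf2 j) (hg2 j) fun k z hz => ?_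
    have := hgood j (Fin k × Fin p) (by simpa using Nat.mul_le_mul_right p (hkB k z hz).1)
      (fun s => ∑ i, z.1 i fun l => s (i, l)) fun s => (hsumb k z _).trans (hkB k z hz).2
    simp only [Real.exp_sum] at this
    rw [labLog_groups hm.pos (hLab j) (G := Fin k) (Λ' := fun _ => Fin p) (fun i l => (i, l))
      (fun x y h => by
        obtain ⟨a, b⟩ := x
        obtain ⟨c, d⟩ := y
        obtain ⟨rfl, rfl⟩ := Prod.mk.inj h
        rfl)
      (fun i s => Real.exp (z.1 i s)) fun _ _ => Real.exp_pos _] at this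
    refine le_trans (le_of_eq ?_) this
    congr 2
    exact (cav_avg_equiv (Equiv.curry (Fin k) (Fin p) (Fin n)) _).symm
  have c3 : ∀ j, b ≤ Real.log 2 + cavE μ ν (α * p) (g1 j) - cavE μ ν (α * (p - 1 : ℝ)) (g2 j) := by
    intro j
    rw [cavE_edge hμ (hec j) (heb j)]
    exact hb r m (Lab j) hm hm' (hLab j)
      (full_cavLab _ (fun i b => ⟨fun _ => b, rfl⟩) (hA j).1 H)
  have c4 : ∀ j, b - ε / 4 - 2 * ξ j ≤
      Real.log 2 + cavE μ ν (α * p) (f1 j) - cavE μ ν (α * (p - 1 : ℝ)) (f2 j) := by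
    intro j
    have a1 := abs_le.mp (c1 j)
    have a2 := abs_le.mp (c2 j)
    linarith [c3 j, a1.1, a2.2]
  have c5 := avg_mono c4
  simp only [avg_sub, avg_add, avg_const, avg_const_mul, ← cavE_avg hμ hν hf1 hl1,
    ← cavE_avg hμ hν hf2 hl2] at c5
  have e1 : cavE μ ν (α * p) (fun k z => avg fun j => f1 j k z) =
      ∑' k : ℕ, poissonWeight (α * p) k * ∫ θs, ∫ h,
        avg (fun idx : Fin k × Fin (p - 1) → Fin n =>
          (avg fun j => cavXi m r (A j)
            (fun x => H x + Real.log (siteV h θs (fun l => x (idx l))))) -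
          avg fun j => cavXi m r (A j) H) ∂ν ∂(Measure.pi fun _ : Fin k => μ) := by
    simp only [cavE, f1, ← avg_sub]
    simp only [avg_comm (I := J)]
  have e2 : cavE μ ν (α * (p - 1 : ℝ)) (fun k z => avg fun j => f2 j k z) =
      ∑' k : ℕ, poissonWeight (α * (p - 1 : ℝ)) k * ∫ θs,
        avg (fun idx : Fin k → Fin p → Fin n =>
          (avg fun j => cavXi m r (A j) (fun x => H x + ∑ i, θs i (fun l => x (idx i l)))) -
          avg fun j => cavXi m r (A j) H) ∂(Measure.pi fun _ : Fin k => μ) := by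
    simp only [cavE, f2, ← avg_sub, integral_const, probReal_univ, smul_eq_mul, one_mul]
    simp only [avg_comm (I := J)]
  rw [← e1, ← e2]
  linarith

end Crest.Agent.R141
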