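import Crest.Agent.R141.ASSAux2
import Crest.Agent.R141.Cavity

/-! Row 141, module H3 (auxiliary 3): the pointwise cavity step and the combinatorics of tuples. -/

set_option autoImplicit false
set_option linter.unusedSectionVars false

namespace Crest.Agent.R141

open Finset MeasureTheory Crest.ProbabilityR.Diluted

theorem assAvg_equiv {I J : Type} [Fintype I] [Fintype J] (e : I ≃ J) (f : J → ℝ) :
    avg (fun i => f (e i)) = avg f := by
  unfold avg
  rw [Fintype.card_congr e, e.sum_comp]

theorem assAvg_integral {I : Type} [Fintype I] {Ω : Type} [MeasurableSpace Ω] {ν : Measure Ω}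
    (f : I → Ω → ℝ) (hf : ∀ i, Integrable (f i) ν) :
    avg (fun i => ∫ h, f i h ∂ν) = ∫ h, avg (fun i => f i h) ∂ν := by
  unfold avg
  rw [integral_const_mul, integral_finsetSum _ fun i _ => hf i]

/-- The clause with the last spin in the last slot and the other entries among the first `n`. -/
def assCl1 {p n N : ℕ} (h : n ≤ N) (idx : Fin (p - 1) → Fin n) (θ : Inter p) :
    (Fin (N + 1) → Bool) → ℝ :=
  fun s => θ (ext (fun l => assRes (h.trans (Nat.le_succ N)) s (idx l)) (s (Fin.last N)))

/-- The clause with all entries among the first `n`. -/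
def assCl2 {p n N : ℕ} (h : n ≤ N) (idx : Fin p → Fin n) (θ : Inter p) : (Fin N → Bool) → ℝ :=
  assClause N (fun l => Fin.castLE h (idx l)) θ

section

variable {p : ℕ} {α : ℝ} {μ : Measure (Inter p)} [IsProbabilityMeasure μ] {ν : Measure ℝ}
  [IsProbabilityMeasure ν]

theorem measurable_assClause (N : ℕ) (idx : Fin p → Fin N) : Measurable (assClause N idx) :=
  measurable_comp_inter _

theorem measurable_assCl1 {n N : ℕ} (h : n ≤ N) (idx : Fin (p - 1) → Fin n) :
    Measurable (assCl1 h idx) := measurable_comp_inter _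

theorem measurable_assCl2 {n N : ℕ} (h : n ≤ N) (idx : Fin p → Fin n) :
    Measurable (assCl2 h idx) := measurable_comp_inter _

theorem integrable_assClause (hμ : Integrable (fun θ : Inter p => ‖θ‖) μ) (N : ℕ)
    (idx : Fin p → Fin N) : Integrable (fun θ => ‖assClause N idx θ‖) μ :=
  integrable_norm_comp_inter hμ _

theorem integrable_assCl1 (hμ : Integrable (fun θ : Inter p => ‖θ‖) μ) {n N : ℕ} (h : n ≤ N)
    (idx : Fin (p - 1) → Fin n) : Integrable (fun θ => ‖assCl1 h idx θ‖) μ :=
  integrable_norm_comp_inter hμ _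

theorem integrable_assCl2 (hμ : Integrable (fun θ : Inter p => ‖θ‖) μ) {n N : ℕ} (h : n ≤ N)
    (idx : Fin p → Fin n) : Integrable (fun θ => ‖assCl2 h idx θ‖) μ :=
  integrable_norm_comp_inter hμ _

theorem ass_edge_eq (hμ : Integrable (fun θ : Inter p => ‖θ‖) μ) {n N : ℕ} (h : n ≤ N)
    {Xi : ((Fin n → Bool) → ℝ) → ℝ} (hXi : AssLip Xi) {c : ℝ} (hc : 0 ≤ c)
    (H : (Fin N → Bool) → ℝ) :
    assSm (CP (inten μ (fun _ : Fin p → Fin n => c) (assCl2 h))) (fun H => Xi (assMarg h H)) H
        - Xi (assMarg h H) =
      ∑' k : ℕ, poissonWeight (c * Fintype.card (Fin p → Fin n)) k * ∫ θs,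
        avg (fun idx : Fin k → Fin p → Fin n =>
          Xi (fun x => assMarg h H x + ∑ j, θs j (fun l => x (idx j l))) - Xi (assMarg h H))
        ∂(Measure.pi fun _ : Fin k => μ) := by
  have hg := hXi.comp_marg h
  rw [assSm_sub_const hg (assMom_CP_inten μ _ _ (measurable_assCl2 h) (integrable_assCl2 hμ h)),
    integral_CP_inten μ hc _ (measurable_assCl2 h) (integrable_assCl2 hμ h)
      ((hg.shift H).sub_const _)]
  refine tsum_congr fun k => ?_
  congr 1
  refine integral_congr_ae (Filter.Eventually.of_forall fun θs => ?_)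
  simp only
  congr 1
  funext idx
  rw [← assMarg_add h H (fun x => ∑ j, θs j (fun l => x (idx j l)))]
  congr 3
  funext s
  rw [Pi.add_apply, Pi.add_apply, Finset.sum_apply]
  rfl

theorem ass_site_eq (hμ : Integrable (fun θ : Inter p => ‖θ‖) μ)
    (hν : Integrable (fun x : ℝ => x) ν) {n N : ℕ} (h : n ≤ N)
    {Xi : ((Fin n → Bool) → ℝ) → ℝ} (hXi : AssLip Xi)
    (hshift : ∀ H (c : ℝ), Xi (fun x => H x + c) = Xi H + c) {c : ℝ} (hc : 0 ≤ c)
    (H : (Fin N → Bool) → ℝ) :
    assSm (CP (inten μ (fun _ : Fin (p - 1) → Fin n => c) (assCl1 h)))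
        (assSm (assPsi ν N) (fun H => Xi (assMarg (h.trans (Nat.le_succ N)) H))) (assIota N H)
        - (Xi (assMarg h H) + Real.log 2) =
      ∑' k : ℕ, poissonWeight (c * Fintype.card (Fin (p - 1) → Fin n)) k * ∫ θs, ∫ hh,
        avg (fun idx : Fin k × Fin (p - 1) → Fin n =>
          Xi (fun x => assMarg h H x + Real.log (siteV hh θs (fun l => x (idx l)))) -
            Xi (assMarg h H))
        ∂ν ∂(Measure.pi fun _ : Fin k => μ) := by
  have hg := hXi.comp_marg (h.trans (Nat.le_succ N))
  have hψ := assMom_psi hν N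
  have hg' := hg.sm hψ
  rw [assSm_sub_const hg' (assMom_CP_inten μ _ _ (measurable_assCl1 h) (integrable_assCl1 hμ h)),
    integral_CP_inten μ hc _ (measurable_assCl1 h) (integrable_assCl1 hμ h)
      ((hg'.shift _).sub_const _)]
  refine tsum_congr fun k => ?_
  congr 1
  refine integral_congr_ae (Filter.Eventually.of_forall fun θs => ?_)
  simp only
  have key : ∀ (idx : Fin k × Fin (p - 1) → Fin n) (hh : ℝ),
      Xi (assMarg (h.trans (Nat.le_succ N))
        (assIota N H + ∑ j, assCl1 h (fun l => idx (j, l)) (θs j) + assFld1 N hh))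
        - (Xi (assMarg h H) + Real.log 2) =
      Xi (fun x => assMarg h H x + Real.log (siteV hh θs (fun l => x (idx l)))) -
            Xi (assMarg h H) := by
    intro idx hh
    have e1 : assIota N H + ∑ j, assCl1 h (fun l => idx (j, l)) (θs j) + assFld1 N hh =
        assIota N H + fun s => (fun (x : Fin n → Bool) (ε : Bool) => hh * spinVal ε +
          ∑ j, θs j (ext (fun l => x (idx (j, l))) ε))
          (assRes (h.trans (Nat.le_succ N)) s) (s (Fin.last N)) := by
      funext s
      simp only [Pi.add_apply, Finset.sum_apply, assFld1, assCl1]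
      ring
    rw [e1, assMarg_iota h H (fun (x : Fin n → Bool) (ε : Bool) => hh * spinVal ε +
          ∑ j, θs j (ext (fun l => x (idx (j, l))) ε))]
    have e2 : (fun x => assMarg h H x + Real.log (∑ ε, Real.exp (hh * spinVal ε +
          ∑ j, θs j (ext (fun l => x (idx (j, l))) ε)))) =
        fun x => (assMarg h H x + Real.log (siteV hh θs (fun l => x (idx l)))) + Real.log 2 := by
      funext x
      rw [add_assoc, ← Real.log_mul (siteV_pos _ _ _).ne' two_ne_zero]
      congr 2
      unfold siteV
      ring
    rw [e2, hshift]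
    ring
  have hint : ∀ x, Integrable (fun hh => Xi (assMarg (h.trans (Nat.le_succ N)) (x + assFld1 N hh))
      - (Xi (assMarg h H) + Real.log 2)) ν := by
    intro x
    have := ((hg.shift x).sub_const (Xi (assMarg h H) + Real.log 2)).integrable hψ
    unfold assPsi at this
    rwa [integrable_map_measure
      ((hg.shift x).sub_const _).continuous.aestronglyMeasurable
      (continuous_assFld1 N).measurable.aemeasurable] at this
  have hint2 : ∀ idx : Fin k × Fin (p - 1) → Fin n, Integrable (fun hh =>
      Xi (fun x => assMarg h H x + Real.log (siteV hh θs (fun l => x (idx l)))) -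
            Xi (assMarg h H)) ν := fun idx => by
    simpa only [key] using hint (assIota N H + ∑ j, assCl1 h (fun l => idx (j, l)) (θs j))
  rw [← assAvg_integral _ hint2,
    ← assAvg_equiv (Equiv.curry (Fin k) (Fin (p - 1)) (Fin n))]
  congr 1
  funext idx
  rw [assSm_sub_const hg hψ]
  unfold assPsi
  rw [integral_map (continuous_assFld1 N).measurable.aemeasurable
    ((hg.shift _).sub_const _).continuous.aestronglyMeasurable]
  simp only [← key]
  rfl

end

/-! ### tuples -/

/-- The tuple with the last spin in the last slot. -/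
def assTup {p n N : ℕ} (h : n ≤ N) (idx : Fin (p - 1) → Fin n) : Fin p → Fin (N + 1) :=
  fun l => if hl : l.val < p - 1 then Fin.castLE (h.trans (Nat.le_succ N)) (idx ⟨l.val, hl⟩)
    else Fin.last N

/-- The tuples avoiding the last spin, and those containing it once with small other entries. -/
def assEmb {q n N : ℕ} (h : n ≤ N) :
    (Fin (q + 1) → Fin N) ⊕ (Fin (q + 1) × (Fin (q + 1 - 1) → Fin n)) → Fin (q + 1) → Fin (N + 1)
  | Sum.inl idx => fun l => (idx l).castSucc
  | Sum.inr z => fun l => assTup h z.2 (Equiv.swap z.1 (Fin.last q) l)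

theorem assTup_eq_last_iff {q n N : ℕ} (h : n ≤ N) (idx : Fin (q + 1 - 1) → Fin n)
    (l : Fin (q + 1)) : assTup h idx l = Fin.last N ↔ l = Fin.last q := by
  unfold assTup
  split_ifs with hl
  · constructor
    · intro h1
      have h2 := congrArg Fin.val h1
      have h3 := (idx ⟨l.val, hl⟩).2
      simp only [Fin.val_castLE, Fin.val_last] at h2
      omega
    · intro h1
      rw [h1] at hl
      simp at hl
  · simp only [true_iff]
    ext
    have := l.2
    simp only [Fin.val_last]
    omega

theorem assTup_injective {q n N : ℕ} (h : n ≤ N) :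
    Function.Injective (assTup (p := q + 1) h) := by
  intro idx idx' hh
  funext l
  have h1 := congrFun hh ⟨l.val, by have := l.2; omega⟩
  unfold assTup at h1
  rw [dif_pos l.2, dif_pos l.2] at h1
  exact Fin.castLE_injective _ h1

theorem assEmb_injective {q n N : ℕ} (h : n ≤ N) : Function.Injective (assEmb (q := q) h) := by
  rintro (idx | ⟨l, idx⟩) (idx' | ⟨l', idx'⟩) hh
  · congr 1
    funext l
    exact Fin.castSucc_injective _ (congrFun hh l)
  · exfalso
    have h1 := congrFun hh l'
    simp only [assEmb, Equiv.swap_apply_left] at h1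
    rw [(assTup_eq_last_iff h idx' _).mpr rfl] at h1
    exact (Fin.castSucc_lt_last _).ne h1
  · exfalso
    have h1 := congrFun hh l
    simp only [assEmb, Equiv.swap_apply_left] at h1
    rw [(assTup_eq_last_iff h idx _).mpr rfl] at h1
    exact (Fin.castSucc_lt_last _).ne h1.symm
  · have h1 := congrFun hh l
    simp only [assEmb, Equiv.swap_apply_left] at h1
    rw [(assTup_eq_last_iff h idx _).mpr rfl, eq_comm, assTup_eq_last_iff,
      Equiv.swap_apply_eq_iff, Equiv.swap_apply_right] at h1
    subst h1
    have h2 : assTup h idx = assTup h idx' := by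
      funext m
      have h3 := congrFun hh (Equiv.swap l (Fin.last q) m)
      simpa only [assEmb, Equiv.swap_apply_self] using h3
    rw [assTup_injective h h2]

theorem assClause_emb_inr {q n N : ℕ} (h : n ≤ N) (l : Fin (q + 1))
    (idx : Fin (q + 1 - 1) → Fin n) :
    assClause (N + 1) (assEmb h (Sum.inr (l, idx))) = assCl1 h idx ∘
      (fun (θ : (Fin (q + 1) → Bool) → ℝ) (s : Fin (q + 1) → Bool) =>
        θ (fun m => s (Equiv.swap l (Fin.last q) m))) := by
  funext θ s
  simp only [assClause, assEmb, assCl1, Function.comp]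
  congr 1
  funext m
  unfold assTup ext assRes
  split_ifs <;> rfl

end Crest.Agent.R141
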