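import Crest.Agent.R141.Purity

/-! Row 141, module F3: averaging the recursive bound over Galton-Watson shapes. -/

set_option autoImplicit false

namespace Crest.Agent.R141

open Finset Sys

/-- Galton-Watson weight with fair colours. -/
noncomputable def wb {K : ℕ} (m : ℕ → ℝ) (d : ℕ) (τ : Shape Bool K d) : ℝ :=
  wt m d τ * (1 / 2) ^ Shape.size d τ

/-- The branching intensity at remaining depth `d+1`. -/
noncomputable def xx (m : ℕ → ℝ) (d : ℕ) : ℝ := 1 - m (d + 1) / m d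

theorem wb_nonneg {K : ℕ} {m : ℕ → ℝ} (hm : Exps m) (d : ℕ) (τ : Shape Bool K d) :
    0 ≤ wb m d τ :=
  mul_nonneg (wt_nonneg hm d τ) (by positivity)

theorem sum_wb_le_one {K : ℕ} {m : ℕ → ℝ} (hm : Exps m) (d : ℕ) :
    ∑ τ : Shape Bool K d, wb m d τ ≤ 1 := by
  have h := sum_wt_lprod_le_one (K := K) (Col := Bool) hm (co := fun _ => (1 / 2 : ℝ))
    (fun _ => by norm_num) (by simp) d
  simpa only [Shape.lprod_const, wb] using h

theorem xx_nonneg {m : ℕ → ℝ} (hm : Exps m) (d : ℕ) : 0 ≤ xx m d :=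
  sub_nonneg.2 (hm.ratio_le_one d)

theorem wb_succ {K : ℕ} (m : ℕ → ℝ) (d : ℕ) (k : Fin K) (f : Fin (k + 1) → Shape Bool K d) :
    wb m (d + 1) (⟨k, f⟩ : Shape Bool K (d + 1)) =
      sib (m (d + 1) / m d) k * ∏ c, wb m d (f c) := by
  show (sib (m (d + 1) / m d) k * ∏ c, wt m d (f c)) * (1 / 2) ^ (∑ c, Shape.size d (f c)) = _
  simp only [wb]
  rw [prod_mul_distrib, prod_pow_eq_pow_sum, mul_assoc]

theorem avr_prod_le_one {A : Type} [Fintype A] {w : A → ℝ} (h0 : ∀ a, 0 ≤ w a)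
    (h1 : ∑ a, w a ≤ 1) (k : ℕ) : ∑ f : Fin k → A, ∏ c, w (f c) ≤ 1 := by
  rw [← Fintype.sum_pow]
  exact pow_le_one₀ (sum_nonneg fun a _ => h0 a) h1

/-- many-to-one -/
theorem avr_one {A : Type} [Fintype A] {w h : A → ℝ} (h0 : ∀ a, 0 ≤ w a)
    (h1 : ∑ a, w a ≤ 1) (hh : ∀ a, 0 ≤ h a) {k : ℕ} (c0 : Fin k) :
    ∑ f : Fin k → A, (∏ c, w (f c)) * h (f c0) ≤ ∑ a, w a * h a := by
  have e : ∀ f : Fin k → A, (∏ c, w (f c)) * h (f c0) =
      ∏ c, (w (f c) * if c = c0 then h (f c) else 1) := by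
    intro f
    rw [prod_mul_distrib, Finset.prod_ite_eq' univ c0 (fun c => h (f c)), if_pos (mem_univ _)]
  simp only [e]
  rw [bp_sum_pi (A := fun _ : Fin k => A) (fun c a => w a * if c = c0 then h a else 1),
    ← Finset.mul_prod_erase _ _ (mem_univ c0)]
  simp only [if_true]
  refine mul_le_of_le_one_right (sum_nonneg fun a _ => mul_nonneg (h0 a) (hh a)) ?_
  refine prod_le_one (fun c hc => ?_) (fun c hc => ?_)
  · simp only [if_neg (ne_of_mem_erase hc), mul_one]
    exact sum_nonneg fun a _ => h0 a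
  · simpa only [if_neg (ne_of_mem_erase hc), mul_one] using h1

theorem avr_split {K : ℕ} {ρ A B : ℝ} (h0 : 0 ≤ ρ) (h1 : ρ ≤ 1) (hA : 0 ≤ A) (hB : 0 ≤ B)
    (t : Fin K → ℝ) (ht0 : ∀ k : Fin K, (k : ℕ) = 0 → t k ≤ A)
    (ht1 : ∀ k : Fin K, (k : ℕ) ≠ 0 → t k ≤ sib ρ k * B) : ∑ k, t k ≤ A + (1 - ρ) * B := by
  have e1 : ∑ k : Fin K, (if (k : ℕ) = 0 then A else 0) ≤ A := by
    cases K with
    | zero => simpa using hA
    | succ K => rw [Fin.sum_univ_succ]; simp
  have e2 := mul_le_mul_of_nonneg_right (sum_sib_ne_zero_le h0 h1 K) hB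
  rw [sum_mul] at e2
  refine le_trans ?_ (add_le_add e1 e2)
  rw [← sum_add_distrib]
  refine sum_le_sum fun k _ => ?_
  by_cases hk : (k : ℕ) = 0
  · simpa [hk] using ht0 k hk
  · simpa [hk] using ht1 k hk

theorem avr_Bnd_nonneg {Col : Type} {K n : ℕ} {tiny : ℝ} (ht : 0 ≤ tiny)
    (g : (d : ℕ) → Shape Col K d → ℝ) (D' : ℕ) (hg : ∀ d, d < D' → ∀ τ, 0 ≤ g d τ)
    (τ : Shape Col K D') : 0 ≤ Bnd n tiny g D' τ := by
  induction D' with
  | zero => exact ht
  | succ d ih =>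
    unfold Bnd
    refine add_nonneg (sum_nonneg fun c _ => ih (fun d' hd' => hg d' (by omega)) _) ?_
    have : 0 ≤ ∑ c, g d (τ.2 c) := sum_nonneg fun c _ => hg d (by omega) _
    split_ifs <;> positivity

open Classical in
theorem avr_step {K n : ℕ} {m : ℕ → ℝ} (hm : Exps m) {tiny : ℝ} (ht : 0 ≤ tiny)
    (g : (d : ℕ) → Shape Bool K d → ℝ) (d : ℕ) (hg : ∀ d', d' < d + 1 → ∀ τ, 0 ≤ g d' τ) :
    ∑ τ : Shape Bool K (d + 1),
        (if Shape.size (d + 1) τ ≤ n then wb m (d + 1) τ * Bnd n tiny g (d + 1) τ else 0) ≤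
      (1 + n * xx m d) * (∑ τ : Shape Bool K d,
        (if Shape.size d τ ≤ n then wb m d τ * Bnd n tiny g d τ else 0)) +
      xx m d * (tiny + (if Even (d + 1) then 1 else 0) +
          (n : ℝ) ^ 2 * ∑ τ : Shape Bool K d, wb m d τ * g d τ) := by
  set a := ∑ τ : Shape Bool K d, (if Shape.size d τ ≤ n then wb m d τ * Bnd n tiny g d τ else 0)
    with ha
  set G := ∑ τ : Shape Bool K d, wb m d τ * g d τ with hG
  set th : ℝ := if Even (d + 1) then 1 else 0 with hth
  set h : Shape Bool K d → ℝ := fun τ => if Shape.size d τ ≤ n then Bnd n tiny g d τ else 0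
    with hh
  have hB0 : ∀ τ, 0 ≤ Bnd n tiny g d τ :=
    avr_Bnd_nonneg ht g d (fun d' hd' => hg d' (by omega))
  have hh0 : ∀ τ, 0 ≤ h τ := fun τ => by
    simp only [hh]; split_ifs
    · exact hB0 τ
    · exact le_rfl
  have hah : a = ∑ τ, wb m d τ * h τ := sum_congr rfl fun τ _ => by
    simp only [hh]; split_ifs <;> simp
  have hw0 := wb_nonneg (K := K) hm d
  have hw1 := sum_wb_le_one (K := K) hm d
  have ha0 : 0 ≤ a := hah ▸ sum_nonneg fun τ _ => mul_nonneg (hw0 τ) (hh0 τ)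
  have hG0 : 0 ≤ G := sum_nonneg fun τ _ => mul_nonneg (hw0 τ) (hg d (by omega) τ)
  have hth0 : 0 ≤ th := by simp only [hth]; split_ifs <;> norm_num
  have hρ0 := (hm.ratio_pos d).le
  have hρ1 := hm.ratio_le_one d
  -- bound of the `k`-th term
  have key : ∀ k : Fin K, ∑ f : Fin (k + 1) → Shape Bool K d,
      (if Shape.size (d + 1) (⟨k, f⟩ : Shape Bool K (d + 1)) ≤ n then
        wb m (d + 1) (⟨k, f⟩ : Shape Bool K (d + 1)) *
          Bnd n tiny g (d + 1) (⟨k, f⟩ : Shape Bool K (d + 1)) else 0) ≤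
      if (k : ℕ) + 1 ≤ n then sib (m (d + 1) / m d) k * ((((k : ℕ) : ℝ) + 1) * a +
        if (k : ℕ) = 0 then 0 else tiny + th + n * ((((k : ℕ) : ℝ) + 1) * G)) else 0 := by
    intro k
    have hs0 := sib_nonneg hρ0 hρ1 k
    by_cases hk : (k : ℕ) + 1 ≤ n
    · rw [if_pos hk]
      have h1 : ∀ f : Fin (k + 1) → Shape Bool K d,
          (if Shape.size (d + 1) (⟨k, f⟩ : Shape Bool K (d + 1)) ≤ n then
            wb m (d + 1) (⟨k, f⟩ : Shape Bool K (d + 1)) *
              Bnd n tiny g (d + 1) (⟨k, f⟩ : Shape Bool K (d + 1)) else 0) ≤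
          sib (m (d + 1) / m d) k * (∑ c0, (∏ c, wb m d (f c)) * h (f c0) +
            if (k : ℕ) = 0 then 0 else (tiny + th) * (∏ c, wb m d (f c)) +
              n * ∑ c0, (∏ c, wb m d (f c)) * g d (f c0)) := by
        intro f
        have hP : 0 ≤ ∏ c, wb m d (f c) := prod_nonneg fun c _ => hw0 _
        have hg0 : 0 ≤ ∑ c0, (∏ c, wb m d (f c)) * g d (f c0) :=
          sum_nonneg fun c _ => mul_nonneg hP (hg d (by omega) _)
        have hh1 : 0 ≤ ∑ c0, (∏ c, wb m d (f c)) * h (f c0) :=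
          sum_nonneg fun c _ => mul_nonneg hP (hh0 _)
        by_cases hsz : Shape.size (d + 1) (⟨k, f⟩ : Shape Bool K (d + 1)) ≤ n
        · rw [if_pos hsz, wb_succ, mul_assoc]
          apply mul_le_mul_of_nonneg_left _ hs0
          have e1 : ∀ c0, h (f c0) = Bnd n tiny g d (f c0) := fun c0 =>
            if_pos ((Shape.size_child_le (⟨k, f⟩ : Shape Bool K (d + 1)) c0).trans hsz)
          simp only [e1, ← mul_sum]
          apply le_of_eq
          show (∏ c, wb m d (f c)) * (∑ c, Bnd n tiny g d (f c) +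
            if (k : ℕ) = 0 then 0 else tiny + th + n * ∑ c, g d (f c)) = _
          split_ifs <;> ring
        · rw [if_neg hsz]
          apply mul_nonneg hs0
          split_ifs <;> positivity
      refine (sum_le_sum fun f _ => h1 f).trans ?_
      rw [← mul_sum]
      apply mul_le_mul_of_nonneg_left _ hs0
      rw [sum_add_distrib]
      have b1 : ∑ f : Fin (k + 1) → Shape Bool K d, ∑ c0, (∏ c, wb m d (f c)) * h (f c0) ≤
          (((k : ℕ) : ℝ) + 1) * a := by
        rw [sum_comm]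
        refine (sum_le_sum fun c0 _ => avr_one hw0 hw1 hh0 c0).trans ?_
        rw [← hah]
        simp
      have b2 : ∑ f : Fin (k + 1) → Shape Bool K d, ∑ c0, (∏ c, wb m d (f c)) * g d (f c0) ≤
          (((k : ℕ) : ℝ) + 1) * G := by
        rw [sum_comm]
        refine (sum_le_sum fun c0 _ => avr_one hw0 hw1 (hg d (by omega)) c0).trans ?_
        rw [← hG]
        simp
      have b3 := avr_prod_le_one hw0 hw1 (k + 1)
      refine add_le_add b1 ?_
      split_ifs
      · simp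
      · rw [sum_add_distrib, ← mul_sum, ← mul_sum]
        refine add_le_add ?_ (mul_le_mul_of_nonneg_left b2 (Nat.cast_nonneg _))
        exact mul_le_of_le_one_right (by positivity) b3
    · rw [if_neg hk]
      refine le_of_eq (sum_eq_zero fun f _ => if_neg fun hsz => hk ?_)
      exact (Shape.succ_le_size (⟨k, f⟩ : Shape Bool K (d + 1))).trans hsz
  rw [Shape.sum_succ]
  refine (sum_le_sum fun k _ => key k).trans ?_
  refine (avr_split (A := a) (B := n * a + (tiny + th + (n : ℝ) ^ 2 * G)) hρ0 hρ1 ha0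
    (by positivity) _ (fun k hk => ?_) (fun k hk => ?_)).trans (le_of_eq ?_)
  · split_ifs
    · rw [hk, sib_zero]
      simp only [Nat.cast_zero, zero_add, one_mul, add_zero]
      exact mul_le_of_le_one_left ha0 hρ1
    · exact ha0
  · have hs0 := sib_nonneg hρ0 hρ1 k
    split_ifs with hkn
    · apply mul_le_mul_of_nonneg_left _ hs0
      have hkn' : (((k : ℕ) : ℝ) + 1) ≤ n := by exact_mod_cast hkn
      have b1 := mul_le_mul_of_nonneg_right hkn' ha0
      have b2 := mul_le_mul_of_nonneg_left (mul_le_mul_of_nonneg_right hkn' hG0)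
        (Nat.cast_nonneg (α := ℝ) n)
      nlinarith
    · positivity
  · simp only [xx]; ring

open Classical in
/-- Many-to-one bound. -/
theorem sum_wb_Bnd_le {K n : ℕ} {m : ℕ → ℝ} (hm : Exps m) {tiny : ℝ} (ht : 0 ≤ tiny)
    (g : (d : ℕ) → Shape Bool K d → ℝ) (D' : ℕ) (hg : ∀ d, d < D' → ∀ τ, 0 ≤ g d τ) :
    ∑ τ : Shape Bool K D', (if Shape.size D' τ ≤ n then wb m D' τ * Bnd n tiny g D' τ else 0) ≤
      Real.exp (n * ∑ d ∈ range D', xx m d) *
        (tiny + ∑ d ∈ range D', xx m d * (tiny + (if Even (d + 1) then 1 else 0) +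
          (n : ℝ) ^ 2 * ∑ τ : Shape Bool K d, wb m d τ * g d τ)) := by
  induction D' with
  | zero =>
    simp only [range_zero, sum_empty, mul_zero, Real.exp_zero, add_zero, one_mul]
    have h1 := mul_le_mul_of_nonneg_right (sum_wb_le_one (K := K) hm 0) ht
    rw [one_mul, sum_mul] at h1
    refine le_trans (sum_le_sum fun τ _ => ?_) h1
    split_ifs
    · exact le_rfl
    · exact mul_nonneg (wb_nonneg hm 0 τ) ht
  | succ d ih =>
    have ih' := ih (fun d' hd' => hg d' (by omega))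
    refine (avr_step hm ht g d hg).trans ?_
    rw [sum_range_succ, sum_range_succ]
    have hterm : ∀ d', d' < d + 1 → 0 ≤ xx m d' * (tiny + (if Even (d' + 1) then 1 else 0) +
        (n : ℝ) ^ 2 * ∑ τ : Shape Bool K d', wb m d' τ * g d' τ) := by
      intro d' hd'
      have h1 : 0 ≤ ∑ τ : Shape Bool K d', wb m d' τ * g d' τ :=
        sum_nonneg fun τ _ => mul_nonneg (wb_nonneg hm d' τ) (hg d' hd' τ)
      have h2 := xx_nonneg hm d'
      split_ifs <;> positivity
    have hS : 0 ≤ tiny + ∑ d' ∈ range d, xx m d' * (tiny + (if Even (d' + 1) then 1 else 0) +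
        (n : ℝ) ^ 2 * ∑ τ : Shape Bool K d', wb m d' τ * g d' τ) :=
      add_nonneg ht (sum_nonneg fun d' hd' => hterm d' (by have := mem_range.1 hd'; omega))
    have hx := xx_nonneg hm d
    have hX : 0 ≤ ∑ d' ∈ range d, xx m d' := sum_nonneg fun d' _ => xx_nonneg hm d'
    have hlast := hterm d (by omega)
    generalize xx m d * (tiny + (if Even (d + 1) then 1 else 0) +
        (n : ℝ) ^ 2 * ∑ τ : Shape Bool K d, wb m d τ * g d τ) = u at hlast ⊢
    rw [← add_assoc tiny]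
    generalize tiny + ∑ d' ∈ range d, xx m d' * (tiny + (if Even (d' + 1) then 1 else 0) +
        (n : ℝ) ^ 2 * ∑ τ : Shape Bool K d', wb m d' τ * g d' τ) = B at hS ih' ⊢
    have h1 : 1 + n * xx m d ≤ Real.exp (n * xx m d) := by
      have := Real.add_one_le_exp (n * xx m d)
      linarith
    have h2 : 1 ≤ Real.exp (n * (∑ d' ∈ range d, xx m d' + xx m d)) :=
      Real.one_le_exp (by positivity)
    have h3 := mul_le_mul h1 ih' (sum_nonneg fun τ _ => by
      split_ifs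
      · exact mul_nonneg (wb_nonneg hm d τ)
          (avr_Bnd_nonneg ht g d (fun d' hd' => hg d' (by omega)) τ)
      · exact le_rfl) (Real.exp_pos _).le
    have h4 := mul_le_mul_of_nonneg_right h2 hlast
    rw [mul_add _ B u]
    refine add_le_add (h3.trans (le_of_eq ?_)) (by linarith)
    rw [← mul_assoc, ← Real.exp_add]
    congr 2
    ring

theorem avr_Q_le_one {X I : Type} [Fintype I] [Nonempty I] {K : ℕ} {m : ℕ → ℝ} (hm : Exps m)
    {obs : I → Bool → X → ℝ} (ho : ∀ i c x, |obs i c x| ≤ 1) {D : ℕ} {R : Sys X} (hR : Prob D R)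
    {d j : ℕ} (h : d + j ≤ D) : ∑ τ : Shape Bool K d, wb m d τ * qq obs D R d j τ ≤ 1 :=
  le_trans (sum_le_sum fun τ _ => mul_le_of_le_one_right (wb_nonneg hm d τ) (qq_le_one ho hR h τ))
    (sum_wb_le_one hm d)

theorem avr_Q_step {X I : Type} [Fintype I] [Nonempty I] {K : ℕ} {m : ℕ → ℝ} (hm : Exps m)
    {obs : I → Bool → X → ℝ} (ho : ∀ i c x, |obs i c x| ≤ 1) {D : ℕ} {R : Sys X} (hR : Prob D R)
    {d j : ℕ} (h : d + 1 + j ≤ D) :
    ∑ τ : Shape Bool K (d + 1), wb m (d + 1) τ * qq obs D R (d + 1) j τ ≤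
      ∑ τ : Shape Bool K d, wb m d τ * qq obs D R d (j + 1) τ + xx m d := by
  have hw0 := wb_nonneg (K := K) hm d
  have hw1 := sum_wb_le_one (K := K) hm d
  have hρ0 := (hm.ratio_pos d).le
  have hρ1 := hm.ratio_le_one d
  have hA : 0 ≤ ∑ τ : Shape Bool K d, wb m d τ * qq obs D R d (j + 1) τ :=
    sum_nonneg fun τ _ => mul_nonneg (hw0 τ) (qq_nonneg obs hR _ _ τ)
  rw [Shape.sum_succ]
  refine (avr_split (B := 1) hρ0 hρ1 hA zero_le_one _ (fun k hk => ?_) (fun k hk => ?_)).trans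
    (le_of_eq ?_)
  · have e : ∀ f : Fin (k + 1) → Shape Bool K d,
        wb m (d + 1) (⟨k, f⟩ : Shape Bool K (d + 1)) *
          qq obs D R (d + 1) j (⟨k, f⟩ : Shape Bool K (d + 1)) =
        m (d + 1) / m d * ((∏ c, wb m d (f c)) * qq obs D R d (j + 1) (f 0)) := by
      intro f
      rw [wb_succ, qq_stem obs D R d j (⟨k, f⟩ : Shape Bool K (d + 1)) hk, mul_assoc]
      congr 1
      rw [hk, sib_zero]
    simp only [e]
    rw [← mul_sum]
    have h1 := avr_one hw0 hw1 (fun τ => qq_nonneg obs hR d (j + 1) τ) (0 : Fin (k + 1))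
    exact (mul_le_mul_of_nonneg_left h1 hρ0).trans (mul_le_of_le_one_left hA hρ1)
  · have h1 := mul_le_mul_of_nonneg_left (avr_prod_le_one hw0 hw1 (k + 1)) (sib_nonneg hρ0 hρ1 k)
    refine le_trans ?_ h1
    rw [mul_sum]
    refine sum_le_sum fun f _ => ?_
    rw [← wb_succ]
    exact mul_le_of_le_one_right (wb_nonneg hm _ _) (qq_le_one ho hR h _)
  · simp only [xx, mul_one]

/-- Telescoping of the martingale increments. -/
theorem sum_wb_inc_le {X I : Type} [Fintype I] [Nonempty I] {K : ℕ} {m : ℕ → ℝ} (hm : Exps m)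
    {obs : I → Bool → X → ℝ} (ho : ∀ i c x, |obs i c x| ≤ 1) {D : ℕ} {R : Sys X} (hR : Prob D R) :
    ∑ d ∈ range (D - 1), ∑ τ : Shape Bool K d,
        wb m d τ * (qq obs D R d 0 τ - qq obs D R d 2 τ) ≤
      2 * (1 + ∑ d ∈ range (D - 1), xx m d) := by
  have key : ∀ M, M + 1 ≤ D → ∑ d ∈ range M, ∑ τ : Shape Bool K d,
      wb m d τ * (qq obs D R d 0 τ - qq obs D R d 2 τ) +
      ∑ τ : Shape Bool K M, wb m M τ * qq obs D R M 0 τ +
      ∑ τ : Shape Bool K M, wb m M τ * qq obs D R M 1 τ ≤ 2 * (1 + ∑ d ∈ range M, xx m d) := by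
    intro M
    induction M with
    | zero =>
      intro hM
      have h1 := avr_Q_le_one (K := K) hm ho hR (d := 0) (j := 0) (by omega)
      have h2 := avr_Q_le_one (K := K) hm ho hR (d := 0) (j := 1) (by omega)
      simp only [range_zero, sum_empty]
      linarith
    | succ M ih =>
      intro hM
      have h0 := ih (by omega)
      have h1 := avr_Q_step (K := K) hm ho hR (d := M) (j := 0) (by omega)
      have h2 := avr_Q_step (K := K) hm ho hR (d := M) (j := 1) (by omega)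
      rw [sum_range_succ, sum_range_succ]
      simp only [mul_sub, sum_sub_distrib] at h0 ⊢
      simp only [zero_add, Nat.reduceAdd] at h1 h2
      linarith
  rcases Nat.eq_zero_or_pos D with hD | hD
  · subst hD
    simp
  · have h0 := key (D - 1) (by omega)
    have h1 : ∀ j, 0 ≤ ∑ τ : Shape Bool K (D - 1), wb m (D - 1) τ * qq obs D R (D - 1) j τ :=
      fun j => sum_nonneg fun τ _ => mul_nonneg (wb_nonneg hm _ τ) (qq_nonneg obs hR _ _ τ)
    linarith [h1 0, h1 1]

open Classical in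
/-- The averaged variance bound. -/
theorem sum_wb_Vr_le {X I : Type} [Fintype I] [Nonempty I] {K n : ℕ} {m : ℕ → ℝ} (hm : Exps m)
    {obs : I → Bool → X → ℝ} (ho : ∀ i c x, |obs i c x| ≤ 1) {D' : ℕ} (hD : Even D') {R : Sys X}
    (hR : Prob (D' + 1) R) {tiny : ℝ} (ht : 0 ≤ tiny) (hT : Tiny obs K (D' + 1) n R tiny)
    {xmax xthin xs : ℝ} (h1 : ∀ d, d < D' → xx m d ≤ xmax) (h1' : 0 ≤ xmax)
    (h2 : ∀ d, d < D' → Even (d + 1) → xx m d ≤ xthin) (h2' : 0 ≤ xthin)
    (h3 : ∑ d ∈ range D', xx m d ≤ xs) :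
    ∑ τ : Shape Bool K D', (if Shape.size D' τ ≤ n then wb m D' τ * Vr obs (D' + 1) R D' τ else 0) ≤
      Real.exp (n * xs) * (tiny * (1 + xs) + D' * xthin + (n : ℝ) ^ 2 * xmax * (2 * (1 + xs))) := by
  set g : (d : ℕ) → Shape Bool K d → ℝ :=
    fun d' τ' => qq obs (D' + 1) R d' 0 τ' - qq obs (D' + 1) R d' 2 τ' with hgdef
  have hg : ∀ d, d < D' → ∀ τ, 0 ≤ g d τ := by
    intro d hd τ
    have a1 := qq_succ_le obs hR (d := d) (j := 0) (by omega) τ
    have a2 := qq_succ_le obs hR (d := d) (j := 1) (by omega) τ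
    simp only [zero_add, Nat.reduceAdd] at a1 a2
    simp only [hgdef]
    linarith
  have b1 := sum_wb_Bnd_le (n := n) hm ht g D' hg
  have b2 := sum_wb_inc_le (K := K) hm ho hR
  rw [Nat.add_sub_cancel] at b2
  have b3 : ∑ τ : Shape Bool K D',
      (if Shape.size D' τ ≤ n then wb m D' τ * Vr obs (D' + 1) R D' τ else 0) ≤
      ∑ τ : Shape Bool K D',
        (if Shape.size D' τ ≤ n then wb m D' τ * Bnd n tiny g D' τ else 0) := by
    refine sum_le_sum fun τ _ => ?_
    split_ifs with hsz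
    · exact mul_le_mul_of_nonneg_left (Vr_le_Bnd ho hD.add_one hR ht hT D' le_rfl τ hsz)
        (wb_nonneg hm _ _)
    · exact le_rfl
  refine b3.trans (b1.trans ?_)
  have hG : ∀ d, d < D' → 0 ≤ ∑ τ : Shape Bool K d, wb m d τ * g d τ := fun d hd =>
    sum_nonneg fun τ _ => mul_nonneg (wb_nonneg hm d τ) (hg d hd τ)
  have c1 : ∑ d ∈ range D', xx m d * (tiny + (if Even (d + 1) then 1 else 0) +
      (n : ℝ) ^ 2 * ∑ τ : Shape Bool K d, wb m d τ * g d τ) ≤
      ∑ d ∈ range D', (tiny * xx m d + xthin +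
        (n : ℝ) ^ 2 * xmax * ∑ τ : Shape Bool K d, wb m d τ * g d τ) := by
    refine sum_le_sum fun d hd => ?_
    have hd' := mem_range.1 hd
    have e1 : xx m d * (if Even (d + 1) then 1 else 0) ≤ xthin := by
      split_ifs with he
      · rw [mul_one]; exact h2 d hd' he
      · rw [mul_zero]; exact h2'
    have e2 := mul_le_mul_of_nonneg_right (h1 d hd')
      (mul_nonneg (sq_nonneg (n : ℝ)) (hG d hd'))
    nlinarith
  rw [sum_add_distrib, sum_add_distrib, ← mul_sum, ← mul_sum, sum_const, card_range,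
    nsmul_eq_mul] at c1
  have c2 := mul_le_mul_of_nonneg_left h3 ht
  have c3 := mul_le_mul_of_nonneg_left (b2.trans (by linarith :
    2 * (1 + ∑ d ∈ range D', xx m d) ≤ 2 * (1 + xs))) (mul_nonneg (sq_nonneg (n : ℝ)) h1')
  refine mul_le_mul (Real.exp_le_exp.2 (mul_le_mul_of_nonneg_left h3 (Nat.cast_nonneg _)))
    (by linarith) ?_ (Real.exp_pos _).le
  refine add_nonneg ht (sum_nonneg fun d hd => ?_)
  have e1 := hG d (mem_range.1 hd)
  have e2 := xx_nonneg hm d
  split_ifs <;> positivity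

end Crest.Agent.R141
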