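import Crest.Agent.R141.BasicProj

/-! Row 141, module A3: items, `TA`, `add`. -/

set_option autoImplicit false

namespace Crest.Agent.R141

open Finset

namespace Sys

variable {X Y : Type} {m : ℕ → ℝ}

/-! one step of `add` (all `rfl`) -/

theorem add_zero_val (S : Sys X) (A : Sys (X → ℝ)) : (add m 0 S A).val = S.val := rfl

theorem TA_zero (S : Sys X) (A : Sys (X → ℝ)) : TA m 0 S A = A.val S.val := rfl

theorem TA_succ (d : ℕ) (S : Sys X) (A : Sys (X → ℝ)) :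
    TA m (d + 1) S A =
      (∑ ω : S.ι × A.ι, S.p ω.1 * A.p ω.2 * TA m d (S.ch ω.1) (A.ch ω.2) ^ m d) ^ (m d)⁻¹ := rfl

theorem add_succ (d : ℕ) (S : Sys X) (A : Sys (X → ℝ)) :
    add m (d + 1) S A = node S.val (S.ι × A.ι)
      (fun ω => S.p ω.1 * A.p ω.2 * (TA m d (S.ch ω.1) (A.ch ω.2) / TA m (d + 1) S A) ^ m d)
      (fun ω => add m d (S.ch ω.1) (A.ch ω.2)) := rfl

theorem Item.mono {d : ℕ} {lo hi lo' hi' : ℝ} {A : Sys (X → ℝ)} (h : Item d lo hi A)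
    (h1 : lo' ≤ lo) (h2 : hi ≤ hi') : Item d lo' hi' A := by
  refine ⟨h.1, h.2.imp ?_⟩
  intro Z hZ x
  exact ⟨h1.trans (hZ x).1, (hZ x).2.trans h2⟩

theorem Item.ch {d : ℕ} {lo hi : ℝ} {A : Sys (X → ℝ)} (h : Item (d + 1) lo hi A) (ω : A.ι) :
    Item d lo hi (A.ch ω) := by
  exact ⟨h.1.2.2 ω, h.2 ω⟩

theorem Item.allAt_fac {d : ℕ} {lo hi : ℝ} {A : Sys (X → ℝ)} (h : Item d lo hi A) (S : Sys X) :
    AllAt d (prod d S A) (fun L => lo ≤ fac L ∧ fac L ≤ hi) := by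
  have h1 : AllAt d S (fun L => (fun _ : X => True) L.val) :=
    allAt_of_forall d S (fun _ => trivial)
  have h2 := allAt_prod (P := fun _ : X => True)
    (P' := fun g : X → ℝ => ∀ x, lo ≤ g x ∧ g x ≤ hi) h1 h.2
  exact h2.imp (fun Z hZ => hZ.2 _)

theorem TA_bounds (hm : ∀ d, 0 < m d) {d : ℕ} {lo hi : ℝ} (hlo : 0 < lo) {S : Sys X}
    {A : Sys (X → ℝ)} (hS : Prob d S) (hA : Item d lo hi A) :
    lo ≤ TA m d S A ∧ TA m d S A ≤ hi := by
  exact T_bounds hm (prob_prod hS hA.1) hlo (hA.allAt_fac S)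

theorem TA_pos (hm : ∀ d, 0 < m d) {d : ℕ} {lo hi : ℝ} (hlo : 0 < lo) {S : Sys X}
    {A : Sys (X → ℝ)} (hS : Prob d S) (hA : Item d lo hi A) : 0 < TA m d S A :=
  hlo.trans_le (TA_bounds hm hlo hS hA).1

theorem TA_succ_rpow (hm : ∀ d, 0 < m d) {d : ℕ} {lo hi : ℝ} (hlo : 0 < lo) {S : Sys X}
    {A : Sys (X → ℝ)} (hS : Prob (d + 1) S) (hA : Item (d + 1) lo hi A) :
    TA m (d + 1) S A ^ m d =
      ∑ ω : S.ι × A.ι, S.p ω.1 * A.p ω.2 * TA m d (S.ch ω.1) (A.ch ω.2) ^ m d := by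
  exact T_succ_rpow hm (prob_prod hS hA.1)
    ((hA.allAt_fac S).imp (fun Z hZ => hlo.trans_le hZ.1))

theorem prob_add (hm : ∀ d, 0 < m d) {d : ℕ} {lo hi : ℝ} (hlo : 0 < lo) {S : Sys X}
    {A : Sys (X → ℝ)} (hS : Prob d S) (hA : Item d lo hi A) : Prob d (add m d S A) := by
  exact prob_map _ (prob_tilt' hm (prob_prod hS hA.1)
    ((hA.allAt_fac S).imp (fun Z hZ => hlo.trans_le hZ.1)))

theorem allAt_add_item {d : ℕ} {S : Sys X} (A : Sys (X → ℝ)) {P : X → Prop}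
    (h : AllAt d S (fun L => P L.val)) : AllAt d (add m d S A) (fun L => P L.val) := by
  induction d generalizing S A with
  | zero => exact h
  | succ d ih => exact fun ω => ih (A.ch ω.2) (h ω.1)

/-- `T` in the perturbed system. -/
theorem T_add_mul (hm : ∀ d, 0 < m d) {d : ℕ} {lo hi : ℝ} (hlo : 0 < lo) {S : Sys X}
    {A : Sys (X → ℝ)} (hS : Prob d S) (hA : Item d lo hi A) {V : X → ℝ} (hV : ∀ x, 0 < V x) :
    TA m d S A * T m d (add m d S A) (fun L => V L.val) =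
      T m d (prod d S A) (fun L => fac L * V L.val.1) := by
  have hP := prob_prod hS hA.1
  have h1 : AllAt d (prod d S A) (fun Q => 0 < fac Q) :=
    (hA.allAt_fac S).imp (fun Z hZ => hlo.trans_le hZ.1)
  have h2 : AllAt d (prod d S A) (fun Q => 0 < V Q.val.1) :=
    allAt_of_forall d _ (fun Z => hV _)
  rw [T_mul hm hP h1 h2]
  unfold add TA
  rw [T_map]

theorem Proj.TA_eq {d : ℕ} {S S' : Sys X} {A A' : Sys (X → ℝ)} (h : Proj id d S S')
    (h' : Proj id d A A') : TA m d S A = TA m d S' A' := by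
  exact (h.prod h').T_eq (m := m) (fun z : X × (X → ℝ) => z.2 z.1)

theorem Proj.add {d : ℕ} {S S' : Sys X} {A A' : Sys (X → ℝ)} (h : Proj id d S S')
    (h' : Proj id d A A') : Proj id d (add m d S A) (add m d S' A') := by
  have h1 := (h.prod h').tilt (m := m) (fun z : X × (X → ℝ) => z.2 z.1)
  have h2 := h1.map_right (Prod.fst : X × (X → ℝ) → X)
  exact Proj.map_left (φ := (Prod.fst : X × (X → ℝ) → X)) (ψ := id) h2

theorem inv_TA (d : ℕ) (A : Sys (X → ℝ)) : Inv d (fun S : Sys X => TA m d S A) := by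
  intro S S' _ _ h
  exact h.TA_eq (Proj.refl d A)

theorem Inv.add (hm : ∀ d, 0 < m d) {d : ℕ} {lo hi : ℝ} (hlo : 0 < lo) {A : Sys (X → ℝ)}
    (hA : Item d lo hi A) {F : Sys X → ℝ} (hF : Inv d F) : Inv d (fun S => F (add m d S A)) := by
  intro S S' hS hS' h
  exact hF _ _ (prob_add hm hlo hS hA) (prob_add hm hlo hS' hA) (h.add (Proj.refl d A))

theorem Inv2.plus (hm : ∀ d, 0 < m d) {d : ℕ} {lo hi : ℝ} (hlo : 0 < lo) {Mn : Sys (X → ℝ)}
    (hMn : Item (d + 1) lo hi Mn) {F : Sys X → Sys X → ℝ} (hF : Inv2 d F) :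
    Inv2 d (plus m d Mn F) := by
  intro P P' S S' hP hP' hS hS' h h'
  unfold Sys.plus
  refine Finset.sum_congr rfl (fun κ _ => ?_)
  rw [h'.TA_eq (m := m) (Proj.refl d (Mn.ch κ)),
    hF P P' _ _ hP hP' (prob_add hm hlo hS (hMn.ch κ)) (prob_add hm hlo hS' (hMn.ch κ)) h
      (h'.add (Proj.refl d (Mn.ch κ)))]

theorem TA_imul (hm : ∀ d, 0 < m d) {d : ℕ} {lo hi lo' hi' : ℝ} (hlo : 0 < lo) (hlo' : 0 < lo')
    {S : Sys X} {A B : Sys (X → ℝ)} (hS : Prob d S) (hA : Item d lo hi A) (hB : Item d lo' hi' B) :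
    TA m d S (imul d A B) = TA m d S A * TA m d (add m d S A) B := by
  have hSA := prob_prod hS hA.1
  have hfA : AllAt d (prod d S A) (fun L => 0 < (fun z : X × (X → ℝ) => z.2 z.1) L.val) :=
    (hA.allAt_fac S).imp (fun Z hZ => hlo.trans_le hZ.1)
  have hB' : AllAt d B (fun L => (fun g : X → ℝ => ∀ x, 0 < g x) L.val) :=
    hB.2.imp (fun Z hZ x => hlo'.trans_le (hZ x).1)
  have hboth := allAt_prod (P := fun z : X × (X → ℝ) => 0 < z.2 z.1)
    (P' := fun g : X → ℝ => ∀ x, 0 < g x) hfA hB'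
  -- unfold the product item
  have e1 : TA m d S (imul d A B) =
      T m d (prod d S (prod d A B)) (fun L => L.val.2.1 L.val.1 * L.val.2.2 L.val.1) :=
    (((Proj.refl d S).prod (proj_map (fun (g : (X → ℝ) × (X → ℝ)) x => g.1 x * g.2 x) d
      (prod d A B))).T_eq (m := m) (fun z : X × (X → ℝ) => z.2 z.1)).symm
  have e2 : T m d (prod d S (prod d A B)) (fun L => L.val.2.1 L.val.1 * L.val.2.2 L.val.1) =
      T m d (prod d (prod d S A) B) (fun L => L.val.1.2 L.val.1.1 * L.val.2 L.val.1.1) :=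
    (proj_prod_assoc' d S A B).T_eq (m := m)
      (fun z : (X × (X → ℝ)) × (X → ℝ) => z.1.2 z.1.1 * z.2 z.1.1)
  have e3 := T_mul hm (prob_prod hSA hB.1) (Φ := fun L => L.val.1.2 L.val.1.1)
    (Ψ := fun L => L.val.2 L.val.1.1) (hboth.imp (fun Z hZ => hZ.1))
    (hboth.imp (fun Z hZ => hZ.2 _))
  have e4 : T m d (prod d (prod d S A) B) (fun L => L.val.1.2 L.val.1.1) = TA m d S A :=
    (proj_prod_fst (prod d S A) hB.1).T_eq (m := m) (fun z : X × (X → ℝ) => z.2 z.1)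
  have e5 := tilt_prod_fst hm hSA hB.1 (V := fun z : X × (X → ℝ) => z.2 z.1) hfA
  have e6 : T m d (prod d (tilt m d (prod d S A) fac) B) (fun L => L.val.2 L.val.1.1) =
      TA m d (add m d S A) B :=
    ((proj_map (Prod.fst : X × (X → ℝ) → X) d (tilt m d (prod d S A) fac)).prod
      (Proj.refl d B)).T_eq (m := m) (fun z : X × (X → ℝ) => z.2 z.1)
  rw [e1, e2, e3, e4, ← e6]
  congr 2

theorem proj_add_add (hm : ∀ d, 0 < m d) {d : ℕ} {lo hi lo' hi' : ℝ} (hlo : 0 < lo)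
    (hlo' : 0 < lo') {S : Sys X} {A B : Sys (X → ℝ)} (hS : Prob d S) (hA : Item d lo hi A)
    (hB : Item d lo' hi' B) :
    Proj id d (add m d S (imul d A B)) (add m d (add m d S A) B) := by
  induction d generalizing S A B with
  | zero => rfl
  | succ d ih =>
    refine ⟨fun w : S.ι × (A.ι × B.ι) => (((w.1, w.2.1), w.2.2) : (S.ι × A.ι) × B.ι), ?_, ?_⟩
    · intro g
      refine Fintype.sum_equiv (Equiv.prodAssoc S.ι A.ι B.ι).symm _ _ ?_
      rintro ⟨w, a, b⟩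
      change S.p w * (A.p a * B.p b) * (TA m d (S.ch w) (imul d (A.ch a) (B.ch b)) /
          TA m (d + 1) S (imul (d + 1) A B)) ^ m d * g ((w, a), b) =
        S.p w * A.p a * (TA m d (S.ch w) (A.ch a) / TA m (d + 1) S A) ^ m d * B.p b *
          (TA m d (add m d (S.ch w) (A.ch a)) (B.ch b) /
            TA m (d + 1) (add m (d + 1) S A) B) ^ m d * g ((w, a), b)
      have h1 := TA_pos hm hlo (hS.2.2 w) (hA.ch a)
      have h2 := TA_pos hm hlo hS hA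
      have h3 := TA_pos hm hlo' (prob_add hm hlo (hS.2.2 w) (hA.ch a)) (hB.ch b)
      have h4 := TA_pos hm hlo' (prob_add hm hlo hS hA) hB
      rw [TA_imul hm hlo hlo' (hS.2.2 w) (hA.ch a) (hB.ch b), TA_imul hm hlo hlo' hS hA hB,
        ← div_mul_div_comm, Real.mul_rpow (div_pos h1 h2).le (div_pos h3 h4).le]
      ring
    · rintro ⟨w, a, b⟩
      exact ih (hS.2.2 w) (hA.ch a) (hB.ch b)

theorem TA_triv (hm : ∀ d, 0 < m d) {d : ℕ} {S : Sys X} (hS : Prob d S) :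
    TA m d S (triv d (fun _ => 1)) = 1 := by
  have h := TA_bounds hm one_pos hS
    (show Item d 1 1 (triv d (fun _ : X => (1 : ℝ))) from
      ⟨prob_triv d _, allAt_triv d _ (P := fun g : X → ℝ => ∀ x, 1 ≤ g x ∧ g x ≤ 1)
        (fun _ => ⟨le_rfl, le_rfl⟩)⟩)
  exact le_antisymm h.2 h.1

theorem proj_add_triv (hm : ∀ d, 0 < m d) {d : ℕ} {S : Sys X} (hS : Prob d S) :
    Proj id d (add m d S (triv d (fun _ => 1))) S := by
  induction d generalizing S with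
  | zero => rfl
  | succ d ih =>
    refine ⟨fun w : S.ι × Unit => w.1, ?_, ?_⟩
    · intro g
      refine Fintype.sum_equiv (Equiv.prodPUnit S.ι) _ _ ?_
      rintro ⟨w, a⟩
      change S.p w * 1 * (TA m d (S.ch w) (triv d (fun _ => 1)) /
          TA m (d + 1) S (triv (d + 1) (fun _ => 1))) ^ m d * g w = S.p w * g w
      rw [TA_triv hm (hS.2.2 w), TA_triv hm hS]
      simp
    · rintro ⟨w, a⟩
      exact ih (hS.2.2 w)

theorem TA_lift (b j : ℕ) (S : Sys X) (A : Sys (X → ℝ)) :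
    TA m (b + j) S (lift j A) = T (fun k => m (b + k)) j S (fun Q => TA m b Q A) := by
  induction j generalizing S with
  | zero => rfl
  | succ j ih =>
    change (∑ ω : S.ι × Unit, S.p ω.1 * 1 * TA m (b + j) (S.ch ω.1) (lift j A) ^ m (b + j)) ^
        (m (b + j))⁻¹ =
      (∑ ω, S.p ω * T (fun k => m (b + k)) j (S.ch ω) (fun Q => TA m b Q A) ^ m (b + j)) ^
        (m (b + j))⁻¹
    congr 1
    refine Fintype.sum_equiv (Equiv.prodPUnit S.ι) _ _ ?_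
    rintro ⟨w, a⟩
    simp only [mul_one, Equiv.prodPUnit_apply, ih]

theorem Exp_add_lift (b j : ℕ) (S : Sys X) (A : Sys (X → ℝ)) (F : Sys X → ℝ) :
    Exp j (add m (b + j) S (lift j A)) F =
      Exp j (tilt (fun k => m (b + k)) j S (fun Q => TA m b Q A)) (fun Q => F (add m b Q A)) := by
  induction j generalizing S with
  | zero => rfl
  | succ j ih =>
    change ∑ ω : S.ι × Unit, S.p ω.1 * 1 * (TA m (b + j) (S.ch ω.1) (lift j A) /
          TA m (b + (j + 1)) S (lift (j + 1) A)) ^ m (b + j) *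
          Exp j (add m (b + j) (S.ch ω.1) (lift j A)) F =
      ∑ ω, S.p ω * (T (fun k => m (b + k)) j (S.ch ω) (fun Q => TA m b Q A) /
          T (fun k => m (b + k)) (j + 1) S (fun Q => TA m b Q A)) ^ m (b + j) *
        Exp j (tilt (fun k => m (b + k)) j (S.ch ω) (fun Q => TA m b Q A))
          (fun Q => F (add m b Q A))
    refine Fintype.sum_equiv (Equiv.prodPUnit S.ι) _ _ ?_
    rintro ⟨w, a⟩
    simp only [mul_one, Equiv.prodPUnit_apply, ih, TA_lift]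

/-- Split off one factor of a product item. -/
theorem proj_iprod_split_one {Λ Λ₁ : Type} [Fintype Λ] [DecidableEq Λ] [Fintype Λ₁]
    [DecidableEq Λ₁] (e : Λ₁ → Λ) (he : Function.Injective e) (t : Λ) (ht : ∀ l, e l ≠ t)
    (hsurj : ∀ l, l = t ∨ ∃ l', e l' = l) {d : ℕ} {A : Λ → Sys (X → ℝ)} (h : ∀ l, Prob d (A l)) :
    Proj id d (iprod d A) (imul d (iprod d (fun l => A (e l))) (A t)) := by
  have h1 := proj_piProd_split_one e he t ht h
  have h2 := (proj_map (fun (g : Λ₁ → X → ℝ) x => ∏ l, g l x) d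
    (piProd d (fun l => A (e l)))).prod (Proj.refl d (A t))
  have h3 := (h1.trans h2).map_right (fun (g : (X → ℝ) × (X → ℝ)) x => g.1 x * g.2 x)
  refine Proj.map_left (φ := fun (g : Λ → X → ℝ) x => ∏ l, g l x) (ψ := id) ?_
  refine h3.congr_fun (allAt_of_forall _ _ (fun Z => ?_))
  funext x
  simp only [Prod.map, id]
  have hu : (Finset.univ : Finset Λ) = insert t (Finset.univ.map ⟨e, he⟩) := by
    ext l
    simp only [Finset.mem_univ, Finset.mem_insert, Finset.mem_map, true_and,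
      Function.Embedding.coeFn_mk, true_iff]
    exact hsurj l
  rw [hu, Finset.prod_insert (by simpa using ht), Finset.prod_map, mul_comm]
  rfl

/-! ### the constructions give items -/

theorem item_leaf {lo hi : ℝ} {g : X → ℝ} (h : ∀ x, lo ≤ g x ∧ g x ≤ hi) :
    Item 0 lo hi (leaf g) := by
  exact ⟨trivial, h⟩

theorem item_triv (d : ℕ) : Item d 1 1 (triv d (fun _ : X => (1 : ℝ))) := by
  exact ⟨prob_triv d _, allAt_triv d _ (P := fun g : X → ℝ => ∀ x, 1 ≤ g x ∧ g x ≤ 1)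
    (fun _ => ⟨le_rfl, le_rfl⟩)⟩

theorem Item.lift {b : ℕ} (j : ℕ) {lo hi : ℝ} {A : Sys (X → ℝ)} (h : Item b lo hi A) :
    Item (b + j) lo hi (lift j A) := by
  exact ⟨prob_lift j h.1, (allAt_lift j).2 h.2⟩

theorem Item.imul {d : ℕ} {lo hi lo' hi' : ℝ} (hlo : 0 ≤ lo) (hlo' : 0 ≤ lo')
    {A B : Sys (X → ℝ)} (hA : Item d lo hi A) (hB : Item d lo' hi' B) :
    Item d (lo * lo') (hi * hi') (imul d A B) := by
  refine ⟨prob_map _ (prob_prod hA.1 hB.1), ?_⟩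
  refine (allAt_map (fun (g : (X → ℝ) × (X → ℝ)) x => g.1 x * g.2 x)
    (P := fun g : X → ℝ => ∀ x, lo * lo' ≤ g x ∧ g x ≤ hi * hi')).2 ?_
  refine (allAt_prod (P := fun g : X → ℝ => ∀ x, lo ≤ g x ∧ g x ≤ hi)
    (P' := fun g : X → ℝ => ∀ x, lo' ≤ g x ∧ g x ≤ hi') hA.2 hB.2).imp ?_
  rintro Z ⟨h1, h2⟩ x
  have a1 := h1 x
  have a2 := h2 x
  exact ⟨mul_le_mul a1.1 a2.1 hlo' (hlo.trans a1.1),
    mul_le_mul a1.2 a2.2 (hlo'.trans a2.1) ((hlo.trans a1.1).trans a1.2)⟩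

theorem item_iprod {Λ : Type} [Fintype Λ] [DecidableEq Λ] {d : ℕ} {lo hi : ℝ} (hlo : 0 ≤ lo)
    {A : Λ → Sys (X → ℝ)} (hA : ∀ l, Item d lo hi (A l)) :
    Item d (lo ^ Fintype.card Λ) (hi ^ Fintype.card Λ) (iprod d A) := by
  refine ⟨prob_map _ (prob_piProd (fun l => (hA l).1)), ?_⟩
  refine (allAt_map (fun (g : Λ → X → ℝ) x => ∏ l, g l x)
    (P := fun g : X → ℝ => ∀ x, lo ^ Fintype.card Λ ≤ g x ∧ g x ≤ hi ^ Fintype.card Λ)).2 ?_
  refine (allAt_piProd (P := fun _ (g : X → ℝ) => ∀ x, lo ≤ g x ∧ g x ≤ hi)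
    (fun l => (hA l).2)).imp ?_
  intro Z hZ x
  rw [← Finset.card_univ, ← Finset.prod_const, ← Finset.prod_const]
  exact ⟨Finset.prod_le_prod (fun _ _ => hlo) (fun l _ => (hZ l x).1),
    Finset.prod_le_prod (fun l _ => hlo.trans (hZ l x).1) (fun l _ => (hZ l x).2)⟩

theorem Item.mix {d : ℕ} {lo hi a : ℝ} (hlo : lo ≤ 1) (hhi : 1 ≤ hi) (ha : 0 < a) (ha1 : a < 1)
    {A : Sys (X → ℝ)} (hA : Item (d + 1) lo hi A) : Item (d + 1) lo hi (mix d a A) := by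
  refine ⟨⟨?_, ?_, ?_⟩, ?_⟩
  · rintro (_ | ω)
    · change 0 < 1 - a
      linarith
    · exact mul_pos ha (hA.1.1 ω)
  · change ∑ o : Option A.ι, o.elim (1 - a) (fun ω => a * A.p ω) = 1
    rw [Fintype.sum_option]
    simp only [Option.elim]
    rw [← Finset.mul_sum, hA.1.2.1]
    ring
  · rintro (_ | ω)
    · exact prob_triv d _
    · exact hA.1.2.2 ω
  · rintro (_ | ω)
    · exact ((item_triv (X := X) d).mono hlo hhi).2
    · exact hA.2 ω

theorem TA_mix_rpow (hm : ∀ d, 0 < m d) {d : ℕ} {lo hi a : ℝ} (hlo0 : 0 < lo) (hlo : lo ≤ 1)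
    (hhi : 1 ≤ hi) (ha : 0 < a) (ha1 : a < 1) {S : Sys X} {A : Sys (X → ℝ)} (hS : Prob (d + 1) S)
    (hA : Item (d + 1) lo hi A) :
    TA m (d + 1) S (mix d a A) ^ m d = 1 - a * (1 - TA m (d + 1) S A ^ m d) := by
  rw [TA_succ_rpow hm hlo0 hS (hA.mix hlo hhi ha ha1), TA_succ_rpow hm hlo0 hS hA]
  change ∑ ω : S.ι × Option A.ι, S.p ω.1 * ω.2.elim (1 - a) (fun ω => a * A.p ω) *
      TA m d (S.ch ω.1) (ω.2.elim (triv d (fun _ => 1)) (fun ω => A.ch ω)) ^ m d = _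
  rw [Fintype.sum_prod_type, Fintype.sum_prod_type]
  simp only [Fintype.sum_option, Option.elim]
  have h1 : ∀ w, TA m d (S.ch w) (triv d (fun _ => 1)) ^ m d = 1 := fun w => by
    rw [TA_triv hm (hS.2.2 w), Real.one_rpow]
  simp only [h1, mul_one]
  rw [Finset.sum_add_distrib, ← Finset.sum_mul, hS.2.1]
  have h2 : ∑ w, ∑ ω, S.p w * (a * A.p ω) * TA m d (S.ch w) (A.ch ω) ^ m d =
      a * ∑ w, ∑ ω, S.p w * A.p ω * TA m d (S.ch w) (A.ch ω) ^ m d := by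
    rw [Finset.mul_sum]
    refine Finset.sum_congr rfl (fun w _ => ?_)
    rw [Finset.mul_sum]
    refine Finset.sum_congr rfl (fun ω _ => ?_)
    ring
  rw [h2]
  ring

theorem item_menuA {I : Type} [Fintype I] [Nonempty I] {d : ℕ} {lo hi : ℝ}
    {A : I → Sys (X → ℝ)} (hA : ∀ i, Item d lo hi (A i)) : Item (d + 1) lo hi (menuA A) := by
  have hc : (0 : ℝ) < Fintype.card I := by exact_mod_cast Fintype.card_pos
  refine ⟨⟨fun _ => inv_pos.2 hc, ?_, fun i => (hA i).1⟩, fun i => (hA i).2⟩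
  change ∑ _i : I, (Fintype.card I : ℝ)⁻¹ = 1
  rw [Finset.sum_const, Finset.card_univ, nsmul_eq_mul, mul_inv_cancel₀ hc.ne']

theorem item_menuB {I : Type} [Fintype I] [Nonempty I] {d : ℕ} {lo hi : ℝ}
    {A : I → Sys (X → ℝ)} (hA : ∀ i, Item (d + 1) lo hi (A i)) :
    Item (d + 1) lo hi (menuB A) := by
  have hc : (0 : ℝ) < Fintype.card I := by exact_mod_cast Fintype.card_pos
  refine ⟨⟨fun ω => mul_pos (inv_pos.2 hc) ((hA ω.1).1.1 ω.2), ?_,
    fun ω => (hA ω.1).1.2.2 ω.2⟩, fun ω => (hA ω.1).2 ω.2⟩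
  change ∑ ω : (Σ i : I, (A i).ι), (Fintype.card I : ℝ)⁻¹ * (A ω.1).p ω.2 = 1
  rw [Fintype.sum_sigma]
  have h1 : ∀ i, ∑ ω : (A i).ι, (Fintype.card I : ℝ)⁻¹ * (A i).p ω = (Fintype.card I : ℝ)⁻¹ :=
    fun i => by rw [← Finset.mul_sum, (hA i).1.2.1, mul_one]
  simp only [h1]
  rw [Finset.sum_const, Finset.card_univ, nsmul_eq_mul, mul_inv_cancel₀ hc.ne']

theorem item_slot {d : ℕ} {lo hi : ℝ} (hlo0 : 0 ≤ lo) (hlo : lo ≤ 1) (hhi : 1 ≤ hi)
    {Mn : Sys (X → ℝ)} (hMn : Item (d + 1) lo hi Mn) (s : ℕ) {θ : ℝ} (hθ : 0 < θ) :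
    Item (d + 1) (lo ^ s) (hi ^ s) (slot d Mn s θ) := by
  classical
  have h1θ : 0 < 1 + θ := by linarith
  have hch : ∀ ω : (Σ k : Fin (s + 1), (Fin k → Mn.ι)),
      Item d (lo ^ s) (hi ^ s) (iprod d (fun j => Mn.ch (ω.2 j))) := by
    intro ω
    have h := item_iprod hlo0 (A := fun j => Mn.ch (ω.2 j)) (fun j => hMn.ch (ω.2 j))
    rw [Fintype.card_fin] at h
    have hk : (ω.1 : ℕ) ≤ s := Nat.lt_succ_iff.1 ω.1.2
    exact h.mono (pow_le_pow_of_le_one hlo0 hlo hk) (pow_le_pow_right₀ hhi hk)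
  refine ⟨⟨fun ω => ?_, ?_, fun ω => (hch ω).1⟩, fun ω => (hch ω).2⟩
  · have hk : (ω.1 : ℕ) ≤ s := Nat.lt_succ_iff.1 ω.1.2
    have hc : (0 : ℝ) < (s.choose ω.1 : ℝ) := by exact_mod_cast Nat.choose_pos hk
    exact mul_pos (div_pos (mul_pos hc (pow_pos hθ _)) (pow_pos h1θ _))
      (Finset.prod_pos (fun j _ => hMn.1.1 _))
  · change ∑ ω : (Σ k : Fin (s + 1), (Fin k → Mn.ι)),
      (s.choose ω.1 : ℝ) * θ ^ (ω.1 : ℕ) / (1 + θ) ^ s * ∏ j, Mn.p (ω.2 j) = 1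
    rw [Fintype.sum_sigma]
    have h1 : ∀ k : Fin (s + 1), ∑ u : Fin k → Mn.ι,
        (s.choose k : ℝ) * θ ^ (k : ℕ) / (1 + θ) ^ s * ∏ j, Mn.p (u j) =
        (s.choose k : ℝ) * θ ^ (k : ℕ) / (1 + θ) ^ s := by
      intro k
      rw [← Finset.mul_sum, ← Fintype.piFinset_univ, ← Finset.prod_univ_sum]
      simp only [hMn.1.2.1, Finset.prod_const_one, mul_one]
    simp only [h1]
    rw [← Finset.sum_div, Fin.sum_univ_eq_sum_range (fun k => (s.choose k : ℝ) * θ ^ k) (s + 1),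
      div_eq_one_iff_eq (pow_pos h1θ s).ne', add_comm 1 θ, add_pow]
    refine Finset.sum_congr rfl (fun k _ => ?_)
    rw [one_pow]
    ring

/-! ### `GG` -/

theorem GG.mono {d e : ℕ} {S : Sys X} {Mn : Sys (X → ℝ)} {η η' : ℝ} (h : GG m d e S Mn η)
    (hη : η ≤ η') : GG m d e S Mn η' := fun F h1 h2 => (h F h1 h2).trans hη

theorem GG.of_proj (hm : ∀ d, 0 < m d) {d e : ℕ} {lo hi : ℝ} (hlo : 0 < lo) {S S' : Sys X}
    {Mn : Sys (X → ℝ)} (hMn : Item (d + 1) lo hi Mn) (h : Proj id (d + 1 + e) S S')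
    (hS : Prob (d + 1 + e) S) (hS' : Prob (d + 1 + e) S') {η : ℝ} (hG : GG m d e S' Mn η) :
    GG m d e S Mn η := by
  intro F hF hb
  have h1 : Inv2 d (fun _ _ : Sys X => (1 : ℝ)) := fun _ _ _ _ _ _ _ _ _ _ => rfl
  rw [h.E1_eq hS hS' hF, h.E1_eq hS hS' (hF.plus hm hlo hMn),
    h.E1_eq hS hS' (h1.plus hm hlo hMn)]
  exact hG F hF hb

end Sys

/-- Both spin values survive a perturbation and a relabelling. -/
theorem full_map_add {X : Type} {m : ℕ → ℝ} {d : ℕ} {S : Sys X} {A : Sys (X → ℝ)}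
    (hA : Sys.Prob (d + 1) A) (φ : X → Bool)
    (h : Sys.AllAt d S (fun Q => ∀ b : Bool, ∃ ω, φ (Q.ch ω).val = b)) :
    Full d (Sys.map φ (d + 1) (Sys.add m (d + 1) S A)) := by
  induction d generalizing S A with
  | zero =>
    intro b
    obtain ⟨ω, hω⟩ := h b
    obtain ⟨a⟩ := hA.nonempty
    exact ⟨((ω, a) : S.ι × A.ι), hω⟩
  | succ d ih =>
    intro ω
    exact ih (hA.2.2 ω.2) (h ω.1)

end Crest.Agent.R141
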