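import Crest.Agent.R141.BasicT

/-! Row 141, module A2: products, `map`, `Proj`. -/

set_option autoImplicit false

namespace Crest.Agent.R141

open Finset

/-! ### finite product weights -/

theorem bp_delta {A B : Type} [Fintype A] [Fintype B] [DecidableEq B] (w : A → ℝ) (w' : B → ℝ)
    (φ : A → B) (h : ∀ b, ∑ a, w a * (if φ a = b then 1 else 0) = w' b) (G : B → ℝ) :
    ∑ a, w a * G (φ a) = ∑ b, w' b * G b := by
  simp only [← h, Finset.sum_mul]
  rw [Finset.sum_comm]
  refine Finset.sum_congr rfl fun a _ => ?_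
  rw [Finset.sum_eq_single (φ a)]
  · simp
  · intro b _ hb
    simp [hb.symm]
  · simp

theorem bp_ind_pi {Λ : Type} [Fintype Λ] {B : Λ → Type} [∀ l, DecidableEq (B l)]
    (x y : ∀ l, B l) [Decidable (x = y)] :
    (if x = y then (1 : ℝ) else 0) = ∏ l, if x l = y l then (1 : ℝ) else 0 := by
  by_cases h : x = y
  · simp [h]
  · rw [if_neg h]
    obtain ⟨l, hl⟩ := Function.ne_iff.1 h
    exact (Finset.prod_eq_zero (Finset.mem_univ l) (if_neg hl)).symm

theorem bp_sum_pi {Λ : Type} [Fintype Λ] [DecidableEq Λ] {A : Λ → Type} [∀ l, Fintype (A l)]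
    (g : ∀ l, A l → ℝ) : ∑ a : ∀ l, A l, ∏ l, g l (a l) = ∏ l, ∑ x, g l x := by
  rw [Finset.prod_univ_sum, Fintype.piFinset_univ]

theorem bp_marg {Λ Λ' : Type} [Fintype Λ] [DecidableEq Λ] [Fintype Λ']
    {A : Λ → Type} [∀ l, Fintype (A l)] (p : ∀ l, A l → ℝ) (hp : ∀ l, ∑ a, p l a = 1)
    (e : Λ' → Λ) (he : Function.Injective e) (g : ∀ l', A (e l') → ℝ) :
    ∑ a : ∀ l, A l, (∏ l, p l (a l)) * ∏ l', g l' (a (e l')) =
      ∏ l', ∑ x, p (e l') x * g l' x := by
  classical
  let g' : ∀ l, A l → ℝ := fun l x =>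
    ∏ l', if h : e l' = l then g l' (cast (congrArg A h.symm) x) else 1
  have h1 : ∀ a : ∀ l, A l, ∏ l', g l' (a (e l')) = ∏ l, g' l (a l) := by
    intro a
    simp only [g']
    rw [Finset.prod_comm]
    refine Finset.prod_congr rfl fun l' _ => ?_
    rw [Finset.prod_eq_single (e l')]
    · simp
    · intro l _ hl
      rw [dif_neg hl.symm]
    · simp
  simp only [h1, ← Finset.prod_mul_distrib]
  rw [bp_sum_pi (fun l x => p l x * g' l x)]
  refine (Fintype.prod_of_injective e he _ _ ?_ ?_).symm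
  · intro l hl
    have : ∀ x, g' l x = 1 := by
      intro x
      refine Finset.prod_eq_one fun l' _ => dif_neg fun h => hl ⟨l', h⟩
    simp only [this, mul_one, hp]
  · intro l'
    refine Finset.sum_congr rfl fun x _ => ?_
    congr 1
    simp only [g']
    rw [Finset.prod_eq_single l']
    · simp
    · intro l'' _ hl
      rw [dif_neg fun h => hl (he h)]
    · simp

theorem bp_groups {Λ G : Type} [Fintype Λ] [DecidableEq Λ] [Fintype G]
    [DecidableEq G] {Λ' : G → Type} [∀ g, Fintype (Λ' g)] [∀ g, DecidableEq (Λ' g)]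
    {A : Λ → Type} [∀ l, Fintype (A l)] (p : ∀ l, A l → ℝ) (hp : ∀ l, ∑ a, p l a = 1)
    (e : ∀ g, Λ' g → Λ) (he : Function.Injective (fun x : Σ g, Λ' g => e x.1 x.2))
    (H : ∀ g, (∀ l, A (e g l)) → ℝ) :
    ∑ a : ∀ l, A l, (∏ l, p l (a l)) * ∏ g, H g (fun l => a (e g l)) =
      ∏ g, ∑ b : ∀ l, A (e g l), (∏ l, p (e g l) (b l)) * H g b := by
  classical
  rw [← bp_sum_pi (fun g (b : ∀ l, A (e g l)) => (∏ l, p (e g l) (b l)) * H g b)]
  simp only [Finset.prod_mul_distrib]
  refine bp_delta (fun a : ∀ l, A l => ∏ l, p l (a l))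
    (fun B : ∀ g l, A (e g l) => ∏ g, ∏ l, p (e g l) (B g l))
    (fun a g l => a (e g l)) (fun B => ?_) (fun B => ∏ g, H g (B g))
  have h1 : ∀ a : ∀ l, A l, (if (fun g l => a (e g l)) = B then (1 : ℝ) else 0)
      = ∏ x : Σ g, Λ' g, if a (e x.1 x.2) = B x.1 x.2 then (1 : ℝ) else 0 := by
    intro a
    rw [bp_ind_pi, Fintype.prod_sigma]
    exact Finset.prod_congr rfl fun g _ => bp_ind_pi _ _
  simp only [h1]
  rw [bp_marg p hp (fun x : Σ g, Λ' g => e x.1 x.2) he
    (fun x y => if y = B x.1 x.2 then (1 : ℝ) else 0), Fintype.prod_sigma]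
  simp

theorem bp_split {Λ Λ₁ Λ₂ : Type} [Fintype Λ] [DecidableEq Λ] [Fintype Λ₁]
    [DecidableEq Λ₁] [Fintype Λ₂] [DecidableEq Λ₂] {A : Λ → Type} [∀ l, Fintype (A l)]
    (p : ∀ l, A l → ℝ) (hp : ∀ l, ∑ a, p l a = 1) (e₁ : Λ₁ → Λ) (e₂ : Λ₂ → Λ)
    (he : Function.Injective (Sum.elim e₁ e₂))
    (G : (∀ l, A (e₁ l)) × (∀ l, A (e₂ l)) → ℝ) :
    ∑ a : ∀ l, A l, (∏ l, p l (a l)) * G (fun l => a (e₁ l), fun l => a (e₂ l)) =
      ∑ b : (∀ l, A (e₁ l)) × (∀ l, A (e₂ l)),
        ((∏ l, p (e₁ l) (b.1 l)) * ∏ l, p (e₂ l) (b.2 l)) * G b := by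
  classical
  refine bp_delta (fun a : ∀ l, A l => ∏ l, p l (a l)) _
    (fun a => (fun l => a (e₁ l), fun l => a (e₂ l))) (fun B => ?_) G
  let g : ∀ l' : Λ₁ ⊕ Λ₂, A (Sum.elim e₁ e₂ l') → ℝ := fun l' =>
    Sum.rec (motive := fun l' => A (Sum.elim e₁ e₂ l') → ℝ)
      (fun l (y : A (e₁ l)) => if y = B.1 l then 1 else 0)
      (fun l (y : A (e₂ l)) => if y = B.2 l then 1 else 0) l'
  have h1 : ∀ a : ∀ l, A l,
      (if ((fun l => a (e₁ l), fun l => a (e₂ l)) : (∀ l, A (e₁ l)) × (∀ l, A (e₂ l))) = B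
        then (1 : ℝ) else 0) = ∏ l', g l' (a (Sum.elim e₁ e₂ l')) := by
    intro a
    rw [Fintype.prod_sum_type]
    change _ = (∏ l, if a (e₁ l) = B.1 l then (1 : ℝ) else 0) *
      ∏ l, if a (e₂ l) = B.2 l then (1 : ℝ) else 0
    rw [← bp_ind_pi (fun l => a (e₁ l)) B.1, ← bp_ind_pi (fun l => a (e₂ l)) B.2]
    simp only [Prod.ext_iff]
    by_cases h₁ : (fun l => a (e₁ l)) = B.1 <;> by_cases h₂ : (fun l => a (e₂ l)) = B.2 <;>
      simp [h₁, h₂]
  simp only [h1]
  rw [bp_marg p hp _ he g, Fintype.prod_sum_type]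
  change (∏ l, ∑ x : A (e₁ l), p (e₁ l) x * if x = B.1 l then (1 : ℝ) else 0) *
    (∏ l, ∑ x : A (e₂ l), p (e₂ l) x * if x = B.2 l then (1 : ℝ) else 0) = _
  simp

theorem bp_split_one {Λ Λ₁ : Type} [Fintype Λ] [DecidableEq Λ] [Fintype Λ₁]
    [DecidableEq Λ₁] {A : Λ → Type} [∀ l, Fintype (A l)]
    (p : ∀ l, A l → ℝ) (hp : ∀ l, ∑ a, p l a = 1) (e : Λ₁ → Λ) (he : Function.Injective e)
    (t : Λ) (ht : ∀ l, e l ≠ t) (G : (∀ l, A (e l)) × A t → ℝ) :
    ∑ a : ∀ l, A l, (∏ l, p l (a l)) * G (fun l => a (e l), a t) =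
      ∑ b : (∀ l, A (e l)) × A t, ((∏ l, p (e l) (b.1 l)) * p t b.2) * G b := by
  have hinj : Function.Injective (Sum.elim e (fun _ : Unit => t)) := by
    rintro (a | a) (b | b) h
    · exact congrArg Sum.inl (he h)
    · exact absurd h (ht a)
    · exact absurd h.symm (ht b)
    · rfl
  have := bp_split p hp e (fun _ : Unit => t) hinj (fun b => G (b.1, b.2 ()))
  rw [this]
  refine Fintype.sum_equiv ((Equiv.refl _).prodCongr (Equiv.funUnique Unit (A t))) _ _ fun b => ?_
  rw [Fintype.prod_unique (fun l : Unit => p t (b.2 l))]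
  rfl

/-- Coordinatewise measure-preserving maps preserve product weights. -/
theorem pi_push {Λ : Type} [Fintype Λ] [DecidableEq Λ] {A B : Λ → Type} [∀ l, Fintype (A l)]
    [∀ l, Fintype (B l)] (p : ∀ l, A l → ℝ) (q : ∀ l, B l → ℝ) (f : ∀ l, A l → B l)
    (h : ∀ l (g : B l → ℝ), ∑ a, p l a * g (f l a) = ∑ b, q l b * g b)
    (G : (∀ l, B l) → ℝ) :
    ∑ a : ∀ l, A l, (∏ l, p l (a l)) * G (fun l => f l (a l)) =
      ∑ b : ∀ l, B l, (∏ l, q l (b l)) * G b := by
  classical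
  refine bp_delta (fun a : ∀ l, A l => ∏ l, p l (a l)) _ (fun a l => f l (a l)) (fun b => ?_) G
  simp only [bp_ind_pi, ← Finset.prod_mul_distrib]
  rw [bp_sum_pi (fun l x => p l x * if f l x = b l then (1 : ℝ) else 0)]
  refine Finset.prod_congr rfl fun l _ => ?_
  rw [h l (fun y => if y = b l then (1 : ℝ) else 0)]
  simp

/-- Marginal of product probability weights on a subfamily of the coordinates. -/
theorem pi_marginal {Λ Λ' : Type} [Fintype Λ] [DecidableEq Λ] [Fintype Λ'] [DecidableEq Λ']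
    {A : Λ → Type} [∀ l, Fintype (A l)] (p : ∀ l, A l → ℝ) (hp : ∀ l, ∑ a, p l a = 1)
    (e : Λ' → Λ) (he : Function.Injective e) (G : (∀ l', A (e l')) → ℝ) :
    ∑ a : ∀ l, A l, (∏ l, p l (a l)) * G (fun l' => a (e l')) =
      ∑ b : ∀ l', A (e l'), (∏ l', p (e l') (b l')) * G b := by
  classical
  refine bp_delta (fun a : ∀ l, A l => ∏ l, p l (a l)) _ (fun a l' => a (e l')) (fun b => ?_) G
  simp only [bp_ind_pi]
  rw [bp_marg p hp e he (fun l' y => if y = b l' then (1 : ℝ) else 0)]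
  simp

/-- Uniform version of `pi_marginal`. -/
theorem avg_comp_injective {Λ Λ' I : Type} [Fintype Λ] [DecidableEq Λ] [Fintype Λ']
    [DecidableEq Λ'] [Fintype I] [Nonempty I] (e : Λ' → Λ) (he : Function.Injective e)
    (G : (Λ' → I) → ℝ) : avg (fun u : Λ → I => G (fun l' => u (e l'))) = avg G := by
  have hI : (Fintype.card I : ℝ) ≠ 0 := by exact_mod_cast Fintype.card_ne_zero
  have := pi_marginal (A := fun _ : Λ => I) (fun _ _ => (Fintype.card I : ℝ)⁻¹)
    (fun _ => by simp [hI]) e he G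
  simp only [Finset.prod_const, Finset.card_univ, ← Finset.mul_sum] at this
  simpa [avg] using this

namespace Sys

variable {X Y Z W : Type} {m : ℕ → ℝ}

/-! ### `Prob` and `AllAt` for the constructions -/

theorem prob_prod {d : ℕ} {S : Sys X} {S' : Sys Y} (h : Prob d S) (h' : Prob d S') :
    Prob d (prod d S S') := by
  induction d generalizing S S' with
  | zero => trivial
  | succ d ih =>
    refine ⟨fun ω => mul_pos (h.1 ω.1) (h'.1 ω.2), ?_, fun ω => ih (h.2.2 ω.1) (h'.2.2 ω.2)⟩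
    change ∑ ω : S.ι × S'.ι, S.p ω.1 * S'.p ω.2 = 1
    rw [Fintype.sum_prod_type, ← Finset.sum_mul_sum, h.2.1, h'.2.1, one_mul]

theorem prob_piProd {Λ : Type} [Fintype Λ] [DecidableEq Λ] {d : ℕ} {S : Λ → Sys X}
    (h : ∀ l, Prob d (S l)) : Prob d (piProd d S) := by
  induction d generalizing S with
  | zero => trivial
  | succ d ih =>
    refine ⟨fun ω => Finset.prod_pos fun l _ => (h l).1 (ω l), ?_,
      fun ω => ih fun l => (h l).2.2 (ω l)⟩
    change ∑ ω : (l : Λ) → (S l).ι, ∏ l, (S l).p (ω l) = 1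
    rw [bp_sum_pi (fun l => (S l).p)]
    exact Finset.prod_eq_one fun l _ => (h l).2.1

theorem prob_map (φ : X → Y) {d : ℕ} {S : Sys X} (h : Prob d S) : Prob d (map φ d S) := by
  induction d generalizing S with
  | zero => trivial
  | succ d ih => exact ⟨h.1, h.2.1, fun ω => ih (h.2.2 ω)⟩

theorem prob_triv (d : ℕ) (x : X) : Prob d (triv d x) := by
  induction d with
  | zero => trivial
  | succ d ih =>
    refine ⟨fun _ => one_pos, ?_, fun _ => ih⟩
    change ∑ _ω : Unit, (1 : ℝ) = 1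
    simp

theorem allAt_triv (d : ℕ) (x : X) {P : X → Prop} (h : P x) :
    AllAt d (triv d x) (fun L => P L.val) := by
  induction d with
  | zero => exact h
  | succ d ih => exact fun _ => ih

theorem allAt_prod {d : ℕ} {S : Sys X} {S' : Sys Y} {P : X → Prop} {P' : Y → Prop}
    (h : AllAt d S (fun L => P L.val)) (h' : AllAt d S' (fun L => P' L.val)) :
    AllAt d (prod d S S') (fun L => P L.val.1 ∧ P' L.val.2) := by
  induction d generalizing S S' with
  | zero => exact ⟨h, h'⟩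
  | succ d ih => exact fun ω => ih (h ω.1) (h' ω.2)

theorem allAt_piProd {Λ : Type} [Fintype Λ] [DecidableEq Λ] {d : ℕ} {S : Λ → Sys X}
    {P : Λ → X → Prop} (h : ∀ l, AllAt d (S l) (fun L => P l L.val)) :
    AllAt d (piProd d S) (fun L => ∀ l, P l (L.val l)) := by
  induction d generalizing S with
  | zero => exact h
  | succ d ih => exact fun ω => ih fun l => h l (ω l)

theorem allAt_map (φ : X → Y) {d : ℕ} {S : Sys X} {P : Y → Prop} :
    AllAt d (map φ d S) (fun L => P L.val) ↔ AllAt d S (fun L => P (φ L.val)) := by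
  induction d generalizing S with
  | zero => exact Iff.rfl
  | succ d ih => exact forall_congr' fun ω => ih

/-! ### `T` of products -/

theorem T_prod (hm : ∀ d, 0 < m d) {d : ℕ} {S : Sys X} {S' : Sys Y} (h : Prob d S)
    (h' : Prob d S') {V : X → ℝ} {V' : Y → ℝ} (hV : AllAt d S (fun L => 0 < V L.val))
    (hV' : AllAt d S' (fun L => 0 < V' L.val)) :
    T m d (prod d S S') (fun L => V L.val.1 * V' L.val.2) =
      T m d S (fun L => V L.val) * T m d S' (fun L => V' L.val) := by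
  induction d generalizing S S' with
  | zero => rfl
  | succ d ih =>
    change (∑ ω : S.ι × S'.ι, S.p ω.1 * S'.p ω.2 *
        T m d (prod d (S.ch ω.1) (S'.ch ω.2)) (fun L => V L.val.1 * V' L.val.2) ^ m d) ^ (m d)⁻¹
      = (∑ ω, S.p ω * T m d (S.ch ω) (fun L => V L.val) ^ m d) ^ (m d)⁻¹ *
        (∑ ω, S'.p ω * T m d (S'.ch ω) (fun L => V' L.val) ^ m d) ^ (m d)⁻¹
    have h1 : ∀ ω, 0 < T m d (S.ch ω) (fun L => V L.val) := fun ω => T_pos (h.2.2 ω) (hV ω)
    have h2 : ∀ ω, 0 < T m d (S'.ch ω) (fun L => V' L.val) := fun ω => T_pos (h'.2.2 ω) (hV' ω)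
    rw [← Real.mul_rpow
      (Finset.sum_nonneg fun ω _ => mul_nonneg (h.1 ω).le (Real.rpow_nonneg (h1 ω).le _))
      (Finset.sum_nonneg fun ω _ => mul_nonneg (h'.1 ω).le (Real.rpow_nonneg (h2 ω).le _)),
      Finset.sum_mul_sum, Fintype.sum_prod_type]
    congr 1
    refine Finset.sum_congr rfl fun ω _ => Finset.sum_congr rfl fun ω' _ => ?_
    rw [ih (h.2.2 ω) (h'.2.2 ω') (hV ω) (hV' ω'), Real.mul_rpow (h1 ω).le (h2 ω').le]
    ring

/-- Factorisation over disjoint groups of labels. -/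
theorem T_piProd_groups (hm : ∀ d, 0 < m d) {Λ G : Type} [Fintype Λ] [DecidableEq Λ] [Fintype G]
    [DecidableEq G] {Λ' : G → Type} [∀ g, Fintype (Λ' g)] [∀ g, DecidableEq (Λ' g)]
    (e : ∀ g, Λ' g → Λ) (he : Function.Injective (fun x : Σ g, Λ' g => e x.1 x.2))
    {d : ℕ} {S : Λ → Sys X} (h : ∀ l, Prob d (S l)) (V : ∀ g, (Λ' g → X) → ℝ)
    (hV : ∀ g x, 0 < V g x) :
    T m d (piProd d S) (fun L => ∏ g, V g (fun l => L.val (e g l))) =
      ∏ g, T m d (piProd d (fun l => S (e g l))) (fun L => V g L.val) := by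
  induction d generalizing S with
  | zero => rfl
  | succ d ih =>
    change (∑ ω : (l : Λ) → (S l).ι, (∏ l, (S l).p (ω l)) *
        T m d (piProd d fun l => (S l).ch (ω l))
          (fun L => ∏ g, V g (fun l => L.val (e g l))) ^ m d) ^ (m d)⁻¹
      = ∏ g, (∑ ω : (l : Λ' g) → (S (e g l)).ι, (∏ l, (S (e g l)).p (ω l)) *
        T m d (piProd d fun l => (S (e g l)).ch (ω l)) (fun L => V g L.val) ^ m d) ^ (m d)⁻¹
    have h1 : ∀ g (ω : (l : Λ' g) → (S (e g l)).ι),
        0 < T m d (piProd d fun l => (S (e g l)).ch (ω l)) (fun L => V g L.val) := fun g ω =>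
      T_pos (prob_piProd fun l => (h _).2.2 _) (allAt_of_forall _ _ fun Z => hV g _)
    rw [Real.finsetProd_rpow _ _ fun g _ => Finset.sum_nonneg fun ω _ => mul_nonneg
      (Finset.prod_nonneg fun l _ => ((h _).1 _).le) (Real.rpow_nonneg (h1 g ω).le _),
      ← bp_groups (fun l => (S l).p) (fun l => (h l).2.1) e he (fun g ω =>
        T m d (piProd d fun l => (S (e g l)).ch (ω l)) (fun L => V g L.val) ^ m d)]
    congr 1
    refine Finset.sum_congr rfl fun ω _ => ?_
    rw [ih fun l => (h l).2.2 (ω l), Real.finsetProd_rpow _ _ fun g _ => (h1 g _).le]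

/-- Tilting a product by a function of the first factor. -/
theorem tilt_prod_fst (hm : ∀ d, 0 < m d) {d : ℕ} {S : Sys X} {S' : Sys Y} (h : Prob d S)
    (h' : Prob d S') {V : X → ℝ} (hV : AllAt d S (fun L => 0 < V L.val)) :
    tilt m d (prod d S S') (fun L => V L.val.1) = prod d (tilt m d S (fun L => V L.val)) S' := by
  have key : ∀ (d : ℕ) (S : Sys X) (S' : Sys Y), Prob d S → Prob d S' →
      AllAt d S (fun L => 0 < V L.val) →
      T m d (prod d S S') (fun L => V L.val.1) = T m d S (fun L => V L.val) := by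
    intro d S S' h h' hV
    have := T_prod hm h h' (V := V) (V' := fun _ => 1) hV (allAt_of_forall _ _ fun _ => one_pos)
    simp only [mul_one] at this
    rw [this, T_const hm h' one_pos, mul_one]
  induction d generalizing S S' with
  | zero => rfl
  | succ d ih =>
    change node (S.val, S'.val) (S.ι × S'.ι)
        (fun ω => S.p ω.1 * S'.p ω.2 *
          (T m d (prod d (S.ch ω.1) (S'.ch ω.2)) (fun L => V L.val.1) /
            T m (d + 1) (prod (d + 1) S S') (fun L => V L.val.1)) ^ m d)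
        (fun ω => tilt m d (prod d (S.ch ω.1) (S'.ch ω.2)) (fun L => V L.val.1))
      = node (S.val, S'.val) (S.ι × S'.ι)
        (fun ω => S.p ω.1 * (T m d (S.ch ω.1) (fun L => V L.val) /
            T m (d + 1) S (fun L => V L.val)) ^ m d * S'.p ω.2)
        (fun ω => prod d (tilt m d (S.ch ω.1) (fun L => V L.val)) (S'.ch ω.2))
    congr 1
    · funext ω
      rw [key _ _ _ h h' hV, key _ _ _ (h.2.2 _) (h'.2.2 _) (hV _)]
      ring
    · funext ω
      exact ih (h.2.2 _) (h'.2.2 _) (hV _)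

/-- A system whose only randomness is in the last (linear) step is summed out exactly. -/
theorem T_prod_lift_last (hm0 : m 0 = 1) {I : Type} [Fintype I] (x0 : X) (q : I → ℝ)
    (x : I → X) (d : ℕ) (S' : Sys Y) (V : X → Y → ℝ) :
    T m (1 + d) (prod (1 + d) (lift d (node x0 I q (fun i => leaf (x i)))) S')
        (fun L => V L.val.1 L.val.2) =
      T m (1 + d) S' (fun L => ∑ i, q i * V (x i) L.val) := by
  induction d generalizing S' with
  | zero =>
    change (∑ ω : I × S'.ι, q ω.1 * S'.p ω.2 * V (x ω.1) (S'.ch ω.2).val ^ m 0) ^ (m 0)⁻¹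
      = (∑ ω, S'.p ω * (∑ i, q i * V (x i) (S'.ch ω).val) ^ m 0) ^ (m 0)⁻¹
    simp only [hm0, Real.rpow_one, inv_one, Finset.mul_sum]
    rw [Fintype.sum_prod_type, Finset.sum_comm]
    exact Finset.sum_congr rfl fun ω _ => Finset.sum_congr rfl fun i _ => by ring
  | succ d ih =>
    change (∑ ω : Unit × S'.ι, 1 * S'.p ω.2 *
        T m (1 + d) (prod (1 + d) (lift d (node x0 I q (fun i => leaf (x i)))) (S'.ch ω.2))
          (fun L => V L.val.1 L.val.2) ^ m (1 + d)) ^ (m (1 + d))⁻¹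
      = (∑ ω, S'.p ω * T m (1 + d) (S'.ch ω) (fun L => ∑ i, q i * V (x i) L.val) ^ m (1 + d)) ^
        (m (1 + d))⁻¹
    simp only [ih, Fintype.sum_prod_type, one_mul, Finset.univ_unique, Finset.sum_singleton]

/-! ### `Proj` -/

theorem Proj.refl (d : ℕ) (S : Sys X) : Proj id d S S := by
  induction d generalizing S with
  | zero => rfl
  | succ d ih => exact ⟨id, fun _ => rfl, fun i => ih _⟩

theorem Proj.trans {φ : X → Y} {ψ : Y → Z} {d : ℕ} {S : Sys X} {S' : Sys Y} {S'' : Sys Z}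
    (h : Proj φ d S S') (h' : Proj ψ d S' S'') : Proj (fun x => ψ (φ x)) d S S'' := by
  induction d generalizing S S' S'' with
  | zero => exact (congrArg ψ h).trans h'
  | succ d ih =>
    obtain ⟨f, hf, hc⟩ := h
    obtain ⟨f', hf', hc'⟩ := h'
    exact ⟨fun i => f' (f i), fun g => (hf fun j => g (f' j)).trans (hf' g),
      fun i => ih (hc i) (hc' (f i))⟩

theorem Proj.trans_id {d : ℕ} {S S' S'' : Sys X} (h : Proj id d S S') (h' : Proj id d S' S'') :
    Proj id d S S'' := h.trans h'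

/-- The map only matters on the leaf values that occur. -/
theorem Proj.congr_fun {φ ψ : X → Y} {d : ℕ} {S : Sys X} {S' : Sys Y} (h : Proj φ d S S')
    (hφ : AllAt d S (fun L => φ L.val = ψ L.val)) : Proj ψ d S S' := by
  induction d generalizing S S' with
  | zero => exact (show ψ S.val = φ S.val from hφ.symm).trans h
  | succ d ih =>
    obtain ⟨f, hf, hc⟩ := h
    exact ⟨f, hf, fun i => ih (hc i) (hφ i)⟩

theorem Proj.T_eq {φ : X → Y} {d : ℕ} {S : Sys X} {S' : Sys Y} (h : Proj φ d S S') (V : Y → ℝ) :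
    T m d S (fun L => V (φ L.val)) = T m d S' (fun L => V L.val) := by
  induction d generalizing S S' with
  | zero => exact congrArg V h
  | succ d ih =>
    obtain ⟨f, hf, hc⟩ := h
    simp only [T]
    rw [← hf fun j => T m d (S'.ch j) (fun L => V L.val) ^ m d]
    simp only [ih (hc _)]

theorem Proj.Exp_val_eq {φ : X → Y} {d : ℕ} {S : Sys X} {S' : Sys Y} (h : Proj φ d S S')
    (V : Y → ℝ) : Exp d S (fun L => V (φ L.val)) = Exp d S' (fun L => V L.val) := by
  induction d generalizing S S' with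
  | zero => exact congrArg V h
  | succ d ih =>
    obtain ⟨f, hf, hc⟩ := h
    simp only [Exp]
    rw [← hf fun j => Exp d (S'.ch j) (fun L => V L.val)]
    simp only [ih (hc _)]

theorem Proj.Exp_eq {b j : ℕ} {S S' : Sys X} (h : Proj id (b + j) S S') (hS : Prob (b + j) S)
    (hS' : Prob (b + j) S') {F : Sys X → ℝ} (hF : Inv b F) : Exp j S F = Exp j S' F := by
  induction j generalizing S S' with
  | zero => exact hF S S' hS hS' h
  | succ j ih =>
    obtain ⟨f, hf, hc⟩ := h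
    simp only [Exp]
    rw [← hf fun i => Exp j (S'.ch i) F]
    exact Finset.sum_congr rfl fun i _ => by rw [ih (hc i) (hS.2.2 i) (hS'.2.2 _)]

theorem Inv.exp {b : ℕ} (j : ℕ) {F : Sys X → ℝ} (hF : Inv b F) :
    Inv (b + j) (fun S => Exp j S F) := by
  intro S S' hS hS' h
  exact h.Exp_eq hS hS' hF

theorem inv_val (V : X → ℝ) : Inv 0 (fun S : Sys X => V S.val) := by
  intro S S' _ _ h
  exact congrArg V h

theorem Inv2.step {d : ℕ} {F : Sys X → Sys X → ℝ} (hF : Inv2 d F) :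
    Inv (d + 1) (fun P => ∑ ω, P.p ω * F P (P.ch ω)) := by
  intro P P' hP hP' h
  have h' := h
  obtain ⟨f, hf, hc⟩ := h'
  change ∑ ω, P.p ω * F P (P.ch ω) = ∑ ω, P'.p ω * F P' (P'.ch ω)
  rw [← hf fun j => F P' (P'.ch j)]
  exact Finset.sum_congr rfl fun i _ => by
    rw [hF P P' _ _ hP hP' (hP.2.2 i) (hP'.2.2 (f i)) h (hc i)]

theorem Proj.E1_eq {d e : ℕ} {S S' : Sys X} (h : Proj id (d + 1 + e) S S')
    (hS : Prob (d + 1 + e) S) (hS' : Prob (d + 1 + e) S') {F : Sys X → Sys X → ℝ}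
    (hF : Inv2 d F) : E1 e S F = E1 e S' F := by
  exact h.Exp_eq hS hS' hF.step

theorem proj_map (φ : X → Y) (d : ℕ) (S : Sys X) : Proj φ d S (map φ d S) := by
  induction d generalizing S with
  | zero => rfl
  | succ d ih => exact ⟨id, fun _ => rfl, fun i => ih _⟩

theorem Proj.map_left {φ : X → Y} {ψ : Y → Z} {d : ℕ} {S : Sys X} {S' : Sys Z}
    (h : Proj (fun x => ψ (φ x)) d S S') : Proj ψ d (map φ d S) S' := by
  induction d generalizing S S' with
  | zero => exact h
  | succ d ih =>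
    obtain ⟨f, hf, hc⟩ := h
    exact ⟨f, hf, fun i => ih (hc i)⟩

theorem Proj.map_right {φ : X → Y} (ψ : Y → Z) {d : ℕ} {S : Sys X} {S' : Sys Y}
    (h : Proj φ d S S') : Proj (fun x => ψ (φ x)) d S (map ψ d S') := h.trans (proj_map ψ d S')

theorem T_map (φ : X → Y) (d : ℕ) (S : Sys X) (V : Y → ℝ) :
    T m d (map φ d S) (fun L => V L.val) = T m d S (fun L => V (φ L.val)) :=
  ((proj_map φ d S).T_eq V).symm

theorem Proj.tilt {φ : X → Y} {d : ℕ} {S : Sys X} {S' : Sys Y} (h : Proj φ d S S') (V : Y → ℝ) :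
    Proj φ d (tilt m d S (fun L => V (φ L.val))) (tilt m d S' (fun L => V L.val)) := by
  induction d generalizing S S' with
  | zero => exact h
  | succ d ih =>
    have hT := Proj.T_eq (m := m) h V
    obtain ⟨f, hf, hc⟩ := h
    refine ⟨f, fun g => ?_, fun i => ih (hc i)⟩
    change ∑ i : S.ι, S.p i * (T m d (S.ch i) (fun L => V (φ L.val)) /
        T m (d + 1) S (fun L => V (φ L.val))) ^ m d * g (f i)
      = ∑ j : S'.ι, S'.p j * (T m d (S'.ch j) (fun L => V L.val) /
        T m (d + 1) S' (fun L => V L.val)) ^ m d * g j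
    simp only [mul_assoc]
    rw [← hf fun j => (T m d (S'.ch j) (fun L => V L.val) /
        T m (d + 1) S' (fun L => V L.val)) ^ m d * g j, hT]
    exact Finset.sum_congr rfl fun i _ => by rw [(hc i).T_eq V]

theorem Proj.prod {φ : X → Z} {ψ : Y → W} {d : ℕ} {S : Sys X} {S' : Sys Z} {A : Sys Y}
    {A' : Sys W} (h : Proj φ d S S') (h' : Proj ψ d A A') :
    Proj (Prod.map φ ψ) d (prod d S A) (prod d S' A') := by
  induction d generalizing S S' A A' with
  | zero => exact Prod.ext h h'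
  | succ d ih =>
    obtain ⟨f, hf, hc⟩ := h
    obtain ⟨f', hf', hc'⟩ := h'
    refine ⟨Prod.map f f', fun g => ?_, fun i => ih (hc i.1) (hc' i.2)⟩
    change ∑ i : S.ι × A.ι, S.p i.1 * A.p i.2 * g (f i.1, f' i.2)
      = ∑ j : S'.ι × A'.ι, S'.p j.1 * A'.p j.2 * g j
    simp only [Fintype.sum_prod_type, mul_assoc, ← Finset.mul_sum]
    rw [← hf fun j => ∑ j', A'.p j' * g (j, j')]
    exact Finset.sum_congr rfl fun i _ => by rw [hf' fun j' => g (f i, j')]

theorem proj_piProd {Λ : Type} [Fintype Λ] [DecidableEq Λ] {φ : Λ → X → Y} {d : ℕ}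
    {S : Λ → Sys X} {S' : Λ → Sys Y} (h : ∀ l, Proj (φ l) d (S l) (S' l)) :
    Proj (fun x l => φ l (x l)) d (piProd d S) (piProd d S') := by
  induction d generalizing S S' with
  | zero => exact funext h
  | succ d ih =>
    choose f hf hc using h
    exact ⟨fun ω l => f l (ω l), fun g => pi_push (fun l => (S l).p) (fun l => (S' l).p) f hf g,
      fun ω => ih fun l => hc l (ω l)⟩

theorem Proj.lift {φ : X → Y} {b : ℕ} (j : ℕ) {S : Sys X} {S' : Sys Y} (h : Proj φ b S S') :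
    Proj φ (b + j) (lift j S) (lift j S') := by
  induction j with
  | zero => exact h
  | succ j ih => exact ⟨id, fun _ => rfl, fun _ => ih⟩

theorem proj_prod_fst {d : ℕ} (S : Sys X) {S' : Sys Y} (h' : Prob d S') :
    Proj Prod.fst d (prod d S S') S := by
  induction d generalizing S S' with
  | zero => rfl
  | succ d ih =>
    refine ⟨Prod.fst, fun g => ?_, fun i => ih _ (h'.2.2 i.2)⟩
    change ∑ i : S.ι × S'.ι, S.p i.1 * S'.p i.2 * g i.1 = ∑ j, S.p j * g j
    rw [Fintype.sum_prod_type]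
    refine Finset.sum_congr rfl fun i _ => ?_
    simp only
    rw [← Finset.sum_mul, ← Finset.mul_sum, h'.2.1, mul_one]

theorem proj_prod_snd {d : ℕ} {S : Sys X} (S' : Sys Y) (h : Prob d S) :
    Proj Prod.snd d (prod d S S') S' := by
  induction d generalizing S S' with
  | zero => rfl
  | succ d ih =>
    refine ⟨Prod.snd, fun g => ?_, fun i => ih _ (h.2.2 i.1)⟩
    change ∑ i : S.ι × S'.ι, S.p i.1 * S'.p i.2 * g i.2 = ∑ j, S'.p j * g j
    rw [Fintype.sum_prod_type_right]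
    refine Finset.sum_congr rfl fun i _ => ?_
    simp only
    rw [← Finset.sum_mul, ← Finset.sum_mul, h.2.1, one_mul]

theorem proj_prod_swap (d : ℕ) (S : Sys X) (S' : Sys Y) :
    Proj Prod.swap d (prod d S S') (prod d S' S) := by
  induction d generalizing S S' with
  | zero => rfl
  | succ d ih =>
    refine ⟨Prod.swap, fun g => ?_, fun i => ih _ _⟩
    change ∑ i : S.ι × S'.ι, S.p i.1 * S'.p i.2 * g i.swap
      = ∑ j : S'.ι × S.ι, S'.p j.1 * S.p j.2 * g j
    refine Fintype.sum_equiv (Equiv.prodComm _ _) _ _ fun i => ?_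
    simp [mul_comm]

theorem proj_prod_assoc (d : ℕ) (S : Sys X) (S' : Sys Y) (S'' : Sys Z) :
    Proj (fun x => (x.1.1, (x.1.2, x.2))) d (prod d (prod d S S') S'')
      (prod d S (prod d S' S'')) := by
  induction d generalizing S S' S'' with
  | zero => rfl
  | succ d ih =>
    refine ⟨fun i => (i.1.1, (i.1.2, i.2)), fun g => ?_, fun i => ih _ _ _⟩
    change ∑ i : (S.ι × S'.ι) × S''.ι, S.p i.1.1 * S'.p i.1.2 * S''.p i.2 * g (i.1.1, (i.1.2, i.2))
      = ∑ j : S.ι × (S'.ι × S''.ι), S.p j.1 * (S'.p j.2.1 * S''.p j.2.2) * g j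
    refine Fintype.sum_equiv (Equiv.prodAssoc _ _ _) _ _ fun i => ?_
    rw [mul_assoc (S.p i.1.1)]
    rfl

theorem proj_prod_assoc' (d : ℕ) (S : Sys X) (S' : Sys Y) (S'' : Sys Z) :
    Proj (fun x => ((x.1, x.2.1), x.2.2)) d (prod d S (prod d S' S''))
      (prod d (prod d S S') S'') := by
  induction d generalizing S S' S'' with
  | zero => rfl
  | succ d ih =>
    refine ⟨fun i => ((i.1, i.2.1), i.2.2), fun g => ?_, fun i => ih _ _ _⟩
    change ∑ j : S.ι × (S'.ι × S''.ι), S.p j.1 * (S'.p j.2.1 * S''.p j.2.2) *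
        g ((j.1, j.2.1), j.2.2)
      = ∑ i : (S.ι × S'.ι) × S''.ι, S.p i.1.1 * S'.p i.1.2 * S''.p i.2 * g i
    refine Fintype.sum_equiv (Equiv.prodAssoc _ _ _).symm _ _ fun i => ?_
    rw [← mul_assoc (S.p i.1)]
    rfl

/-- Forget some of the factors. -/
theorem proj_piProd_emb {Λ Λ' : Type} [Fintype Λ] [DecidableEq Λ] [Fintype Λ'] [DecidableEq Λ']
    (e : Λ' → Λ) (he : Function.Injective e) {d : ℕ} {S : Λ → Sys X} (h : ∀ l, Prob d (S l)) :
    Proj (fun x l' => x (e l')) d (piProd d S) (piProd d (fun l' => S (e l'))) := by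
  induction d generalizing S with
  | zero => rfl
  | succ d ih =>
    exact ⟨fun ω l' => ω (e l'), fun g => pi_marginal (fun l => (S l).p) (fun l => (h l).2.1) e he g,
      fun ω => ih (S := fun l => (S l).ch (ω l)) fun l => (h l).2.2 (ω l)⟩

/-- Split the factors into two disjoint groups (others forgotten). -/
theorem proj_piProd_split {Λ Λ₁ Λ₂ : Type} [Fintype Λ] [DecidableEq Λ] [Fintype Λ₁]
    [DecidableEq Λ₁] [Fintype Λ₂] [DecidableEq Λ₂] (e₁ : Λ₁ → Λ) (e₂ : Λ₂ → Λ)
    (he : Function.Injective (Sum.elim e₁ e₂)) {d : ℕ} {S : Λ → Sys X} (h : ∀ l, Prob d (S l)) :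
    Proj (fun x => (fun l => x (e₁ l), fun l => x (e₂ l))) d (piProd d S)
      (prod d (piProd d (fun l => S (e₁ l))) (piProd d (fun l => S (e₂ l)))) := by
  induction d generalizing S with
  | zero => rfl
  | succ d ih =>
    exact ⟨fun ω => (fun l => ω (e₁ l), fun l => ω (e₂ l)),
      fun g => bp_split (fun l => (S l).p) (fun l => (h l).2.1) e₁ e₂ he g,
      fun ω => ih (S := fun l => (S l).ch (ω l)) fun l => (h l).2.2 (ω l)⟩

/-- Split off one factor (others outside the range of `e` forgotten). -/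
theorem proj_piProd_split_one {Λ Λ₁ : Type} [Fintype Λ] [DecidableEq Λ] [Fintype Λ₁]
    [DecidableEq Λ₁] (e : Λ₁ → Λ) (he : Function.Injective e) (t : Λ) (ht : ∀ l, e l ≠ t)
    {d : ℕ} {S : Λ → Sys X} (h : ∀ l, Prob d (S l)) :
    Proj (fun x => (fun l => x (e l), x t)) d (piProd d S)
      (prod d (piProd d (fun l => S (e l))) (S t)) := by
  induction d generalizing S with
  | zero => rfl
  | succ d ih =>
    exact ⟨fun ω => (fun l => ω (e l), ω t),
      fun g => bp_split_one (fun l => (S l).p) (fun l => (h l).2.1) e he t ht g,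
      fun ω => ih (S := fun l => (S l).ch (ω l)) fun l => (h l).2.2 (ω l)⟩

end Sys

end Crest.Agent.R141
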