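import Crest.Agent.R141.Defs

/-! Row 141, module A1: `Prob`, `AllAt`, `Exp`, `T`, `tilt`, `avg`. -/

set_option autoImplicit false

namespace Crest.Agent.R141

open Finset

namespace Sys

variable {X Y : Type}

/-! ### projections of the constructors (all `rfl`) -/

@[simp] theorem leaf_val (x : X) : (leaf x).val = x := rfl
@[simp] theorem node_val (x : X) (ι : Type) [Fintype ι] (p : ι → ℝ) (ch : ι → Sys X) :
    (node x ι p ch).val = x := rfl
@[simp] theorem node_p (x : X) (ι : Type) [Fintype ι] (p : ι → ℝ) (ch : ι → Sys X) (ω : ι) :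
    (node x ι p ch).p ω = p ω := rfl
@[simp] theorem node_ch (x : X) (ι : Type) [Fintype ι] (p : ι → ℝ) (ch : ι → Sys X) (ω : ι) :
    (node x ι p ch).ch ω = ch ω := rfl
/-- Sums over the children of an explicit node. -/
theorem sum_node (x : X) (ι : Type) [Fintype ι] (p : ι → ℝ) (ch : ι → Sys X) (g : ι → ℝ) :
    (∑ ω : (node x ι p ch).ι, g ω) = ∑ ω : ι, g ω := rfl

/-! ### `Prob`, `AllAt` -/

theorem Prob.mono {b j : ℕ} {S : Sys X} (h : Prob (b + j) S) : Prob j S := by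
  induction j generalizing S with
  | zero => trivial
  | succ j ih => exact ⟨h.1, h.2.1, fun ω => ih (h.2.2 ω)⟩

theorem Prob.allAt {b j : ℕ} {S : Sys X} (h : Prob (b + j) S) : AllAt j S (Prob b) := by
  induction j generalizing S with
  | zero => exact h
  | succ j ih => exact fun ω => ih (h.2.2 ω)

theorem Prob.nonempty {d : ℕ} {S : Sys X} (h : Prob (d + 1) S) : Nonempty S.ι := by
  by_contra hne
  rw [not_nonempty_iff] at hne
  have := h.2.1
  simp at this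

theorem AllAt.imp {j : ℕ} {S : Sys X} {P Q : Sys X → Prop} (h : AllAt j S P)
    (hPQ : ∀ Z, P Z → Q Z) : AllAt j S Q := by
  induction j generalizing S with
  | zero => exact hPQ _ h
  | succ j ih => exact fun ω => ih (h ω)

theorem AllAt.and {j : ℕ} {S : Sys X} {P Q : Sys X → Prop} (h : AllAt j S P)
    (h' : AllAt j S Q) : AllAt j S (fun Z => P Z ∧ Q Z) := by
  induction j generalizing S with
  | zero => exact ⟨h, h'⟩
  | succ j ih => exact fun ω => ih (h ω) (h' ω)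

theorem allAt_of_forall (j : ℕ) (S : Sys X) {P : Sys X → Prop} (h : ∀ Z, P Z) : AllAt j S P := by
  induction j generalizing S with
  | zero => exact h _
  | succ j ih => exact fun ω => ih _

theorem allAt_add {b j : ℕ} {S : Sys X} {P : Sys X → Prop} :
    AllAt (b + j) S P ↔ AllAt j S (fun Q => AllAt b Q P) := by
  induction j generalizing S with
  | zero => exact Iff.rfl
  | succ j ih => exact forall_congr' fun ω => ih

/-! ### `Exp` -/

theorem Exp_comp (b j : ℕ) (S : Sys X) (F : Sys X → ℝ) :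
    Exp (b + j) S F = Exp j S (fun Q => Exp b Q F) := by
  induction j generalizing S with
  | zero => rfl
  | succ j ih => exact Finset.sum_congr rfl fun ω _ => congrArg (S.p ω * ·) (ih (S.ch ω))

theorem Exp_one (S : Sys X) (F : Sys X → ℝ) : Exp 1 S F = ∑ ω, S.p ω * F (S.ch ω) := rfl

theorem Exp_congr {j : ℕ} {S : Sys X} {F G : Sys X → ℝ} (h : AllAt j S (fun Q => F Q = G Q)) :
    Exp j S F = Exp j S G := by
  induction j generalizing S with
  | zero => exact h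
  | succ j ih => exact Finset.sum_congr rfl fun ω _ => by rw [ih (h ω)]

theorem Exp_add (j : ℕ) (S : Sys X) (F G : Sys X → ℝ) :
    Exp j S (fun Q => F Q + G Q) = Exp j S F + Exp j S G := by
  induction j generalizing S with
  | zero => rfl
  | succ j ih => simp only [Exp, ih, mul_add, Finset.sum_add_distrib]

theorem Exp_sub (j : ℕ) (S : Sys X) (F G : Sys X → ℝ) :
    Exp j S (fun Q => F Q - G Q) = Exp j S F - Exp j S G := by
  induction j generalizing S with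
  | zero => rfl
  | succ j ih => simp only [Exp, ih, mul_sub, Finset.sum_sub_distrib]

theorem Exp_const_mul (j : ℕ) (S : Sys X) (c : ℝ) (F : Sys X → ℝ) :
    Exp j S (fun Q => c * F Q) = c * Exp j S F := by
  induction j generalizing S with
  | zero => rfl
  | succ j ih => simp only [Exp, ih, Finset.mul_sum, mul_left_comm]

theorem Exp_sum {I : Type} (s : Finset I) (j : ℕ) (S : Sys X) (F : I → Sys X → ℝ) :
    Exp j S (fun Q => ∑ i ∈ s, F i Q) = ∑ i ∈ s, Exp j S (F i) := by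
  induction j generalizing S with
  | zero => rfl
  | succ j ih =>
    simp only [Exp, ih, Finset.mul_sum]
    exact Finset.sum_comm

theorem Exp_avg {I : Type} [Fintype I] (j : ℕ) (S : Sys X) (F : I → Sys X → ℝ) :
    Exp j S (fun Q => avg (fun i => F i Q)) = avg (fun i => Exp j S (F i)) := by
  unfold avg
  rw [Exp_const_mul, Exp_sum]

theorem Exp_const {j : ℕ} {S : Sys X} (hS : Prob j S) (c : ℝ) : Exp j S (fun _ => c) = c := by
  induction j generalizing S with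
  | zero => rfl
  | succ j ih =>
    have : ∀ ω, Exp j (S.ch ω) (fun _ => c) = c := fun ω => ih (hS.2.2 ω)
    simp only [Exp, this, ← Finset.sum_mul, hS.2.1, one_mul]

theorem Exp_mono {j : ℕ} {S : Sys X} (hS : Prob j S) {F G : Sys X → ℝ}
    (h : AllAt j S (fun Q => F Q ≤ G Q)) : Exp j S F ≤ Exp j S G := by
  induction j generalizing S with
  | zero => exact h
  | succ j ih =>
    exact Finset.sum_le_sum fun ω _ =>
      mul_le_mul_of_nonneg_left (ih (hS.2.2 ω) (h ω)) (hS.1 ω).le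

theorem Exp_nonneg {j : ℕ} {S : Sys X} (hS : Prob j S) {F : Sys X → ℝ}
    (h : AllAt j S (fun Q => 0 ≤ F Q)) : 0 ≤ Exp j S F := by
  have := Exp_mono hS (F := fun _ => 0) h
  rwa [Exp_const hS] at this

theorem Exp_pos {j : ℕ} {S : Sys X} (hS : Prob j S) {F : Sys X → ℝ}
    (h : AllAt j S (fun Q => 0 < F Q)) : 0 < Exp j S F := by
  induction j generalizing S with
  | zero => exact h
  | succ j ih =>
    have := hS.nonempty
    exact Finset.sum_pos (fun ω _ => mul_pos (hS.1 ω) (ih (hS.2.2 ω) (h ω))) Finset.univ_nonempty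

theorem abs_Exp_le {j : ℕ} {S : Sys X} (hS : Prob j S) (F : Sys X → ℝ) :
    |Exp j S F| ≤ Exp j S (fun Q => |F Q|) := by
  rw [abs_le]
  constructor
  · have h1 := Exp_mono hS (F := fun Q => (-1) * |F Q|) (G := F)
      (allAt_of_forall _ _ fun Q => by linarith [neg_abs_le (F Q)])
    rw [Exp_const_mul] at h1
    linarith
  · exact Exp_mono hS (allAt_of_forall _ _ fun Q => le_abs_self _)

theorem abs_Exp_le_of_le {j : ℕ} {S : Sys X} (hS : Prob j S) {F : Sys X → ℝ} {c : ℝ}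
    (h : AllAt j S (fun Q => |F Q| ≤ c)) : |Exp j S F| ≤ c := by
  have := Exp_mono hS (G := fun _ => c) h
  rw [Exp_const hS] at this
  exact (abs_Exp_le hS F).trans this

/-- Jensen for the square. -/
theorem sq_Exp_le {j : ℕ} {S : Sys X} (hS : Prob j S) (F : Sys X → ℝ) :
    Exp j S F ^ 2 ≤ Exp j S (fun Q => F Q ^ 2) := by
  have h1 := Exp_mono hS (F := fun Q => (2 * Exp j S F) * F Q - Exp j S F ^ 2)
    (G := fun Q => F Q ^ 2)
    (allAt_of_forall _ _ fun Q => by nlinarith [sq_nonneg (F Q - Exp j S F)])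
  rw [Exp_sub, Exp_const_mul, Exp_const hS] at h1
  linarith

/-- Jensen for the exponential. -/
theorem exp_Exp_le {j : ℕ} {S : Sys X} (hS : Prob j S) (F : Sys X → ℝ) :
    Real.exp (Exp j S F) ≤ Exp j S (fun Q => Real.exp (F Q)) := by
  have h1 := Exp_mono hS
    (F := fun Q => Real.exp (Exp j S F) * F Q + Real.exp (Exp j S F) * (1 - Exp j S F))
    (G := fun Q => Real.exp (F Q))
    (allAt_of_forall _ _ fun Q => by
      have h2 := Real.add_one_le_exp (F Q - Exp j S F)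
      have h3 : Real.exp (F Q) = Real.exp (Exp j S F) * Real.exp (F Q - Exp j S F) := by
        rw [← Real.exp_add]; congr 1; ring
      rw [h3]
      nlinarith [Real.exp_pos (Exp j S F)])
  rw [Exp_add, Exp_const_mul, Exp_const hS] at h1
  linarith

/-! ### `T` -/

variable {m : ℕ → ℝ}

theorem T_congr {j : ℕ} {S : Sys X} {Φ Ψ : Sys X → ℝ} (h : AllAt j S (fun Q => Φ Q = Ψ Q)) :
    T m j S Φ = T m j S Ψ := by
  induction j generalizing S with
  | zero => exact h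
  | succ j ih =>
    have : ∀ ω, T m j (S.ch ω) Φ = T m j (S.ch ω) Ψ := fun ω => ih (h ω)
    simp only [T, this]

/-- Only the exponents below `j` matter. -/
theorem T_congr_exps {m' : ℕ → ℝ} {j : ℕ} (h : ∀ k, k < j → m k = m' k) (S : Sys X)
    (Φ : Sys X → ℝ) : T m j S Φ = T m' j S Φ := by
  induction j generalizing S with
  | zero => rfl
  | succ j ih =>
    have h1 : ∀ ω, T m j (S.ch ω) Φ = T m' j (S.ch ω) Φ :=
      fun ω => ih (fun k hk => h k (Nat.lt_succ_of_lt hk)) _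
    simp only [T, h1, h j (Nat.lt_succ_self j)]

theorem T_comp (b j : ℕ) (S : Sys X) (Φ : Sys X → ℝ) :
    T m (b + j) S Φ = T (fun k => m (b + k)) j S (fun Q => T m b Q Φ) := by
  induction j generalizing S with
  | zero => rfl
  | succ j ih =>
    change (∑ ω, S.p ω * T m (b + j) (S.ch ω) Φ ^ m (b + j)) ^ (m (b + j))⁻¹ = _
    simp only [T, ih]

theorem T_pos {j : ℕ} {S : Sys X} (hS : Prob j S) {Φ : Sys X → ℝ}
    (hΦ : AllAt j S (fun Q => 0 < Φ Q)) : 0 < T m j S Φ := by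
  induction j generalizing S with
  | zero => exact hΦ
  | succ j ih =>
    have := hS.nonempty
    exact Real.rpow_pos_of_pos (Finset.sum_pos (fun ω _ => mul_pos (hS.1 ω)
      (Real.rpow_pos_of_pos (ih (hS.2.2 ω) (hΦ ω)) _)) Finset.univ_nonempty) _

/-- The defining identity of one step, with the root removed. -/
theorem T_succ_rpow (hm : ∀ d, 0 < m d) {j : ℕ} {S : Sys X} (hS : Prob (j + 1) S) {Φ : Sys X → ℝ}
    (hΦ : AllAt (j + 1) S (fun Q => 0 < Φ Q)) :
    T m (j + 1) S Φ ^ m j = ∑ ω, S.p ω * T m j (S.ch ω) Φ ^ m j := by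
  have h0 : 0 ≤ ∑ ω, S.p ω * T m j (S.ch ω) Φ ^ m j :=
    Finset.sum_nonneg fun ω _ => mul_nonneg (hS.1 ω).le
      (Real.rpow_pos_of_pos (T_pos (hS.2.2 ω) (hΦ ω)) _).le
  exact Real.rpow_inv_rpow h0 (hm j).ne'

theorem T_mono (hm : ∀ d, 0 < m d) {j : ℕ} {S : Sys X} (hS : Prob j S) {Φ Ψ : Sys X → ℝ}
    (h : AllAt j S (fun Q => 0 < Φ Q ∧ Φ Q ≤ Ψ Q)) : T m j S Φ ≤ T m j S Ψ := by
  induction j generalizing S with
  | zero => exact h.2
  | succ j ih =>
    have hp : ∀ ω, 0 < T m j (S.ch ω) Φ :=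
      fun ω => T_pos (hS.2.2 ω) ((h ω).imp fun _ hz => hz.1)
    refine Real.rpow_le_rpow (Finset.sum_nonneg fun ω _ => mul_nonneg (hS.1 ω).le
      (Real.rpow_pos_of_pos (hp ω) _).le) (Finset.sum_le_sum fun ω _ => ?_)
      (inv_pos.2 (hm j)).le
    exact mul_le_mul_of_nonneg_left
      (Real.rpow_le_rpow (hp ω).le (ih (hS.2.2 ω) (h ω)) (hm j).le) (hS.1 ω).le

theorem T_const_mul (hm : ∀ d, 0 < m d) {j : ℕ} {S : Sys X} (hS : Prob j S) {Φ : Sys X → ℝ}
    (hΦ : AllAt j S (fun Q => 0 < Φ Q)) {c : ℝ} (hc : 0 < c) :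
    T m j S (fun Q => c * Φ Q) = c * T m j S Φ := by
  induction j generalizing S with
  | zero => rfl
  | succ j ih =>
    have hp : ∀ ω, 0 < T m j (S.ch ω) Φ := fun ω => T_pos (hS.2.2 ω) (hΦ ω)
    have h1 : ∀ ω, S.p ω * T m j (S.ch ω) (fun Q => c * Φ Q) ^ m j =
        c ^ m j * (S.p ω * T m j (S.ch ω) Φ ^ m j) := fun ω => by
      rw [ih (hS.2.2 ω) (hΦ ω), Real.mul_rpow hc.le (hp ω).le]; ring
    have h0 : 0 ≤ ∑ ω, S.p ω * T m j (S.ch ω) Φ ^ m j :=
      Finset.sum_nonneg fun ω _ => mul_nonneg (hS.1 ω).le (Real.rpow_pos_of_pos (hp ω) _).le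
    simp only [T, h1, ← Finset.mul_sum]
    rw [Real.mul_rpow (Real.rpow_pos_of_pos hc _).le h0, Real.rpow_rpow_inv hc.le (hm j).ne']

theorem T_const (hm : ∀ d, 0 < m d) {j : ℕ} {S : Sys X} (hS : Prob j S) {c : ℝ} (hc : 0 < c) :
    T m j S (fun _ => c) = c := by
  induction j generalizing S with
  | zero => rfl
  | succ j ih =>
    have h1 : ∀ ω, T m j (S.ch ω) (fun _ => c) = c := fun ω => ih (hS.2.2 ω)
    simp only [T, h1, ← Finset.sum_mul, hS.2.1, one_mul]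
    exact Real.rpow_rpow_inv hc.le (hm j).ne'

theorem T_bounds (hm : ∀ d, 0 < m d) {j : ℕ} {S : Sys X} (hS : Prob j S) {Φ : Sys X → ℝ}
    {lo hi : ℝ} (hlo : 0 < lo) (h : AllAt j S (fun Q => lo ≤ Φ Q ∧ Φ Q ≤ hi)) :
    lo ≤ T m j S Φ ∧ T m j S Φ ≤ hi := by
  constructor
  · have := T_mono hm hS (Φ := fun _ => lo) (Ψ := Φ) (h.imp fun _ hz => ⟨hlo, hz.1⟩)
    rwa [T_const hm hS hlo] at this
  · have h1 := T_mono hm hS (Φ := Φ) (Ψ := fun _ => max hi lo)
      (h.imp fun _ hz => ⟨hlo.trans_le hz.1, hz.2.trans (le_max_left _ _)⟩)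
    rw [T_const hm hS (hlo.trans_le (le_max_right _ _))] at h1
    have h2 : lo ≤ hi := by
      have h3 := Exp_mono hS (F := fun _ => lo) (G := fun _ => hi)
        (h.imp fun _ hz => hz.1.trans hz.2)
      rwa [Exp_const hS, Exp_const hS] at h3
    rwa [max_eq_left h2] at h1

/-- `log T` is 1-Lipschitz in the logarithm of the terminal functional. -/
theorem abs_log_T_sub_le (hm : ∀ d, 0 < m d) {j : ℕ} {S : Sys X} (hS : Prob j S)
    {Φ Ψ : Sys X → ℝ} {c : ℝ}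
    (h : AllAt j S (fun Q => 0 < Φ Q ∧ 0 < Ψ Q ∧ |Real.log (Φ Q) - Real.log (Ψ Q)| ≤ c)) :
    |Real.log (T m j S Φ) - Real.log (T m j S Ψ)| ≤ c := by
  have key : ∀ {Φ Ψ : Sys X → ℝ},
      AllAt j S (fun Q => 0 < Φ Q ∧ 0 < Ψ Q ∧ Real.log (Φ Q) - Real.log (Ψ Q) ≤ c) →
      Real.log (T m j S Φ) - Real.log (T m j S Ψ) ≤ c := by
    intro Φ Ψ h
    have hΦ : AllAt j S (fun Q => 0 < Φ Q) := h.imp fun _ hz => hz.1
    have hΨ : AllAt j S (fun Q => 0 < Ψ Q) := h.imp fun _ hz => hz.2.1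
    have h1 := T_mono hm hS (Φ := Φ) (Ψ := fun Q => Real.exp c * Ψ Q) (h.imp fun Q hz => ⟨hz.1, by
      rw [← Real.log_le_log_iff hz.1 (mul_pos (Real.exp_pos c) hz.2.1),
        Real.log_mul (Real.exp_pos c).ne' hz.2.1.ne', Real.log_exp]
      linarith [hz.2.2]⟩)
    rw [T_const_mul hm hS hΨ (Real.exp_pos c)] at h1
    have h2 := Real.log_le_log (T_pos hS hΦ) h1
    rw [Real.log_mul (Real.exp_pos c).ne' (T_pos hS hΨ).ne', Real.log_exp] at h2
    linarith
  rw [abs_le]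
  constructor
  · have := key (Φ := Ψ) (Ψ := Φ) (h.imp fun Q hz => ⟨hz.2.1, hz.1, by
      linarith [(abs_le.1 hz.2.2).1]⟩)
    linarith
  · exact key (h.imp fun Q hz => ⟨hz.1, hz.2.1, (abs_le.1 hz.2.2).2⟩)

theorem T_le_Exp (hm : ∀ d, 0 < m d) (hm1 : ∀ d, m d ≤ 1) {j : ℕ} {S : Sys X} (hS : Prob j S)
    {Φ : Sys X → ℝ} (hΦ : AllAt j S (fun Q => 0 < Φ Q)) : T m j S Φ ≤ Exp j S Φ := by
  induction j generalizing S with
  | zero => exact le_rfl
  | succ j ih =>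
    have hp : ∀ ω, 0 < T m j (S.ch ω) Φ := fun ω => T_pos (hS.2.2 ω) (hΦ ω)
    have h1 := Real.rpow_arith_mean_le_arith_mean_rpow Finset.univ S.p
      (fun ω => T m j (S.ch ω) Φ ^ m j) (fun ω _ => (hS.1 ω).le) hS.2.1
      (fun ω _ => (Real.rpow_pos_of_pos (hp ω) _).le) (p := (m j)⁻¹)
      ((one_le_inv₀ (hm j)).2 (hm1 j))
    refine h1.trans (Finset.sum_le_sum fun ω _ => ?_)
    rw [Real.rpow_rpow_inv (hp ω).le (hm j).ne']
    exact mul_le_mul_of_nonneg_left (ih (hS.2.2 ω) (hΦ ω)) (hS.1 ω).le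

theorem Exp_log_le_log_T (hm : ∀ d, 0 < m d) {j : ℕ} {S : Sys X} (hS : Prob j S)
    {Φ : Sys X → ℝ} (hΦ : AllAt j S (fun Q => 0 < Φ Q)) :
    Exp j S (fun Q => Real.log (Φ Q)) ≤ Real.log (T m j S Φ) := by
  induction j generalizing S with
  | zero => exact le_rfl
  | succ j ih =>
    have hp : ∀ ω, 0 < T m j (S.ch ω) Φ := fun ω => T_pos (hS.2.2 ω) (hΦ ω)
    have h1 := Real.geom_mean_le_arith_mean_weighted Finset.univ S.p
      (fun ω => T m j (S.ch ω) Φ ^ m j) (fun ω _ => (hS.1 ω).le) hS.2.1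
      (fun ω _ => (Real.rpow_pos_of_pos (hp ω) _).le)
    have h2 : 0 < ∏ ω, (T m j (S.ch ω) Φ ^ m j) ^ S.p ω :=
      Finset.prod_pos fun ω _ => Real.rpow_pos_of_pos (Real.rpow_pos_of_pos (hp ω) _) _
    have h3 := Real.log_le_log h2 h1
    rw [Real.log_prod fun ω _ => (Real.rpow_pos_of_pos (Real.rpow_pos_of_pos (hp ω) _) _).ne']
      at h3
    have h4 : ∀ ω, Real.log ((T m j (S.ch ω) Φ ^ m j) ^ S.p ω) =
        m j * (S.p ω * Real.log (T m j (S.ch ω) Φ)) := fun ω => by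
      rw [Real.log_rpow (Real.rpow_pos_of_pos (hp ω) _), Real.log_rpow (hp ω)]; ring
    simp only [h4, ← Finset.mul_sum] at h3
    change ∑ ω, S.p ω * Exp j (S.ch ω) (fun Q => Real.log (Φ Q)) ≤
      Real.log ((∑ ω, S.p ω * T m j (S.ch ω) Φ ^ m j) ^ (m j)⁻¹)
    rw [Real.log_rpow (h2.trans_le h1), le_inv_mul_iff₀ (hm j)]
    refine le_trans (mul_le_mul_of_nonneg_left (Finset.sum_le_sum fun ω _ => ?_) (hm j).le) h3
    exact mul_le_mul_of_nonneg_left (ih (hS.2.2 ω) (hΦ ω)) (hS.1 ω).le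

/-- Nested power means dominate the plain power mean with the smallest exponent. -/
theorem Exp_rpow_le_T {j : ℕ} {S : Sys X} (hS : Prob j S) {Φ : Sys X → ℝ}
    (hΦ : AllAt j S (fun Q => 0 < Φ Q)) {μ : ℝ} (hμ : 0 < μ) (hμm : ∀ k, k < j → μ ≤ m k) :
    Exp j S (fun Q => Φ Q ^ μ) ≤ T m j S Φ ^ μ := by
  induction j generalizing S with
  | zero => exact le_rfl
  | succ j ih =>
    have hp : ∀ ω, 0 < T m j (S.ch ω) Φ := fun ω => T_pos (hS.2.2 ω) (hΦ ω)
    have hj : μ ≤ m j := hμm j (Nat.lt_succ_self j)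
    have hmj : 0 < m j := hμ.trans_le hj
    have h1 := Real.rpow_arith_mean_le_arith_mean_rpow Finset.univ S.p
      (fun ω => T m j (S.ch ω) Φ ^ μ) (fun ω _ => (hS.1 ω).le) hS.2.1
      (fun ω _ => (Real.rpow_pos_of_pos (hp ω) _).le) (p := m j / μ)
      ((one_le_div hμ).2 hj)
    have h2 : ∀ ω, (T m j (S.ch ω) Φ ^ μ) ^ (m j / μ) = T m j (S.ch ω) Φ ^ m j := fun ω => by
      rw [← Real.rpow_mul (hp ω).le, mul_div_cancel₀ _ hμ.ne']
    simp only [h2] at h1
    have h0 : 0 ≤ ∑ ω, S.p ω * T m j (S.ch ω) Φ ^ μ :=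
      Finset.sum_nonneg fun ω _ => mul_nonneg (hS.1 ω).le (Real.rpow_pos_of_pos (hp ω) _).le
    have h3 := Real.rpow_le_rpow (Real.rpow_nonneg h0 _) h1 (mul_pos (inv_pos.2 hmj) hμ).le
    rw [← Real.rpow_mul h0, show m j / μ * ((m j)⁻¹ * μ) = 1 by field_simp, Real.rpow_one,
      Real.rpow_mul ((Real.rpow_nonneg h0 _).trans h1)] at h3
    refine le_trans (Finset.sum_le_sum fun ω _ => ?_) h3
    exact mul_le_mul_of_nonneg_left
      (ih (hS.2.2 ω) (hΦ ω) fun k hk => hμm k (Nat.lt_succ_of_lt hk)) (hS.1 ω).le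

/-- Trivial levels do nothing. -/
theorem T_lift (hm : ∀ d, 0 < m d) (b j : ℕ) (S : Sys X) {Φ : Sys X → ℝ} (h : 0 < T m b S Φ) :
    T m (b + j) (lift j S) Φ = T m b S Φ := by
  induction j with
  | zero => rfl
  | succ j ih =>
    change (∑ _ω : Unit, 1 * T m (b + j) (lift j S) Φ ^ m (b + j)) ^ (m (b + j))⁻¹ = _
    rw [ih]
    simp only [Finset.univ_unique, Finset.sum_singleton, one_mul]
    exact Real.rpow_rpow_inv h.le (hm _).ne'

theorem prob_lift {b : ℕ} (j : ℕ) {S : Sys X} (h : Prob b S) : Prob (b + j) (lift j S) := by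
  induction j with
  | zero => exact h
  | succ j ih =>
    refine ⟨fun _ => one_pos, ?_, fun _ => ih⟩
    change (∑ _ω : Unit, (1 : ℝ)) = 1
    simp

theorem allAt_lift {b : ℕ} (j : ℕ) {S : Sys X} {P : Sys X → Prop} :
    AllAt (b + j) (lift j S) P ↔ AllAt b S P := by
  induction j with
  | zero => exact Iff.rfl
  | succ j ih => exact ⟨fun h => ih.1 (h ()), fun h _ => ih.2 h⟩

/-! ### `tilt` -/

theorem allAt_tilt {j : ℕ} {S : Sys X} {Φ : Sys X → ℝ} {P : Sys X → Prop} :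
    AllAt j (tilt m j S Φ) P ↔ AllAt j S P := by
  induction j generalizing S with
  | zero => exact Iff.rfl
  | succ j ih => exact forall_congr' fun ω => ih

theorem prob_tilt (hm : ∀ d, 0 < m d) {b j : ℕ} {S : Sys X} (hS : Prob (b + j) S)
    {Φ : Sys X → ℝ} (hΦ : AllAt j S (fun Q => 0 < Φ Q)) : Prob (b + j) (tilt m j S Φ) := by
  induction j generalizing S with
  | zero => exact hS
  | succ j ih =>
    have hS' : Prob (j + 1) S := hS.mono
    have hp : ∀ ω, 0 < T m j (S.ch ω) Φ := fun ω => T_pos (hS'.2.2 ω) (hΦ ω)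
    have hT : 0 < T m (j + 1) S Φ := T_pos hS' hΦ
    refine ⟨fun ω => mul_pos (hS.1 ω) (Real.rpow_pos_of_pos (div_pos (hp ω) hT) _), ?_,
      fun ω => ih (hS.2.2 ω) (hΦ ω)⟩
    change ∑ ω : S.ι, S.p ω * (T m j (S.ch ω) Φ / T m (j + 1) S Φ) ^ m j = 1
    have h1 : ∀ ω, S.p ω * (T m j (S.ch ω) Φ / T m (j + 1) S Φ) ^ m j =
        S.p ω * T m j (S.ch ω) Φ ^ m j / T m (j + 1) S Φ ^ m j := fun ω => by
      rw [Real.div_rpow (hp ω).le hT.le, mul_div_assoc]
    simp only [h1, ← Finset.sum_div]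
    rw [← T_succ_rpow hm hS' hΦ, div_self (Real.rpow_pos_of_pos hT _).ne']

theorem prob_tilt' (hm : ∀ d, 0 < m d) {j : ℕ} {S : Sys X} (hS : Prob j S)
    {Φ : Sys X → ℝ} (hΦ : AllAt j S (fun Q => 0 < Φ Q)) : Prob j (tilt m j S Φ) := by
  have := prob_tilt hm (b := 0) (j := j) (S := S) (by rwa [Nat.zero_add]) hΦ
  rwa [Nat.zero_add] at this

/-- The cocycle identity. -/
theorem T_mul (hm : ∀ d, 0 < m d) {j : ℕ} {S : Sys X} (hS : Prob j S) {Φ Ψ : Sys X → ℝ}
    (hΦ : AllAt j S (fun Q => 0 < Φ Q)) (hΨ : AllAt j S (fun Q => 0 < Ψ Q)) :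
    T m j S (fun Q => Φ Q * Ψ Q) = T m j S Φ * T m j (tilt m j S Φ) Ψ := by
  induction j generalizing S with
  | zero => rfl
  | succ j ih =>
    have hp : ∀ ω, 0 < T m j (S.ch ω) Φ := fun ω => T_pos (hS.2.2 ω) (hΦ ω)
    have hq : ∀ ω, 0 < T m j (tilt m j (S.ch ω) Φ) Ψ := fun ω =>
      T_pos (prob_tilt' hm (hS.2.2 ω) (hΦ ω)) (allAt_tilt.2 (hΨ ω))
    have hT : 0 < T m (j + 1) S Φ := T_pos hS hΦ
    change (∑ ω, S.p ω * T m j (S.ch ω) (fun Q => Φ Q * Ψ Q) ^ m j) ^ (m j)⁻¹ =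
      T m (j + 1) S Φ * (∑ ω : S.ι, S.p ω * (T m j (S.ch ω) Φ / T m (j + 1) S Φ) ^ m j *
        T m j (tilt m j (S.ch ω) Φ) Ψ ^ m j) ^ (m j)⁻¹
    have h1 : ∀ ω, S.p ω * T m j (S.ch ω) (fun Q => Φ Q * Ψ Q) ^ m j =
        T m (j + 1) S Φ ^ m j * (S.p ω * (T m j (S.ch ω) Φ / T m (j + 1) S Φ) ^ m j *
          T m j (tilt m j (S.ch ω) Φ) Ψ ^ m j) := fun ω => by
      rw [ih (hS.2.2 ω) (hΦ ω) (hΨ ω), Real.mul_rpow (hp ω).le (hq ω).le,
        Real.div_rpow (hp ω).le hT.le]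
      have := (Real.rpow_pos_of_pos hT (m j)).ne'
      field_simp
    simp only [h1, ← Finset.mul_sum]
    rw [Real.mul_rpow (Real.rpow_pos_of_pos hT _).le (Finset.sum_nonneg fun ω _ =>
      mul_nonneg (mul_nonneg (hS.1 ω).le (Real.rpow_pos_of_pos (div_pos (hp ω) hT) _).le)
        (Real.rpow_pos_of_pos (hq ω) _).le), Real.rpow_rpow_inv hT.le (hm j).ne']

theorem tilt_tilt (hm : ∀ d, 0 < m d) {j : ℕ} {S : Sys X} (hS : Prob j S) {Φ Ψ : Sys X → ℝ}
    (hΦ : AllAt j S (fun Q => 0 < Φ Q)) (hΨ : AllAt j S (fun Q => 0 < Ψ Q)) :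
    tilt m j (tilt m j S Φ) Ψ = tilt m j S (fun Q => Φ Q * Ψ Q) := by
  induction j generalizing S with
  | zero => rfl
  | succ j ih =>
    have hp : ∀ ω, 0 < T m j (S.ch ω) Φ := fun ω => T_pos (hS.2.2 ω) (hΦ ω)
    have hq : ∀ ω, 0 < T m j (tilt m j (S.ch ω) Φ) Ψ := fun ω =>
      T_pos (prob_tilt' hm (hS.2.2 ω) (hΦ ω)) (allAt_tilt.2 (hΨ ω))
    have hT : 0 < T m (j + 1) S Φ := T_pos hS hΦ
    have hU : 0 < T m (j + 1) (tilt m (j + 1) S Φ) Ψ :=
      T_pos (prob_tilt' hm hS hΦ) (allAt_tilt.2 hΨ)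
    change node S.val S.ι
      (fun ω => S.p ω * (T m j (S.ch ω) Φ / T m (j + 1) S Φ) ^ m j *
        (T m j (tilt m j (S.ch ω) Φ) Ψ / T m (j + 1) (tilt m (j + 1) S Φ) Ψ) ^ m j)
      (fun ω => tilt m j (tilt m j (S.ch ω) Φ) Ψ) = node S.val S.ι
      (fun ω => S.p ω * (T m j (S.ch ω) (fun Q => Φ Q * Ψ Q) /
        T m (j + 1) S (fun Q => Φ Q * Ψ Q)) ^ m j)
      (fun ω => tilt m j (S.ch ω) (fun Q => Φ Q * Ψ Q))
    congr 1
    · funext ω
      rw [T_mul hm (hS.2.2 ω) (hΦ ω) (hΨ ω), T_mul hm hS hΦ hΨ, mul_assoc,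
        ← Real.mul_rpow (div_pos (hp ω) hT).le (div_pos (hq ω) hU).le, div_mul_div_comm]
    · funext ω
      exact ih (hS.2.2 ω) (hΦ ω) (hΨ ω)

theorem tilt_congr {j : ℕ} {S : Sys X} {Φ Ψ : Sys X → ℝ} (h : AllAt j S (fun Q => Φ Q = Ψ Q)) :
    tilt m j S Φ = tilt m j S Ψ := by
  induction j generalizing S with
  | zero => rfl
  | succ j ih =>
    have h1 : ∀ ω, T m j (S.ch ω) Φ = T m j (S.ch ω) Ψ := fun ω => T_congr (h ω)
    have h2 : ∀ ω, tilt m j (S.ch ω) Φ = tilt m j (S.ch ω) Ψ := fun ω => ih (h ω)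
    have h3 : T m (j + 1) S Φ = T m (j + 1) S Ψ := T_congr h
    simp only [tilt, h1, h2, h3]

theorem tilt_const_mul (hm : ∀ d, 0 < m d) {j : ℕ} {S : Sys X} (hS : Prob j S) {Φ : Sys X → ℝ}
    (hΦ : AllAt j S (fun Q => 0 < Φ Q)) {c : ℝ} (hc : 0 < c) :
    tilt m j S (fun Q => c * Φ Q) = tilt m j S Φ := by
  induction j generalizing S with
  | zero => rfl
  | succ j ih =>
    have h1 : ∀ ω, T m j (S.ch ω) (fun Q => c * Φ Q) = c * T m j (S.ch ω) Φ :=
      fun ω => T_const_mul hm (hS.2.2 ω) (hΦ ω) hc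
    have h2 : ∀ ω, tilt m j (S.ch ω) (fun Q => c * Φ Q) = tilt m j (S.ch ω) Φ :=
      fun ω => ih (hS.2.2 ω) (hΦ ω)
    have h3 := T_const_mul hm hS hΦ hc
    simp only [tilt, h1, h2, h3, mul_div_mul_left _ _ hc.ne']

/-- The density of a tilt by a factor in `[1/2, 3/2]` is at most `3 ^ j`. -/
theorem Exp_tilt_le (hm : ∀ d, 0 < m d) (hm1 : ∀ d, m d ≤ 1) {j : ℕ} {S : Sys X} (hS : Prob j S)
    {Φ G : Sys X → ℝ} (hΦ : AllAt j S (fun Q => 1 / 2 ≤ Φ Q ∧ Φ Q ≤ 3 / 2))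
    (hG : AllAt j S (fun Q => 0 ≤ G Q)) : Exp j (tilt m j S Φ) G ≤ 3 ^ j * Exp j S G := by
  induction j generalizing S with
  | zero => simp [Exp, tilt]
  | succ j ih =>
    have hT := T_bounds hm hS (by norm_num) hΦ
    change ∑ ω : S.ι, S.p ω * (T m j (S.ch ω) Φ / T m (j + 1) S Φ) ^ m j *
      Exp j (tilt m j (S.ch ω) Φ) G ≤ 3 ^ (j + 1) * ∑ ω, S.p ω * Exp j (S.ch ω) G
    rw [Finset.mul_sum]
    refine Finset.sum_le_sum fun ω _ => ?_
    have hc := T_bounds hm (hS.2.2 ω) (by norm_num) (hΦ ω)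
    have h0 : 0 ≤ T m j (S.ch ω) Φ / T m (j + 1) S Φ := div_nonneg (by linarith) (by linarith)
    have h1 : T m j (S.ch ω) Φ / T m (j + 1) S Φ ≤ 3 := by
      rw [div_le_iff₀ (by linarith)]; linarith
    have h2 : (T m j (S.ch ω) Φ / T m (j + 1) S Φ) ^ m j ≤ 3 := by
      refine (Real.rpow_le_rpow h0 h1 (hm j).le).trans ?_
      have := Real.rpow_le_rpow_of_exponent_le (x := 3) (by norm_num) (hm1 j)
      rwa [Real.rpow_one] at this
    have h3 := ih (hS.2.2 ω) (hΦ ω) (hG ω)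
    have h4 := Exp_nonneg (hS.2.2 ω) (hG ω)
    have h5 : (T m j (S.ch ω) Φ / T m (j + 1) S Φ) ^ m j * Exp j (tilt m j (S.ch ω) Φ) G ≤
        3 * (3 ^ j * Exp j (S.ch ω) G) :=
      (mul_le_mul_of_nonneg_left h3 (Real.rpow_nonneg h0 _)).trans
        (mul_le_mul_of_nonneg_right h2 (by positivity))
    have h6 := mul_le_mul_of_nonneg_left h5 (hS.1 ω).le
    calc _ = S.p ω * ((T m j (S.ch ω) Φ / T m (j + 1) S Φ) ^ m j *
          Exp j (tilt m j (S.ch ω) Φ) G) := by ring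
      _ ≤ _ := h6
      _ = _ := by ring

end Sys

theorem Exps.le_one {m : ℕ → ℝ} (hm : Exps m) (d : ℕ) : m d ≤ 1 := by
  have := hm.anti (Nat.zero_le d)
  rwa [hm.zero] at this

/-! ### `avg` -/

section avg
variable {I : Type} [Fintype I]

theorem avg_add (f g : I → ℝ) : avg (fun i => f i + g i) = avg f + avg g := by
  simp only [avg, Finset.sum_add_distrib, mul_add]

theorem avg_sub (f g : I → ℝ) : avg (fun i => f i - g i) = avg f - avg g := by
  simp only [avg, Finset.sum_sub_distrib, mul_sub]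

theorem avg_const_mul (c : ℝ) (f : I → ℝ) : avg (fun i => c * f i) = c * avg f := by
  simp only [avg, ← Finset.mul_sum, mul_left_comm]

theorem avg_const [Nonempty I] (c : ℝ) : avg (fun _ : I => c) = c := by
  have : (Fintype.card I : ℝ) ≠ 0 := Nat.cast_ne_zero.2 Fintype.card_ne_zero
  simp only [avg, Finset.sum_const, Finset.card_univ, nsmul_eq_mul]
  field_simp

theorem avg_mono {f g : I → ℝ} (h : ∀ i, f i ≤ g i) : avg f ≤ avg g := by
  exact mul_le_mul_of_nonneg_left (Finset.sum_le_sum fun i _ => h i) (by positivity)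

theorem avg_nonneg {f : I → ℝ} (h : ∀ i, 0 ≤ f i) : 0 ≤ avg f := by
  exact mul_nonneg (by positivity) (Finset.sum_nonneg fun i _ => h i)

theorem abs_avg_le (f : I → ℝ) : |avg f| ≤ avg (fun i => |f i|) := by
  unfold avg
  rw [abs_mul, abs_of_nonneg (by positivity : (0 : ℝ) ≤ (Fintype.card I : ℝ)⁻¹)]
  exact mul_le_mul_of_nonneg_left (Finset.abs_sum_le_sum_abs _ _) (by positivity)

theorem sq_avg_le (f : I → ℝ) : avg f ^ 2 ≤ avg (fun i => f i ^ 2) := by
  rcases isEmpty_or_nonempty I with hI | hI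
  · simp [avg]
  · have h1 := avg_mono (f := fun i => (2 * avg f) * f i - avg f ^ 2) (g := fun i => f i ^ 2)
      fun i => by nlinarith [sq_nonneg (f i - avg f)]
    rw [avg_sub, avg_const_mul, avg_const] at h1
    linarith

theorem avg_sum {J : Type} (s : Finset J) (f : J → I → ℝ) :
    avg (fun i => ∑ j ∈ s, f j i) = ∑ j ∈ s, avg (f j) := by
  unfold avg
  rw [Finset.sum_comm, Finset.mul_sum]

theorem avg_comm {J : Type} [Fintype J] (f : I → J → ℝ) :
    avg (fun i => avg (fun j => f i j)) = avg (fun j => avg (fun i => f i j)) := by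
  unfold avg
  simp only [← Finset.mul_sum]
  rw [Finset.sum_comm, mul_left_comm]

theorem avg_mul_avg {J : Type} [Fintype J] (f : I → ℝ) (g : J → ℝ) :
    avg f * avg g = avg (fun i => avg (fun j => f i * g j)) := by
  simp only [avg_const_mul]
  simp only [avg, ← Finset.sum_mul, mul_assoc]

/-- Independent uniform coordinates. -/
theorem avg_pi_prod {Λ : Type} [Fintype Λ] [DecidableEq Λ] (f : Λ → I → ℝ) :
    avg (fun u : Λ → I => ∏ l, f l (u l)) = ∏ l, avg (f l) := by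
  unfold avg
  rw [Finset.prod_mul_distrib, Finset.prod_univ_sum, Fintype.piFinset_univ, Finset.prod_const,
    Finset.card_univ, Fintype.card_fun, Nat.cast_pow, inv_pow]

end avg

end Crest.Agent.R141
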