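import Crest.Agent.R141.Defs

/-! Row 141: recursive form of the nested power means of the frozen definitions. -/

set_option autoImplicit false

namespace Crest.Agent.R141

open MeasureTheory Crest.ProbabilityR.Diluted

/-- Recursive form of the nested power means (outermost level first). -/
noncomputable def PM {L : Type*} [Fintype L] :
    (d : ℕ) → (Fin d → ℝ) → ((L → Fin d → unitInterval) → ℝ) → ℝ
  | 0, _, W => W (fun _ => Fin.elim0)
  | d + 1, m, W => (∫ v : L → unitInterval,
      PM d (Fin.tail m) (fun u' => W (fun l => Fin.cons (v l) (u' l))) ^ m 0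
      ∂(Measure.pi fun _ : L => (volume : Measure unitInterval))) ^ (1 / m 0)

theorem PM_zero {L : Type*} [Fintype L] (m : Fin 0 → ℝ) (W : (L → Fin 0 → unitInterval) → ℝ) :
    PM 0 m W = W (fun _ => Fin.elim0) := rfl

theorem PM_succ {L : Type*} [Fintype L] {d : ℕ} (m : Fin (d + 1) → ℝ)
    (W : (L → Fin (d + 1) → unitInterval) → ℝ) :
    PM (d + 1) m W = (∫ v : L → unitInterval,
      PM d (Fin.tail m) (fun u' => W (fun l => Fin.cons (v l) (u' l))) ^ m 0
      ∂(Measure.pi fun _ : L => (volume : Measure unitInterval))) ^ (1 / m 0) := rfl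

theorem foldr_pmStep_cons {L : Type*} [Fintype L] {r : ℕ} (m : Fin (r + 1) → ℝ)
    (W : (L → Fin (r + 1 + 1) → unitInterval) → ℝ) (c : L → unitInterval) (ds : List (Fin r))
    (w : L → Fin (r + 1) → unitInterval) :
    ds.foldr (fun d acc => pmStep (m d.succ) d.succ.succ acc) W
        (fun l => Fin.cons (c l) (w l)) =
      ds.foldr (fun d acc => pmStep (Fin.tail m d) d.succ acc)
        (fun w' => W (fun l => Fin.cons (c l) (w' l))) w := by
  induction ds generalizing w with
  | nil => rfl
  | cons d ds ih =>
    simp only [List.foldr_cons, pmStep, Fin.tail]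
    congr 2
    funext v
    congr 1
    have h : (fun ω j => if j = d.succ.succ then v ω
          else (Fin.cons (c ω) (w ω) : Fin (r + 1 + 1) → unitInterval) j) =
        fun ω => Fin.cons (c ω) (fun j => if j = d.succ then v ω else w ω j) := by
      funext ω j
      refine Fin.cases ?_ (fun i => ?_) j
      · simp [(Fin.succ_ne_zero _).symm]
      · simp
    rw [h]
    exact ih _

/-- The frozen `powerMeans` in recursive form. -/
theorem powerMeans_eq_PM {L : Type*} [Fintype L] {r : ℕ} (m : Fin r → ℝ)
    (W : (L → Fin (r + 1) → unitInterval) → ℝ) (u : L → Fin (r + 1) → unitInterval) :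
    powerMeans m W u = PM r m (fun u' => W (fun l => Fin.cons (u l 0) (u' l))) := by
  induction r with
  | zero =>
    change W u = W _
    congr 1
    funext l j
    refine Fin.cases ?_ (fun i => i.elim0) j
    simp
  | succ r ih =>
    unfold powerMeans
    rw [List.finRange_succ, List.foldr_cons, List.foldr_map, PM_succ, pmStep]
    congr 2
    funext v
    congr 1
    have h : (fun ω j => if j = (0 : Fin (r + 1)).succ then v ω else u ω j) =
        fun ω => Fin.cons (u ω 0) (Fin.cons (v ω) (fun j => u ω j.succ.succ)) := by
      funext ω j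
      refine Fin.cases ?_ (fun i => ?_) j
      · simp
      · refine Fin.cases ?_ (fun k => ?_) i
        · simp
        · rw [if_neg (fun h => Fin.succ_ne_zero k (Fin.succ_injective _ h))]
          simp
    rw [h, foldr_pmStep_cons]
    have := ih (Fin.tail m) (fun w' => W (fun l => Fin.cons (u l 0) (w' l)))
      (fun l => Fin.cons (v l) (fun j => u l j.succ.succ))
    simpa [powerMeans] using this

end Crest.Agent.R141
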