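import Crest.Agent.R141.LabLog
import Crest.Agent.R141.PM

/-! Row 141, module G1: a finite label system is a trial law (exact identity). -/

set_option autoImplicit false

namespace Crest.Agent.R141

open Finset Sys MeasureTheory Crest.ProbabilityR.Diluted

/-- `X` is the message obtained by walking `d` steps down `S` with measurable samplers; after the
walk the children carry spins with law `Diluted.tilt (X u)`. -/
def Rep : (d : ℕ) → Sys Bool → ((Fin d → unitInterval) → ℝ) → Prop
  | 0, S, X => ∀ (u : Fin 0 → unitInterval) (b : Bool),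
      ∑ ω, S.p ω * (if (S.ch ω).val = b then 1 else 0) = Crest.ProbabilityR.Diluted.tilt (X u) b
  | d + 1, S, X => ∃ (φ : unitInterval → S.ι) (X' : S.ι → (Fin d → unitInterval) → ℝ),
      (∀ i, MeasurableSet {v | φ v = i}) ∧
      (∀ i, (volume {v : unitInterval | φ v = i}).toReal = S.p i) ∧
      (∀ i, Rep d (S.ch i) (X' i)) ∧ ∀ u, X u = X' (φ (u 0)) (Fin.tail u)

/-- Exponents by remaining depth from exponents by level. -/
def RevExp {r : ℕ} (m : ℕ → ℝ) (mm : Fin r → ℝ) : Prop := ∀ l : Fin r, mm l = m (r - l)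

theorem Rep.measurable {d : ℕ} {S : Sys Bool} {X : (Fin d → unitInterval) → ℝ} (h : Rep d S X) :
    Measurable X := by
  induction d generalizing S with
  | zero => exact Subsingleton.measurable
  | succ d ih =>
    obtain ⟨φ, X', hφ, -, hX', hX⟩ := h
    let _i : MeasurableSpace S.ι := ⊤
    have h1 : Measurable φ := measurable_to_countable' fun i => hφ i
    have h2 : Measurable (fun q : S.ι × (Fin d → unitInterval) => X' q.1 q.2) :=
      measurable_from_prod_countable_right fun i => ih (hX' i)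
    have h3 : Measurable (fun u : Fin (d + 1) → unitInterval => (φ (u 0), Fin.tail u)) :=
      (h1.comp (measurable_pi_apply 0)).prodMk
        (measurable_pi_lambda _ fun j => measurable_pi_apply j.succ)
    have : X = fun u => X' (φ (u 0)) (Fin.tail u) := funext hX
    rw [this]
    exact h2.comp h3

theorem b1_exists_sampler {A : Type} [Fintype A] (p : A → ℝ) (hp : ∀ i, 0 < p i)
    (hs : ∑ i, p i = 1) :
    ∃ φ : unitInterval → A, (∀ i, MeasurableSet {v | φ v = i}) ∧
      ∀ i, (volume {v : unitInterval | φ v = i}).toReal = p i := by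
  have hne : Nonempty A := by
    by_contra hne
    rw [not_nonempty_iff] at hne
    simp at hs
  let _i : MeasurableSpace A := ⊤
  let q : PMF A := PMF.ofFintype (fun i => ENNReal.ofReal (p i)) (by
    rw [← ENNReal.ofReal_sum_of_nonneg fun i _ => (hp i).le, hs, ENNReal.ofReal_one])
  obtain ⟨φ, hφ, hmap⟩ := Measure.exists_measurable_map_eq q.toMeasure
  refine ⟨φ, fun i => hφ (measurableSet_singleton i), fun i => ?_⟩
  have h1 : volume {v : unitInterval | φ v = i} = (volume.map φ) {i} := by
    rw [Measure.map_apply hφ (measurableSet_singleton i)]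
    rfl
  rw [h1, hmap, PMF.toMeasure_apply_singleton _ _ (measurableSet_singleton i)]
  exact ENNReal.toReal_ofReal (hp i).le

theorem b1_tilt_log {a b : ℝ} (ha : 0 < a) (hb : 0 < b) (hab : a + b = 1) (s : Bool) :
    Crest.ProbabilityR.Diluted.tilt (Real.log (a / b) / 2) s = if s then a else b := by
  set x := Real.log (a / b) / 2 with hx
  have h1 : Real.exp x * Real.exp x = a / b := by
    rw [← Real.exp_add, show x + x = Real.log (a / b) by rw [hx]; ring,
      Real.exp_log (div_pos ha hb)]
  have h2 : Real.exp x * Real.exp x * b = a := by rw [h1]; field_simp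
  have h3 : Real.exp x * Real.exp (-x) = 1 := by rw [← Real.exp_add]; simp
  have hp := Real.exp_pos x
  have hn := Real.exp_pos (-x)
  unfold Crest.ProbabilityR.Diluted.tilt
  rw [Real.cosh_eq, div_eq_iff (by positivity)]
  cases s
  · simp only [spinVal, Bool.false_eq_true, if_false, mul_neg, mul_one]
    apply mul_left_cancel₀ hp.ne'
    linear_combination (1 - b) * h3 - h2 - hab
  · simp only [spinVal, if_true, mul_one]
    apply mul_left_cancel₀ hp.ne'
    linear_combination (-a) * h3 + h2 - (Real.exp x * Real.exp x) * hab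

theorem exists_rep {d : ℕ} {S : Sys Bool} (hS : Prob (d + 1) S) (hF : Full d S) :
    ∃ X, Rep d S X := by
  induction d generalizing S with
  | zero =>
    have hpos : ∀ b : Bool, 0 < ∑ ω, S.p ω * (if (S.ch ω).val = b then 1 else 0) := by
      intro b
      obtain ⟨ω, hω⟩ := hF b
      refine Finset.sum_pos' (fun i _ => mul_nonneg (hS.1 i).le (by split_ifs <;> norm_num))
        ⟨ω, Finset.mem_univ _, ?_⟩
      rw [if_pos hω, mul_one]
      exact hS.1 ω
    have hsum : (∑ ω, S.p ω * (if (S.ch ω).val = true then 1 else 0)) +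
        (∑ ω, S.p ω * (if (S.ch ω).val = false then 1 else 0)) = 1 := by
      rw [← Finset.sum_add_distrib]
      refine (Finset.sum_congr rfl fun ω _ => ?_).trans hS.2.1
      cases (S.ch ω).val <;> simp
    refine ⟨fun _ => Real.log ((∑ ω, S.p ω * (if (S.ch ω).val = true then 1 else 0)) /
      (∑ ω, S.p ω * (if (S.ch ω).val = false then 1 else 0))) / 2, fun u b => ?_⟩
    rw [b1_tilt_log (hpos true) (hpos false) hsum]
    cases b <;> simp
  | succ d ih =>
    obtain ⟨φ, h1, h2⟩ := b1_exists_sampler S.p hS.1 hS.2.1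
    choose X' hX' using fun i => ih (hS.2.2 i) (hF i)
    exact ⟨fun u => X' (φ (u 0)) (Fin.tail u), φ, X', h1, h2, hX', fun _ => rfl⟩

/-- Independent samplers. -/
theorem b1_sampler {L : Type} [Fintype L] [DecidableEq L] {A : L → Type} [∀ l, Fintype (A l)]
    {Ω : Type} [MeasurableSpace Ω] (P : Measure Ω) [IsProbabilityMeasure P]
    (φ : ∀ l, Ω → A l) (hφ : ∀ l i, MeasurableSet {v | φ l v = i}) (G : (∀ l, A l) → ℝ) :
    ∫ v : L → Ω, G (fun l => φ l (v l)) ∂(Measure.pi fun _ => P) =
      ∑ w : ∀ l, A l, (∏ l, (P {v | φ l v = w l}).toReal) * G w := by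
  let _i : ∀ l, MeasurableSpace (A l) := fun _ => ⊤
  have h1 : ∀ l, Measurable (φ l) := fun l => measurable_to_countable' fun i => hφ l i
  have h2 : Measurable (fun (v : L → Ω) l => φ l (v l)) :=
    measurable_pi_lambda _ fun l => (h1 l).comp (measurable_pi_apply l)
  have hG : Measurable G := Measurable.of_discrete
  have _i2 : ∀ l, IsProbabilityMeasure (P.map (φ l)) :=
    fun l => Measure.isProbabilityMeasure_map (h1 l).aemeasurable
  rw [← integral_map h2.aemeasurable hG.aestronglyMeasurable,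
    Measure.pi_map_pi fun l => (h1 l).aemeasurable, integral_fintype Integrable.of_finite]
  refine Finset.sum_congr rfl fun w _ => ?_
  rw [measureReal_def, Measure.pi_singleton, ENNReal.toReal_prod, smul_eq_mul]
  congr 1
  refine Finset.prod_congr rfl fun l _ => ?_
  rw [Measure.map_apply (h1 l) (measurableSet_singleton _)]
  rfl

/-- The average of `V` against independent spins with messages `x`. -/
noncomputable def b1W {L : Type} [Fintype L] [DecidableEq L] (V : (L → Bool) → ℝ) (x : L → ℝ) :
    ℝ :=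
  ∑ s : L → Bool, (∏ l, Crest.ProbabilityR.Diluted.tilt (x l) (s l)) * V s

theorem b1_PM_eq_T {L : Type} [Fintype L] [DecidableEq L] {m : ℕ → ℝ} (hm0 : m 0 = 1)
    (V : (L → Bool) → ℝ) (d : ℕ) (mm : Fin d → ℝ) (hmm : RevExp m mm) (S : L → Sys Bool)
    (X : L → (Fin d → unitInterval) → ℝ) (h : ∀ l, Rep d (S l) (X l)) :
    PM d mm (fun u => b1W V (fun l => X l (u l))) =
      T m (d + 1) (piProd (d + 1) S) (fun Q => V Q.val) := by
  induction d generalizing S with
  | zero =>
    change b1W V (fun l => X l Fin.elim0) = (∑ ω : ∀ l, (S l).ι, (∏ l, (S l).p (ω l)) *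
      V (fun l => ((S l).ch (ω l)).val) ^ m 0) ^ (m 0)⁻¹
    simp only [hm0, Real.rpow_one, inv_one]
    refine (pi_push (B := fun _ => Bool) (fun l => (S l).p)
      (fun l => Crest.ProbabilityR.Diluted.tilt (X l Fin.elim0))
      (fun l ω => ((S l).ch ω).val) (fun l g => ?_) V).symm
    simp only [← h l Fin.elim0, Finset.sum_mul]
    rw [Finset.sum_comm]
    refine Finset.sum_congr rfl fun ω _ => ?_
    cases ((S l).ch ω).val <;> simp
  | succ d ih =>
    choose φ X' hφ hvol hX' hX using h
    have hmm0 : mm 0 = m (d + 1) := hmm 0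
    have htail : RevExp m (Fin.tail mm) := fun l => by
      have := hmm l.succ
      rw [Fin.val_succ, Nat.add_sub_add_right] at this
      exact this
    rw [PM_succ, hmm0, one_div]
    change _ = (∑ ω : ∀ l, (S l).ι, (∏ l, (S l).p (ω l)) *
      T m (d + 1) (piProd (d + 1) fun l => (S l).ch (ω l)) (fun Q => V Q.val) ^ m (d + 1)) ^
        (m (d + 1))⁻¹
    congr 1
    have h1 : ∀ v : L → unitInterval,
        PM d (Fin.tail mm) (fun u' => b1W V (fun l => X l (Fin.cons (v l) (u' l)))) =
          T m (d + 1) (piProd (d + 1) fun l => (S l).ch (φ l (v l))) (fun Q => V Q.val) := by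
      intro v
      rw [← ih (Fin.tail mm) htail (fun l => (S l).ch (φ l (v l))) (fun l => X' l (φ l (v l)))
        (fun l => hX' l _)]
      simp only [hX, Fin.cons_zero, Fin.tail_cons]
    simp only [h1]
    rw [b1_sampler volume φ hφ (fun w =>
      T m (d + 1) (piProd (d + 1) fun l => (S l).ch (w l)) (fun Q => V Q.val) ^ m (d + 1))]
    simp only [hvol]

theorem b1_integral_eq_labLog {L : Type} [Fintype L] [DecidableEq L] {m : ℕ → ℝ} (hm0 : m 0 = 1)
    (V : (L → Bool) → ℝ) {r : ℕ} {mm : Fin r → ℝ} (hmm : RevExp m mm) {Lab : Sys Bool}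
    {X : (Fin (r + 1) → unitInterval) → ℝ} (hX : Rep (r + 1) Lab X) :
    ∫ u, Real.log (powerMeans mm (fun u' : L → Fin (r + 1) → unitInterval =>
      b1W V (fun l => X (u' l))) u) ∂(uniformArrays L r) = labLog m r Lab V := by
  obtain ⟨φ, X', hφ, hvol, hX', hX⟩ := hX
  have h1 : ∀ u : L → Fin (r + 1) → unitInterval,
      powerMeans mm (fun u' : L → Fin (r + 1) → unitInterval => b1W V (fun l => X (u' l))) u =
        T m (r + 1) (piProd (r + 1) fun l => Lab.ch (φ (u l 0))) (fun Q => V Q.val) := by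
    intro u
    rw [powerMeans_eq_PM, ← b1_PM_eq_T hm0 V r mm hmm (fun l => Lab.ch (φ (u l 0)))
      (fun l => X' (φ (u l 0))) (fun l => hX' _)]
    simp only [hX, Fin.cons_zero, Fin.tail_cons]
  simp only [h1]
  unfold uniformArrays labLog
  rw [b1_sampler (A := fun _ => Lab.ι) (Measure.pi fun _ : Fin (r + 1) =>
      (volume : Measure unitInterval)) (fun _ u => φ (u 0))
    (fun _ i => measurable_pi_apply (X := fun _ : Fin (r + 1) => unitInterval) 0 (hφ i))
    (fun w => Real.log (T m (r + 1) (piProd (r + 1) fun l => Lab.ch (w l)) (fun Q => V Q.val)))]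
  refine Finset.sum_congr rfl fun w _ => ?_
  congr 1
  refine Finset.prod_congr rfl fun l _ => ?_
  rw [← hvol, ← (measurePreserving_eval (fun _ : Fin (r + 1) => (volume : Measure unitInterval))
    0).measure_preimage (hφ (w l)).nullMeasurableSet]
  rfl

theorem b1_tilt_pos (x : ℝ) (s : Bool) : 0 < Crest.ProbabilityR.Diluted.tilt x s :=
  div_pos (Real.exp_pos _) (mul_pos two_pos (Real.cosh_pos x))

theorem b1_edgeTerm {p : ℕ} (θ : Inter p) (x : Fin p → ℝ) :
    edgeTerm θ x = b1W (fun s : Fin p → Bool => Real.exp (θ s)) x :=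
  Finset.sum_congr rfl fun _ _ => mul_comm _ _

theorem b1_siteTerm {p k : ℕ} (h : ℝ) (θs : Fin k → Inter p) (x : Fin k × Fin (p - 1) → ℝ) :
    siteTerm h θs (fun j l => x (j, l)) = b1W (siteV h θs) x := by
  unfold siteTerm b1W siteV
  simp only [Finset.mul_sum]
  rw [Finset.sum_comm]
  refine Finset.sum_congr rfl fun ε _ => ?_
  have hpos : ∀ j, 0 < ∑ s' : Fin (p - 1) → Bool, Real.exp (θs j (ext s' ε)) *
      ∏ l, Crest.ProbabilityR.Diluted.tilt (x (j, l)) (s' l) := fun j =>
    Finset.sum_pos (fun s' _ => mul_pos (Real.exp_pos _)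
      (Finset.prod_pos fun l _ => b1_tilt_pos _ _)) Finset.univ_nonempty
  have h1 : ∀ j, Real.exp (siteMessage (θs j) (fun l => x (j, l)) ε) =
      ∑ s' : Fin (p - 1) → Bool, Real.exp (θs j (ext s' ε)) *
        ∏ l, Crest.ProbabilityR.Diluted.tilt (x (j, l)) (s' l) := fun j => Real.exp_log (hpos j)
  rw [Real.exp_add, Real.exp_sum]
  simp only [h1]
  rw [Finset.prod_univ_sum, Fintype.piFinset_univ, Finset.mul_sum, Finset.mul_sum,
    ← (Equiv.curry (Fin k) (Fin (p - 1)) Bool).sum_comp]
  refine Finset.sum_congr rfl fun s _ => ?_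
  rw [Real.exp_add, Real.exp_sum, Finset.prod_mul_distrib, Fintype.prod_prod_type]
  have hc : ∀ j, Equiv.curry (Fin k) (Fin (p - 1)) Bool s j = fun l => s (j, l) := fun _ => rfl
  simp only [hc]
  ring

/-- The exact identity. -/
theorem trialFunctional_eq_Pfin {p : ℕ} (α : ℝ) (μ : Measure (Inter p)) (ν : Measure ℝ) {r : ℕ}
    {m : ℕ → ℝ} (hm : Exps m) {mm : Fin r → ℝ} (hmm : RevExp m mm) {Lab : Sys Bool}
    (hL : Prob (r + 2) Lab) {X : (Fin (r + 1) → unitInterval) → ℝ} (hX : Rep (r + 1) Lab X) :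
    trialFunctional p α μ ν r mm X = Pfin p α μ ν m r Lab := by
  have _ := hL
  unfold trialFunctional Pfin
  have h1 : ∀ (k : ℕ) (θs : Fin k → Inter p) (h : ℝ),
      ∫ u, Real.log (powerMeans mm
          (fun u' : (Fin k × Fin (p - 1)) → Fin (r + 1) → unitInterval =>
            siteTerm h θs (fun j ℓ => X (u' (j, ℓ)))) u)
        ∂(uniformArrays (Fin k × Fin (p - 1)) r) = labLog m r Lab (siteV h θs) := by
    intro k θs h
    rw [← b1_integral_eq_labLog hm.zero (siteV h θs) hmm hX]
    simp only [← b1_siteTerm]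
  have h2 : ∀ θ : Inter p, ∫ u, Real.log (powerMeans mm
          (fun u' : Fin p → Fin (r + 1) → unitInterval => edgeTerm θ (fun ℓ => X (u' ℓ))) u)
        ∂(uniformArrays (Fin p) r) =
      labLog m r Lab (fun s : Fin p → Bool => Real.exp (θ s)) := by
    intro θ
    rw [← b1_integral_eq_labLog hm.zero _ hmm hX]
    simp only [b1_edgeTerm]
  simp only [h1, h2]

theorem bridge1 {p : ℕ} (α : ℝ) (μ : Measure (Inter p)) (ν : Measure ℝ) {r : ℕ} {m : ℕ → ℝ}
    (hm : Exps m) (hstrict : ∀ d, d < r → m (d + 1) < m d) {Lab : Sys Bool}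
    (hL : Prob (r + 2) Lab) (hF : Full (r + 1) Lab) :
    ∃ (mm : Fin r → ℝ) (X : (Fin (r + 1) → unitInterval) → ℝ),
      AdmissibleExponents mm ∧ Measurable X ∧
      Pfin p α μ ν m r Lab = trialFunctional p α μ ν r mm X := by
  obtain ⟨X, hX⟩ := exists_rep hL hF
  have hlt : ∀ a b, a < b → b ≤ r → m b < m a := fun a b hab hb =>
    (hm.anti (Nat.succ_le_of_lt hab)).trans_lt (hstrict a (hab.trans_le hb))
  refine ⟨fun l => m (r - l), X, ⟨fun l l' hll => ?_, fun l => ⟨hm.pos _, ?_⟩⟩, hX.measurable,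
    (trialFunctional_eq_Pfin α μ ν hm (fun _ => rfl) hL hX).symm⟩
  · have h1 : (l : ℕ) < l' := hll
    have h2 := l'.isLt
    exact hlt _ _ (by omega) (by omega)
  · have h2 := l.isLt
    rw [← hm.zero]
    exact hlt _ _ (by omega) (by omega)

end Crest.Agent.R141
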