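import Crest.Agent.R141.Bridge2Aux

/-! Row 141, module G2: every measurable trial law is approximated by finite label systems. -/

set_option autoImplicit false

namespace Crest.Agent.R141

open Finset Sys MeasureTheory Filter Topology Crest.ProbabilityR.Diluted

/-- A function of finitely many cells is represented by a finite system. -/
theorem b2_exists_rep {A : Type} [Fintype A] (φ : unitInterval → A)
    (hφ : ∀ i, MeasurableSet {v | φ v = i})
    (hpos : ∀ i, 0 < (volume {v : unitInterval | φ v = i}).toReal) (d : ℕ)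
    (g : (Fin d → A) → ℝ) :
    ∃ S : Sys Bool, Prob (d + 1) S ∧ Rep d S (fun u => g (fun j => φ (u j))) := by
  have hsum : ∑ i, (volume {v : unitInterval | φ v = i}).toReal = 1 := by
    have h1 := sum_measure_preimage_singleton (μ := (volume : Measure unitInterval)) (f := φ)
      (univ : Finset A) fun i _ => hφ i
    rw [← ENNReal.toReal_sum fun i _ => measure_ne_top _ _]
    have h2 : ∑ i, volume {v : unitInterval | φ v = i} = ∑ i, volume (φ ⁻¹' {i}) := rfl
    rw [h2, h1]
    simp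
  induction d with
  | zero =>
    refine ⟨node true Bool (fun b => Crest.ProbabilityR.Diluted.tilt (g Fin.elim0) b)
      (fun b => leaf b), ⟨fun b => b1_tilt_pos _ _, b2_tilt_sum _, fun _ => trivial⟩,
      fun u b => ?_⟩
    have e : (fun j => φ (u j)) = Fin.elim0 := Subsingleton.elim _ _
    change ∑ ω : Bool, Crest.ProbabilityR.Diluted.tilt (g Fin.elim0) ω *
      (if ω = b then 1 else 0) = Crest.ProbabilityR.Diluted.tilt (g fun j => φ (u j)) b
    rw [e]
    simp
  | succ d ih =>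
    choose S hS1 hS2 using fun a : A => ih (fun w => g (Fin.cons a w))
    refine ⟨node true A (fun i => (volume {v : unitInterval | φ v = i}).toReal) S,
      ⟨hpos, hsum, hS1⟩, φ, fun a u => g (Fin.cons a fun j => φ (u j)), hφ, fun _ => rfl, hS2,
      fun u => ?_⟩
    change g _ = g _
    congr 1
    funext j
    refine Fin.cases rfl (fun i => rfl) j

/-- the cell of a point -/
noncomputable def b2Cell (n : ℕ) (v : unitInterval) : Fin (n + 1) :=
  ⟨min ⌊((n : ℝ) + 1) * v⌋₊ n, Nat.lt_succ_of_le (min_le_right _ _)⟩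

/-- the left end of a cell -/
noncomputable def b2Pt (n : ℕ) (i : Fin (n + 1)) : unitInterval :=
  ⟨(i : ℕ) / ((n : ℝ) + 1), by positivity, by
    rw [div_le_one (by positivity)]
    exact_mod_cast i.2.le⟩

theorem b2_measurableSet_cell (n : ℕ) (i : Fin (n + 1)) : MeasurableSet {v | b2Cell n v = i} := by
  have h1 : Measurable fun v : unitInterval => min ⌊((n : ℝ) + 1) * v⌋₊ n :=
    (Measurable.nat_floor (by fun_prop)).min measurable_const
  have : {v | b2Cell n v = i} = (fun v : unitInterval => min ⌊((n : ℝ) + 1) * v⌋₊ n) ⁻¹' {i.val} := by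
    ext v
    simp only [b2Cell, Set.mem_ofPred_eq, Set.mem_preimage, Set.mem_singleton_iff, Fin.ext_iff]
  rw [this]
  exact h1 (measurableSet_singleton _)

theorem b2_cell_pos (n : ℕ) (i : Fin (n + 1)) :
    0 < (volume {v : unitInterval | b2Cell n v = i}).toReal := by
  refine ENNReal.toReal_pos (ne_of_gt ?_) (measure_ne_top _ _)
  have hn : (0 : ℝ) < (n : ℝ) + 1 := by positivity
  have hi : ((i : ℕ) : ℝ) + 1 ≤ (n : ℝ) + 1 := by exact_mod_cast i.2
  let y : unitInterval := ⟨(((i : ℕ) : ℝ) + 1) / ((n : ℝ) + 1), by positivity,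
    (div_le_one hn).2 hi⟩
  have h0 : 0 < volume (Set.Ioo (b2Pt n i) y) := by
    rw [unitInterval.volume_Ioo, ENNReal.ofReal_pos, sub_pos]
    exact div_lt_div_of_pos_right (by linarith) hn
  refine h0.trans_le (measure_mono ?_)
  · rintro v ⟨h1, h2⟩
    replace h1 : ((i : ℕ) : ℝ) < ((n : ℝ) + 1) * v := by
      have : ((i : ℕ) : ℝ) / ((n : ℝ) + 1) < v := h1
      rw [div_lt_iff₀ hn] at this
      linarith
    replace h2 : ((n : ℝ) + 1) * v < ((i : ℕ) : ℝ) + 1 := by
      have : (v : ℝ) < (((i : ℕ) : ℝ) + 1) / ((n : ℝ) + 1) := h2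
      rw [lt_div_iff₀ hn] at this
      linarith
    have : ⌊((n : ℝ) + 1) * v⌋₊ = i :=
      (Nat.floor_eq_iff ((Nat.cast_nonneg _).trans h1.le)).2 ⟨h1.le, h2⟩
    simp only [Set.mem_ofPred_eq, b2Cell, Fin.ext_iff, this]
    exact min_eq_left (Nat.le_of_lt_succ i.2)

theorem b2_dist_pt (n : ℕ) (v : unitInterval) :
    dist (b2Pt n (b2Cell n v)) v ≤ 1 / ((n : ℝ) + 1) := by
  have hn : (0 : ℝ) < (n : ℝ) + 1 := by positivity
  have h0 : 0 ≤ ((n : ℝ) + 1) * v := mul_nonneg hn.le v.2.1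
  have h1 : ((min ⌊((n : ℝ) + 1) * v⌋₊ n : ℕ) : ℝ) ≤ ((n : ℝ) + 1) * v :=
    (Nat.cast_le.2 (min_le_left _ _)).trans (Nat.floor_le h0)
  have h2 : ((n : ℝ) + 1) * v ≤ ((min ⌊((n : ℝ) + 1) * v⌋₊ n : ℕ) : ℝ) + 1 := by
    rcases min_choice ⌊((n : ℝ) + 1) * v⌋₊ n with h | h <;> rw [h]
    · exact (Nat.lt_floor_add_one _).le
    · nlinarith [v.2.2]
  change |((min ⌊((n : ℝ) + 1) * v⌋₊ n : ℕ) : ℝ) / ((n : ℝ) + 1) - v| ≤ _
  have e : ((min ⌊((n : ℝ) + 1) * v⌋₊ n : ℕ) : ℝ) / ((n : ℝ) + 1) - v =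
      (((min ⌊((n : ℝ) + 1) * v⌋₊ n : ℕ) : ℝ) - ((n : ℝ) + 1) * v) / ((n : ℝ) + 1) := by
    field_simp
  rw [e, abs_div, abs_of_pos hn]
  refine div_le_div_of_nonneg_right ?_ hn.le
  rw [abs_le]
  constructor <;> linarith

theorem b2_tendsto_pt (v : unitInterval) :
    Tendsto (fun n => b2Pt n (b2Cell n v)) atTop (𝓝 v) := by
  rw [tendsto_iff_dist_tendsto_zero]
  exact squeeze_zero (fun _ => dist_nonneg) (fun n => b2_dist_pt n v)
    tendsto_one_div_add_atTop_nhds_zero_nat

theorem b2_exists_exps {r : ℕ} {mm : Fin r → ℝ} (hmm : AdmissibleExponents mm) :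
    ∃ m : ℕ → ℝ, Exps m ∧ RevExp m mm := by
  let e : ℕ → ℝ := fun i => if h : i < r then mm ⟨i, h⟩ else 1
  have he : Monotone e := by
    intro i j hij
    simp only [e]
    split_ifs with h1 h2 h2
    · exact hmm.1.monotone hij
    · exact (hmm.2 _).2.le
    · omega
    · exact le_rfl
  refine ⟨fun d => e (r - d), ⟨fun d => ?_, fun a b hab => he (by omega), ?_⟩, fun l => ?_⟩
  · simp only [e]
    split_ifs
    · exact (hmm.2 _).1
    · exact one_pos
  · simp [e]
  · have : r - (r - l) = l := by have := l.2; omega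
    simp only [e, this, l.2, dif_pos]

theorem bridge2 {p : ℕ} {α : ℝ} (hα : 0 ≤ α) {μ : Measure (Inter p)} [IsProbabilityMeasure μ]
    {ν : Measure ℝ} [IsProbabilityMeasure ν] (hμ : Integrable (fun θ : Inter p => ‖θ‖) μ)
    (hν : Integrable (fun x : ℝ => x) ν) {r : ℕ} {mm : Fin r → ℝ} (hmm : AdmissibleExponents mm)
    {X : (Fin (r + 1) → unitInterval) → ℝ} (hX : Measurable X) {ε : ℝ} (hε : 0 < ε) :
    ∃ (m : ℕ → ℝ) (Lab : Sys Bool), Exps m ∧ Prob (r + 2) Lab ∧
      |trialFunctional p α μ ν r mm X - Pfin p α μ ν m r Lab| ≤ ε := by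
  obtain ⟨m, hm, hrev⟩ := b2_exists_exps hmm
  have hpos : ∀ i, 0 < mm i := fun i => (hmm.2 i).1
  let E : Set ℝ := closure {y | ∃ Lab : Sys Bool, Prob (r + 2) Lab ∧ y = Pfin p α μ ν m r Lab}
  let P : Measure (Fin (r + 1) → unitInterval) :=
    Measure.pi fun _ : Fin (r + 1) => (volume : Measure unitInterval)
  have hcl : ∀ (Yn : ℕ → (Fin (r + 1) → unitInterval) → ℝ) (Y : (Fin (r + 1) → unitInterval) → ℝ),
      (∀ n, Measurable (Yn n)) → Measurable Y →
      (∀ᵐ u ∂P, Tendsto (fun n => Yn n u) atTop (𝓝 (Y u))) →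
      (∀ n, trialFunctional p α μ ν r mm (Yn n) ∈ E) → trialFunctional p α μ ν r mm Y ∈ E :=
    fun Yn Y h1 h2 h3 h4 => isClosed_closure.mem_of_tendsto
      (b2_trial_tendsto hα hμ hν hpos h1 h2 h3) (Eventually.of_forall h4)
  -- continuous laws
  have hcont : ∀ Y : (Fin (r + 1) → unitInterval) → ℝ, Continuous Y →
      trialFunctional p α μ ν r mm Y ∈ E := by
    intro Y hY
    choose S hS1 hS2 using fun n : ℕ => b2_exists_rep (b2Cell n) (b2_measurableSet_cell n)
      (b2_cell_pos n) (r + 1) (fun w => Y (fun j => b2Pt n (w j)))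
    refine hcl (fun n u => Y (fun j => b2Pt n (b2Cell n (u j)))) Y (fun n => (hS2 n).measurable)
      hY.measurable (ae_of_all _ fun u => ?_) fun n => subset_closure ⟨S n, hS1 n, ?_⟩
    · exact (hY.tendsto u).comp (tendsto_pi_nhds.2 fun j => b2_tendsto_pt (u j))
    · exact trialFunctional_eq_Pfin α μ ν hm hrev (hS1 n) (hS2 n)
  -- integrable laws
  have hint : ∀ Y : (Fin (r + 1) → unitInterval) → ℝ, Measurable Y → Integrable Y P →
      trialFunctional p α μ ν r mm Y ∈ E := by
    intro Y hY hi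
    have hi' : MemLp Y 1 P := memLp_one_iff_integrable.2 hi
    choose g hg _ using fun n : ℕ => hi'.exists_boundedContinuous_eLpNorm_sub_le
      ENNReal.one_ne_top (ε := (n : ENNReal)⁻¹) (ENNReal.inv_ne_zero.2 (ENNReal.natCast_ne_top n))
    have h1 : TendstoInMeasure P (fun n => (g n : (Fin (r + 1) → unitInterval) → ℝ)) atTop Y := by
      refine tendstoInMeasure_of_tendsto_eLpNorm (p := 1) one_ne_zero
        (fun n => (g n).continuous.aestronglyMeasurable) hY.aestronglyMeasurable ?_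
      refine tendsto_of_tendsto_of_tendsto_of_le_of_le tendsto_const_nhds
        ENNReal.tendsto_inv_nat_nhds_zero (fun _ => zero_le) fun n => ?_
      rw [eLpNorm_sub_comm]
      exact hg n
    obtain ⟨ns, -, h2⟩ := h1.exists_seq_tendsto_ae
    exact hcl (fun n => g (ns n)) Y (fun n => (g (ns n)).continuous.measurable) hY h2
      fun n => hcont _ (g (ns n)).continuous
  -- truncation
  have hall : trialFunctional p α μ ν r mm X ∈ E := by
    have hmeas : ∀ n : ℕ, Measurable fun u => max (-(n : ℝ)) (min (n : ℝ) (X u)) :=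
      fun n => measurable_const.max (measurable_const.min hX)
    refine hcl (fun n u => max (-(n : ℝ)) (min (n : ℝ) (X u))) X hmeas hX
      (ae_of_all _ fun u => ?_) fun n => hint _ (hmeas n) ?_
    · refine tendsto_const_nhds.congr' ?_
      filter_upwards [tendsto_natCast_atTop_atTop.eventually_ge_atTop |X u|] with n hn
      have := abs_le.1 hn
      rw [min_eq_right this.2, max_eq_right this.1]
    · refine Integrable.of_mem_Icc (-(n : ℝ)) n (hmeas n).aemeasurable (ae_of_all _ fun u => ?_)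
      exact ⟨le_max_left _ _, max_le (by linarith [Nat.cast_nonneg (α := ℝ) n]) (min_le_left _ _)⟩
  obtain ⟨y, ⟨Lab, hL, rfl⟩, hy⟩ := Metric.mem_closure_iff.1 hall ε hε
  exact ⟨m, Lab, hm, hL, by rw [← Real.dist_eq]; exact hy.le⟩

end Crest.Agent.R141
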