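import Crest.Agent.R141.Bridge1

/-! Row 141, module G2 (auxiliary): measurability, bounds and a.e. continuity of the nested power
means, and of the trial functional. -/

set_option autoImplicit false

namespace Crest.Agent.R141

open Finset Sys MeasureTheory Filter Topology Crest.ProbabilityR.Diluted

/-- the law of the uniforms of the labels `L`, `d` levels -/
noncomputable abbrev b2U (L : Type) [Fintype L] (d : ℕ) : Measure (L → Fin d → unitInterval) :=
  Measure.pi fun _ : L => Measure.pi fun _ : Fin d => (volume : Measure unitInterval)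

/-- one level -/
noncomputable abbrev b2V (L : Type) [Fintype L] : Measure (L → unitInterval) :=
  Measure.pi fun _ : L => (volume : Measure unitInterval)

theorem b2_measurable_cons (L : Type) (d : ℕ) :
    Measurable (fun z : (L → unitInterval) × (L → Fin d → unitInterval) =>
      (fun l => Fin.cons (z.1 l) (z.2 l) : L → Fin (d + 1) → unitInterval)) := by
  refine measurable_pi_lambda _ fun l => measurable_pi_lambda _ fun j => ?_
  refine Fin.cases ?_ (fun i => ?_) j
  · simp only [Fin.cons_zero]; fun_prop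
  · simp only [Fin.cons_succ]; fun_prop

theorem b2_mp_cons (L : Type) [Fintype L] (d : ℕ) :
    MeasurePreserving (fun z : (L → unitInterval) × (L → Fin d → unitInterval) =>
      (fun l => Fin.cons (z.1 l) (z.2 l) : L → Fin (d + 1) → unitInterval))
      ((b2V L).prod (b2U L d)) (b2U L (d + 1)) := by
  have h1 := (measurePreserving_arrowProdEquivProdArrow unitInterval (Fin d → unitInterval) L
    (fun _ => (volume : Measure unitInterval))
    (fun _ => Measure.pi fun _ : Fin d => (volume : Measure unitInterval))).symm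
  have h2 := (measurePreserving_piFinSuccAbove
    (fun _ : Fin (d + 1) => (volume : Measure unitInterval)) 0).symm
  have h3 := measurePreserving_pi (fun _ : L => _) (fun _ : L => _) (fun _ => h2)
  have h4 := h3.comp h1
  convert h4 using 1
  funext z l
  simp [MeasurableEquiv.piFinSuccAbove, MeasurableEquiv.arrowProdEquivProdArrow,
    Equiv.arrowProdEquivProdArrow, Fin.insertNthEquiv]

theorem b2_measurable_PM {L : Type} [Fintype L] (d : ℕ) (m : Fin d → ℝ) {Ω : Type}
    [MeasurableSpace Ω] (W : Ω → (L → Fin d → unitInterval) → ℝ)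
    (hW : Measurable fun z : Ω × (L → Fin d → unitInterval) => W z.1 z.2) :
    Measurable fun ω => PM d m (W ω) := by
  induction d generalizing Ω with
  | zero => exact hW.comp (measurable_id.prodMk measurable_const)
  | succ d ih =>
    have h1 : Measurable fun q : Ω × (L → unitInterval) =>
        PM d (Fin.tail m) (fun u' => W q.1 (fun l => Fin.cons (q.2 l) (u' l))) := by
      refine ih (Fin.tail m) (fun (q : Ω × (L → unitInterval)) u' =>
        W q.1 (fun l => Fin.cons (q.2 l) (u' l))) ?_
      exact hW.comp ((measurable_fst.comp measurable_fst).prodMk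
        ((b2_measurable_cons L d).comp ((measurable_snd.comp measurable_fst).prodMk measurable_snd)))
    have h2 := (h1.pow_const (m 0)).stronglyMeasurable.integral_prod_right' (ν := b2V L)
    exact h2.measurable.pow_const _

theorem b2_measurable_PM_cons {L : Type} [Fintype L] (d : ℕ) (m : Fin d → ℝ)
    {W : (L → Fin (d + 1) → unitInterval) → ℝ} (hW : Measurable W) :
    Measurable fun v : L → unitInterval =>
      PM d m (fun u' => W (fun l => Fin.cons (v l) (u' l))) :=
  b2_measurable_PM d m (fun (v : L → unitInterval) u' => W (fun l => Fin.cons (v l) (u' l)))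
    (hW.comp (b2_measurable_cons L d))

theorem b2_measurable_slice {L : Type} [Fintype L] (d : ℕ)
    {W : (L → Fin (d + 1) → unitInterval) → ℝ} (hW : Measurable W) (v : L → unitInterval) :
    Measurable fun u' : L → Fin d → unitInterval => W (fun l => Fin.cons (v l) (u' l)) :=
  hW.comp ((b2_measurable_cons L d).comp (measurable_const.prodMk measurable_id))

theorem b2_integral_mem {Ω : Type} [MeasurableSpace Ω] (P : Measure Ω) [IsProbabilityMeasure P]
    {f : Ω → ℝ} (hf : Measurable f) {a b : ℝ} (h : ∀ x, a ≤ f x ∧ f x ≤ b) :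
    a ≤ ∫ x, f x ∂P ∧ ∫ x, f x ∂P ≤ b := by
  have hi : Integrable f P := Integrable.of_mem_Icc a b hf.aemeasurable (ae_of_all _ h)
  constructor
  · simpa using integral_mono (integrable_const a) hi fun x => (h x).1
  · simpa using integral_mono hi (integrable_const b) fun x => (h x).2

theorem b2_PM_mem {L : Type} [Fintype L] (d : ℕ) (m : Fin d → ℝ) (hm : ∀ i, 0 < m i)
    {W : (L → Fin d → unitInterval) → ℝ} (hW : Measurable W) {c C : ℝ} (hc : 0 < c)
    (h : ∀ u, c ≤ W u ∧ W u ≤ C) : c ≤ PM d m W ∧ PM d m W ≤ C := by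
  induction d with
  | zero => exact h _
  | succ d ih =>
    have hm0 := hm 0
    have h1 : ∀ v : L → unitInterval,
        c ≤ PM d (Fin.tail m) (fun u' => W (fun l => Fin.cons (v l) (u' l))) ∧
        PM d (Fin.tail m) (fun u' => W (fun l => Fin.cons (v l) (u' l))) ≤ C := fun v =>
      ih (Fin.tail m) (fun i => hm i.succ) (b2_measurable_slice d hW v) fun _ => h _
    have h2 := b2_integral_mem (b2V L) ((b2_measurable_PM_cons d (Fin.tail m) hW).pow_const (m 0))
      (a := c ^ m 0) (b := C ^ m 0) fun v =>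
        ⟨Real.rpow_le_rpow hc.le (h1 v).1 hm0.le,
          Real.rpow_le_rpow (hc.le.trans (h1 v).1) (h1 v).2 hm0.le⟩
    have hC : 0 ≤ C := hc.le.trans ((h1 fun _ => 0).1.trans (h1 fun _ => 0).2)
    rw [PM_succ, one_div]
    constructor
    · calc c = (c ^ m 0) ^ (m 0)⁻¹ := (Real.rpow_rpow_inv hc.le hm0.ne').symm
        _ ≤ _ := Real.rpow_le_rpow (by positivity) h2.1 (by positivity)
    · calc _ ≤ (C ^ m 0) ^ (m 0)⁻¹ :=
            Real.rpow_le_rpow ((by positivity : 0 ≤ c ^ m 0).trans h2.1) h2.2 (by positivity)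
        _ = C := Real.rpow_rpow_inv hC hm0.ne'

theorem b2_ae_cons {L : Type} [Fintype L] (d : ℕ) {P : (L → Fin (d + 1) → unitInterval) → Prop}
    (h : ∀ᵐ u ∂b2U L (d + 1), P u) :
    ∀ᵐ v ∂b2V L, ∀ᵐ u' ∂b2U L d, P (fun l => Fin.cons (v l) (u' l)) :=
  Measure.ae_ae_of_ae_prod ((b2_mp_cons L d).quasiMeasurePreserving.ae h)

theorem b2_PM_tendsto {L : Type} [Fintype L] (d : ℕ) (m : Fin d → ℝ) (hm : ∀ i, 0 < m i)
    {Wn : ℕ → (L → Fin d → unitInterval) → ℝ} {W : (L → Fin d → unitInterval) → ℝ}
    (hWn : ∀ n, Measurable (Wn n)) {c C : ℝ} (hc : 0 < c)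
    (h : ∀ n u, c ≤ Wn n u ∧ Wn n u ≤ C)
    (hlim : ∀ᵐ u ∂b2U L d, Tendsto (fun n => Wn n u) atTop (𝓝 (W u))) :
    Tendsto (fun n => PM d m (Wn n)) atTop (𝓝 (PM d m W)) := by
  induction d with
  | zero =>
    obtain ⟨u, hu⟩ := hlim.exists
    have : u = fun _ => Fin.elim0 := Subsingleton.elim _ _
    rw [this] at hu
    exact hu
  | succ d ih =>
    have hm0 := hm 0
    simp only [PM_succ]
    refine Tendsto.rpow_const ?_ (Or.inr (by positivity))
    refine tendsto_integral_of_dominated_convergence (fun _ => C ^ m 0)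
      (fun n => ((b2_measurable_PM_cons d (Fin.tail m) (hWn n)).pow_const (m 0)).aestronglyMeasurable)
      (integrable_const _) (fun n => ae_of_all _ fun v => ?_) ?_
    · have h1 := b2_PM_mem d (Fin.tail m) (fun i => hm i.succ) (b2_measurable_slice d (hWn n) v) hc
        fun u' => h n (fun l => Fin.cons (v l) (u' l))
      have h0 := hc.le.trans h1.1
      rw [Real.norm_eq_abs, abs_of_nonneg (Real.rpow_nonneg h0 _)]
      exact Real.rpow_le_rpow h0 h1.2 hm0.le
    · filter_upwards [b2_ae_cons d hlim] with v hv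
      refine Tendsto.rpow_const ?_ (Or.inr hm0.le)
      exact ih (Fin.tail m) (fun i => hm i.succ) (fun n => b2_measurable_slice d (hWn n) v)
        (fun n u' => h n _) hv

/-! ### the inner functional -/

theorem b2_tilt_sum (x : ℝ) : ∑ s : Bool, Crest.ProbabilityR.Diluted.tilt x s = 1 := by
  have := Real.cosh_pos x
  simp only [Fintype.sum_bool, Crest.ProbabilityR.Diluted.tilt, spinVal, if_true,
    Bool.false_eq_true, if_false, mul_one, mul_neg]
  rw [← add_div, div_eq_one_iff_eq (by positivity), Real.cosh_eq]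
  ring

theorem b2_continuous_tilt (s : Bool) :
    Continuous fun x => Crest.ProbabilityR.Diluted.tilt x s := by
  unfold Crest.ProbabilityR.Diluted.tilt
  refine Continuous.div (by fun_prop) (by fun_prop) fun x => ?_
  have := Real.cosh_pos x
  positivity

theorem b2_b1W_mem {L : Type} [Fintype L] [DecidableEq L] {V : (L → Bool) → ℝ} {c C : ℝ}
    (h : ∀ s, c ≤ V s ∧ V s ≤ C) (x : L → ℝ) : c ≤ b1W V x ∧ b1W V x ≤ C := by
  have hs : ∑ s : L → Bool, ∏ l, Crest.ProbabilityR.Diluted.tilt (x l) (s l) = 1 := by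
    have := Finset.prod_univ_sum (fun _ : L => (univ : Finset Bool))
      (fun l b => Crest.ProbabilityR.Diluted.tilt (x l) b)
    rw [Fintype.piFinset_univ] at this
    rw [← this]
    exact prod_eq_one fun l _ => b2_tilt_sum _
  have hp : ∀ s : L → Bool, 0 ≤ ∏ l, Crest.ProbabilityR.Diluted.tilt (x l) (s l) :=
    fun s => prod_nonneg fun l _ => (b1_tilt_pos _ _).le
  unfold b1W
  constructor
  · calc c = ∑ s : L → Bool, (∏ l, Crest.ProbabilityR.Diluted.tilt (x l) (s l)) * c := by
          rw [← sum_mul, hs, one_mul]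
      _ ≤ _ := sum_le_sum fun s _ => mul_le_mul_of_nonneg_left (h s).1 (hp s)
  · calc _ ≤ ∑ s : L → Bool, (∏ l, Crest.ProbabilityR.Diluted.tilt (x l) (s l)) * C :=
          sum_le_sum fun s _ => mul_le_mul_of_nonneg_left (h s).2 (hp s)
      _ = C := by rw [← sum_mul, hs, one_mul]

theorem b2_continuous_b1W {L : Type} [Fintype L] [DecidableEq L] :
    Continuous fun z : ((L → Bool) → ℝ) × (L → ℝ) => b1W z.1 z.2 := by
  unfold b1W
  refine continuous_finsetSum _ fun s _ => Continuous.mul ?_ (by fun_prop)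
  exact continuous_finsetProd _ fun l _ => (b2_continuous_tilt (s l)).comp (by fun_prop)

theorem b2_measurable_b1W {L : Type} [Fintype L] [DecidableEq L] {Ω : Type} [MeasurableSpace Ω]
    {V : Ω → (L → Bool) → ℝ} {x : Ω → L → ℝ} (hV : Measurable V) (hx : Measurable x) :
    Measurable fun ω => b1W (V ω) (x ω) := by
  have := (b2_continuous_b1W (L := L)).measurable.comp (hV.prodMk hx)
  simpa only [Function.comp_def] using this

theorem b2_tendsto_b1W {L : Type} [Fintype L] [DecidableEq L] (V : (L → Bool) → ℝ)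
    {xn : ℕ → L → ℝ} {x : L → ℝ} (h : Tendsto xn atTop (𝓝 x)) :
    Tendsto (fun n => b1W V (xn n)) atTop (𝓝 (b1W V x)) := by
  have := ((b2_continuous_b1W (L := L)).tendsto (V, x)).comp
    ((tendsto_const_nhds (x := V)).prodMk_nhds h)
  simpa only [Function.comp_def] using this

/-- `E log T₀ W` for the average `W` of `V` against the messages -/
noncomputable def b2H {L : Type} [Fintype L] [DecidableEq L] {r : ℕ} (mm : Fin r → ℝ)
    (X : (Fin (r + 1) → unitInterval) → ℝ) (V : (L → Bool) → ℝ) : ℝ :=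
  ∫ v, Real.log (PM r mm (fun u' => b1W V (fun l => X (Fin.cons (v l) (u' l))))) ∂(b2V L)

theorem b2_measurable_W {L : Type} [Fintype L] [DecidableEq L] {d : ℕ}
    {X : (Fin d → unitInterval) → ℝ} (hX : Measurable X) (V : (L → Bool) → ℝ) :
    Measurable fun u : L → Fin d → unitInterval => b1W V (fun l => X (u l)) :=
  b2_measurable_b1W measurable_const
    (measurable_pi_lambda _ fun l => hX.comp (measurable_pi_apply l))

theorem b2_integral_eq {L : Type} [Fintype L] [DecidableEq L] {r : ℕ} (mm : Fin r → ℝ)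
    {X : (Fin (r + 1) → unitInterval) → ℝ} (hX : Measurable X) (V : (L → Bool) → ℝ) :
    ∫ u, Real.log (powerMeans mm (fun u' : L → Fin (r + 1) → unitInterval =>
      b1W V (fun l => X (u' l))) u) ∂(uniformArrays L r) = b2H mm X V := by
  simp only [powerMeans_eq_PM]
  have hmp : MeasurePreserving (fun (u : L → Fin (r + 1) → unitInterval) l => u l 0)
      (uniformArrays L r) (b2V L) :=
    measurePreserving_pi _ _ fun _ =>
      measurePreserving_eval (fun _ : Fin (r + 1) => (volume : Measure unitInterval)) 0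
  have hm := (b2_measurable_PM_cons r mm (b2_measurable_W hX V)).log
  unfold b2H
  rw [← hmp.map_eq, integral_map hmp.measurable.aemeasurable hm.aestronglyMeasurable]

theorem b2_measurable_H {L : Type} [Fintype L] [DecidableEq L] {r : ℕ} (mm : Fin r → ℝ)
    {X : (Fin (r + 1) → unitInterval) → ℝ} (hX : Measurable X) :
    Measurable (b2H (L := L) mm X) := by
  have h1 : Measurable fun q : ((L → Bool) → ℝ) × (L → unitInterval) =>
      PM r mm (fun u' => b1W q.1 (fun l => X (Fin.cons (q.2 l) (u' l)))) := by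
    refine b2_measurable_PM r mm
      (fun (q : ((L → Bool) → ℝ) × (L → unitInterval)) u' =>
        b1W q.1 (fun l => X (Fin.cons (q.2 l) (u' l)))) ?_
    refine b2_measurable_b1W (measurable_fst.comp measurable_fst)
      (measurable_pi_lambda _ fun l => hX.comp ?_)
    exact (measurable_pi_apply l).comp ((b2_measurable_cons L r).comp
      ((measurable_snd.comp measurable_fst).prodMk measurable_snd))
  exact (h1.log.stronglyMeasurable.integral_prod_right' (ν := b2V L)).measurable

theorem b2_exp_bounds {L : Type} {V : (L → Bool) → ℝ} {c : ℝ} (hV : ∀ s, 0 < V s)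
    (h : ∀ s, |Real.log (V s)| ≤ c) (s : L → Bool) : Real.exp (-c) ≤ V s ∧ V s ≤ Real.exp c := by
  have := abs_le.1 (h s)
  rw [← Real.exp_log (hV s)]
  exact ⟨Real.exp_le_exp.2 this.1, Real.exp_le_exp.2 this.2⟩

theorem b2_abs_log_le {x c : ℝ} (h : Real.exp (-c) ≤ x ∧ x ≤ Real.exp c) : |Real.log x| ≤ c := by
  have h0 : 0 < x := (Real.exp_pos _).trans_le h.1
  rw [abs_le]
  exact ⟨(Real.le_log_iff_exp_le h0).2 h.1, (Real.log_le_iff_le_exp h0).2 h.2⟩

theorem b2_abs_H_le {L : Type} [Fintype L] [DecidableEq L] {r : ℕ} {mm : Fin r → ℝ}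
    (hm : ∀ i, 0 < mm i) {X : (Fin (r + 1) → unitInterval) → ℝ} (hX : Measurable X)
    {V : (L → Bool) → ℝ} {c : ℝ} (hV : ∀ s, 0 < V s) (h : ∀ s, |Real.log (V s)| ≤ c) :
    |b2H mm X V| ≤ c := by
  rw [abs_le]
  refine b2_integral_mem (b2V L) (b2_measurable_PM_cons r mm (b2_measurable_W hX V)).log
    fun v => abs_le.1 (b2_abs_log_le ?_)
  exact b2_PM_mem r mm hm (b2_measurable_slice r (b2_measurable_W hX V) v) (Real.exp_pos _)
    fun u' => b2_b1W_mem (b2_exp_bounds hV h) _

theorem b2_H_tendsto {L : Type} [Fintype L] [DecidableEq L] {r : ℕ} {mm : Fin r → ℝ}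
    (hm : ∀ i, 0 < mm i) {Xn : ℕ → (Fin (r + 1) → unitInterval) → ℝ}
    {X : (Fin (r + 1) → unitInterval) → ℝ} (hXn : ∀ n, Measurable (Xn n)) (hX : Measurable X)
    (hlim : ∀ᵐ u ∂(Measure.pi fun _ : Fin (r + 1) => (volume : Measure unitInterval)),
      Tendsto (fun n => Xn n u) atTop (𝓝 (X u)))
    {V : (L → Bool) → ℝ} (hV : ∀ s, 0 < V s) :
    Tendsto (fun n => b2H mm (Xn n) V) atTop (𝓝 (b2H mm X V)) := by
  obtain ⟨c, h⟩ : ∃ c, ∀ s, |Real.log (V s)| ≤ c :=
    ⟨∑ s, |Real.log (V s)|, fun s =>
      single_le_sum (f := fun s => |Real.log (V s)|) (fun _ _ => abs_nonneg _) (mem_univ s)⟩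
  have hb := b2_exp_bounds hV h
  have h1 : ∀ᵐ u ∂b2U L (r + 1), Tendsto (fun n => b1W V (fun l => Xn n (u l))) atTop
      (𝓝 (b1W V (fun l => X (u l)))) := by
    have h2 : ∀ᵐ u ∂b2U L (r + 1), ∀ l, Tendsto (fun n => Xn n (u l)) atTop (𝓝 (X (u l))) :=
      ae_all_iff.2 fun l => (measurePreserving_eval (fun _ : L =>
        Measure.pi fun _ : Fin (r + 1) => (volume : Measure unitInterval)) l).quasiMeasurePreserving.ae
          hlim
    filter_upwards [h2] with u hu
    exact b2_tendsto_b1W V (tendsto_pi_nhds.2 hu)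
  refine tendsto_integral_of_dominated_convergence (fun _ => c)
    (fun n => (b2_measurable_PM_cons r mm (b2_measurable_W (hXn n) V)).log.aestronglyMeasurable)
    (integrable_const _) (fun n => ae_of_all _ fun v => ?_) ?_
  · exact b2_abs_log_le (b2_PM_mem r mm hm (b2_measurable_slice r (b2_measurable_W (hXn n) V) v)
      (Real.exp_pos _) fun u' => b2_b1W_mem hb _)
  · filter_upwards [b2_ae_cons r h1] with v hv
    refine Tendsto.log ?_ ?_
    · exact b2_PM_tendsto r mm hm
        (fun n => b2_measurable_slice r (b2_measurable_W (hXn n) V) v) (Real.exp_pos (-c))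
        (fun n u' => b2_b1W_mem hb _) hv
    · exact ((Real.exp_pos _).trans_le (b2_PM_mem r mm hm
        (b2_measurable_slice r (b2_measurable_W hX V) v) (Real.exp_pos (-c))
        fun u' => b2_b1W_mem hb _).1).ne'

theorem b2_trial_eq {p : ℕ} (α : ℝ) (μ : Measure (Inter p)) (ν : Measure ℝ) {r : ℕ}
    (mm : Fin r → ℝ) {X : (Fin (r + 1) → unitInterval) → ℝ} (hX : Measurable X) :
    trialFunctional p α μ ν r mm X = Real.log 2 +
      (∑' k : ℕ, poissonWeight (α * p) k *
        ∫ θs, ∫ h, b2H mm X (siteV (k := k) h θs) ∂ν ∂(Measure.pi fun _ : Fin k => μ)) -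
      α * (p - 1 : ℝ) * ∫ θ, b2H mm X (fun s : Fin p → Bool => Real.exp (θ s)) ∂μ := by
  unfold trialFunctional
  simp only [← b2_integral_eq mm hX, ← b1_siteTerm, ← b1_edgeTerm]

theorem b2_continuous_siteV (p k : ℕ) :
    Continuous fun z : (Fin k → Inter p) × ℝ => siteV z.2 z.1 := by
  refine continuous_pi fun s => ?_
  unfold siteV
  fun_prop

/-- The trial functional is continuous along a.e. convergent sequences. -/
theorem b2_trial_tendsto {p : ℕ} {α : ℝ} (hα : 0 ≤ α) {μ : Measure (Inter p)}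
    [IsProbabilityMeasure μ] {ν : Measure ℝ} [IsProbabilityMeasure ν]
    (hμ : Integrable (fun θ : Inter p => ‖θ‖) μ) (hν : Integrable (fun x : ℝ => x) ν) {r : ℕ}
    {mm : Fin r → ℝ} (hm : ∀ i, 0 < mm i) {Xn : ℕ → (Fin (r + 1) → unitInterval) → ℝ}
    {X : (Fin (r + 1) → unitInterval) → ℝ} (hXn : ∀ n, Measurable (Xn n)) (hX : Measurable X)
    (hlim : ∀ᵐ u ∂(Measure.pi fun _ : Fin (r + 1) => (volume : Measure unitInterval)),
      Tendsto (fun n => Xn n u) atTop (𝓝 (X u))) :
    Tendsto (fun n => trialFunctional p α μ ν r mm (Xn n)) atTop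
      (𝓝 (trialFunctional p α μ ν r mm X)) := by
  simp only [fun n => b2_trial_eq α μ ν mm (hXn n), b2_trial_eq α μ ν mm hX]
  have hαp : 0 ≤ α * p := mul_nonneg hα (Nat.cast_nonneg p)
  refine Tendsto.sub (Tendsto.const_add _ ?_) (Tendsto.const_mul _ ?_)
  · have hmeas : ∀ (k : ℕ) {Y : (Fin (r + 1) → unitInterval) → ℝ}, Measurable Y →
        Measurable fun z : (Fin k → Inter p) × ℝ => b2H mm Y (siteV z.2 z.1) :=
      fun k Y hY => (b2_measurable_H mm hY).comp (b2_continuous_siteV p k).measurable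
    have hbd : ∀ (k : ℕ) {Y : (Fin (r + 1) → unitInterval) → ℝ}, Measurable Y →
        ∀ z : (Fin k → Inter p) × ℝ,
          ‖b2H mm Y (siteV z.2 z.1)‖ ≤ 0 + 1 * (|z.2| + ∑ j, ‖z.1 j‖) := by
      intro k Y hY z
      rw [zero_add, one_mul]
      exact b2_abs_H_le hm hY (siteV_pos _ _) (abs_log_siteV_le _ _)
    have hint : ∀ (k : ℕ) {Y : (Fin (r + 1) → unitInterval) → ℝ}, Measurable Y →
        Integrable (fun z : (Fin k → Inter p) × ℝ => b2H mm Y (siteV z.2 z.1))
          ((Measure.pi fun _ : Fin k => μ).prod ν) := fun k Y hY =>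
      (labLog_integrable_bound hμ hν (Fin k) 0 1).mono' (hmeas k hY).aestronglyMeasurable
        (ae_of_all _ (hbd k hY))
    have hprod : ∀ (k : ℕ) {Y : (Fin (r + 1) → unitInterval) → ℝ}, Measurable Y →
        ∫ θs, ∫ h, b2H mm Y (siteV (k := k) h θs) ∂ν ∂(Measure.pi fun _ : Fin k => μ) =
          ∫ z : (Fin k → Inter p) × ℝ, b2H mm Y (siteV z.2 z.1)
            ∂((Measure.pi fun _ : Fin k => μ).prod ν) := fun k Y hY =>
      (integral_prod _ (hint k hY)).symm
    simp only [fun k n => hprod k (hXn n), fun k => hprod k hX]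
    refine tendsto_tsum_of_dominated_convergence
      (bound := fun k => poissonWeight (α * p) k * ((∫ h, |h| ∂ν) + (∫ θ, ‖θ‖ ∂μ) * k))
      (labLog_hasSum_lin _ _ _).summable (fun k => Tendsto.const_mul _ ?_)
      (Eventually.of_forall fun n k => ?_)
    · exact tendsto_integral_of_dominated_convergence _
        (fun n => (hmeas k (hXn n)).aestronglyMeasurable) (labLog_integrable_bound hμ hν (Fin k) 0 1)
        (fun n => ae_of_all _ (hbd k (hXn n)))
        (ae_of_all _ fun z => b2_H_tendsto hm hXn hX hlim (siteV_pos _ _))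
    · rw [norm_mul, Real.norm_of_nonneg (poissonWeight_nonneg hαp k)]
      refine mul_le_mul_of_nonneg_left ?_ (poissonWeight_nonneg hαp k)
      refine (norm_integral_le_of_norm_le (labLog_integrable_bound hμ hν (Fin k) 0 1)
        (ae_of_all _ (hbd k (hXn n)))).trans (le_of_eq ?_)
      have h1 : Integrable (fun z : (Fin k → Inter p) × ℝ => |z.2|)
          ((Measure.pi fun _ : Fin k => μ).prod ν) := hν.abs.comp_snd _
      have h2 : Integrable (fun z : (Fin k → Inter p) × ℝ => ∑ j, ‖z.1 j‖)
          ((Measure.pi fun _ : Fin k => μ).prod ν) := (integrable_sum_norm hμ (Fin k)).comp_fst _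
      simp only [zero_add, one_mul]
      rw [integral_add h1 h2, integral_fun_snd (fun h : ℝ => |h|),
        integral_fun_fst (fun θs : Fin k → Inter p => ∑ j, ‖θs j‖), integral_sum_norm hμ]
      simp [mul_comm]
  · have hc : Continuous fun θ : Inter p => (fun s : Fin p → Bool => Real.exp (θ s)) := by
      fun_prop
    refine tendsto_integral_of_dominated_convergence (fun θ => ‖θ‖)
      (fun n => ((b2_measurable_H mm (hXn n)).comp hc.measurable).aestronglyMeasurable) hμ
      (fun n => ae_of_all _ fun θ => ?_)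
      (ae_of_all _ fun θ => b2_H_tendsto hm hXn hX hlim fun _ => Real.exp_pos _)
    refine b2_abs_H_le hm (hXn n) (fun _ => Real.exp_pos _) fun s => ?_
    rw [Real.log_exp]
    exact norm_le_pi_norm θ s

end Crest.Agent.R141
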