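import Crest.Agent.R141.Average

/-! Row 141, module F4: small variances of multi-overlaps make shared and independent copies
comparable. -/

set_option autoImplicit false

namespace Crest.Agent.R141

open Finset Sys

/-- Indicator observables. -/
def indObs {X I : Type} (spin : I → X → Bool) (i : I) (c : Bool) (x : X) : ℝ :=
  if spin i x = c then 1 else 0

theorem cmp_ind_nonneg {X I : Type} (spin : I → X → Bool) (i : I) (c : Bool) (x : X) :
    0 ≤ indObs spin i c x := by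
  unfold indObs; split_ifs <;> norm_num

theorem cmp_ind_le_one {X I : Type} (spin : I → X → Bool) (i : I) (c : Bool) (x : X) :
    indObs spin i c x ≤ 1 := by
  unfold indObs; split_ifs <;> norm_num

theorem cmp_abs_prod_sub {ι : Type} (s : Finset ι) (a b : ι → ℝ) (ha : ∀ i, |a i| ≤ 1)
    (hb : ∀ i, |b i| ≤ 1) : |∏ i ∈ s, a i - ∏ i ∈ s, b i| ≤ ∑ i ∈ s, |a i - b i| := by
  classical
  induction s using Finset.induction_on with
  | empty => simp
  | insert j s hj ih =>
    rw [prod_insert hj, prod_insert hj, sum_insert hj]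
    have e : a j * ∏ i ∈ s, a i - b j * ∏ i ∈ s, b i =
        (a j - b j) * ∏ i ∈ s, a i + b j * (∏ i ∈ s, a i - ∏ i ∈ s, b i) := by ring
    have h1 : |∏ i ∈ s, a i| ≤ 1 := by
      rw [abs_prod]
      exact prod_le_one (fun _ _ => abs_nonneg _) fun i _ => ha i
    rw [e]
    refine (abs_add_le _ _).trans (add_le_add ?_ ?_)
    · rw [abs_mul]; exact mul_le_of_le_one_right (abs_nonneg _) h1
    · rw [abs_mul]; exact (mul_le_of_le_one_left (abs_nonneg _) (hb j)).trans ih

theorem cmp_sum_sqrt {A : Type} [Fintype A] {w z : A → ℝ} (h0 : ∀ a, 0 ≤ w a) (h1 : ∑ a, w a ≤ 1)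
    {v : ℝ} (hv : ∑ a, w a * z a ^ 2 ≤ v) : ∑ a, w a * z a ≤ Real.sqrt v := by
  refine (le_abs_self _).trans (Real.abs_le_sqrt ?_)
  have h := Finset.sum_sq_le_sum_mul_sum_of_sq_le_mul (univ : Finset A) (r := fun a => w a * z a)
    (f := fun a => w a) (g := fun a => w a * z a ^ 2) (fun a _ => h0 a)
    (fun a _ => mul_nonneg (h0 a) (sq_nonneg _)) (fun a _ => le_of_eq (by ring))
  have h2 : 0 ≤ ∑ a, w a * z a ^ 2 := sum_nonneg fun a _ => mul_nonneg (h0 a) (sq_nonneg _)
  exact h.trans ((mul_le_of_le_one_left h2 h1).trans hv)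

/-- The variance of the site average under a product representation. -/
theorem cmp_Vr_repr {X Col I : Type} [Fintype I] {K d : ℕ} (τ : Shape Col K d) (S : Sys X)
    {Ω : Type} [Fintype Ω] (w : Ω → ℝ) (x : Ω → Shape.Leaf d τ → X) (hw : ∑ ω, w ω = 1)
    (hrep : ∀ a : Col → X → ℝ,
      Exp 1 S (Mom a d τ) = ∑ ω, w ω * ∏ l, a (Shape.col d τ l) (x ω l))
    (obs : I → Col → X → ℝ) :
    Vr obs (d + 1) S d τ = ∑ ω, w ω * (avg (fun i => ∏ l, obs i (Shape.col d τ l) (x ω l)) -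
      avg (fun i => Exp 1 S (Mom (obs i) d τ))) ^ 2 := by
  set r : I → Ω → ℝ := fun i ω => ∏ l, obs i (Shape.col d τ l) (x ω l) with hr
  have e0 : avg (fun i => Exp 1 S (Mom (obs i) d τ)) = ∑ ω, w ω * avg (fun i => r i ω) := by
    simp only [hrep]
    rw [avg_sum univ (fun ω i => w ω * r i ω)]
    simp only [avg_const_mul]
  have e1 : Vr obs (d + 1) S d τ = ∑ ω, w ω * avg (fun i => r i ω) ^ 2 -
      avg (fun i => Exp 1 S (Mom (obs i) d τ)) ^ 2 := by
    unfold Vr cv
    rw [Nat.add_sub_cancel_left]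
    simp only [avg_sub]
    congr 1
    · simp only [hrep, prod_mul_distrib]
      have : ∀ i, avg (fun i' => ∑ ω, w ω * (r i ω * r i' ω)) =
          ∑ ω, w ω * avg (fun i' => r i ω * r i' ω) := by
        intro i
        rw [avg_sum univ (fun ω i' => w ω * (r i ω * r i' ω))]
        simp only [avg_const_mul]
      show avg (fun i => avg (fun i' => ∑ ω, w ω * (r i ω * r i' ω))) = _
      simp only [this]
      rw [avg_sum univ (fun ω i => w ω * avg (fun i' => r i ω * r i' ω))]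
      refine sum_congr rfl fun ω _ => ?_
      rw [avg_const_mul, sq, avg_mul_avg]
    · rw [sq, avg_mul_avg]
  rw [e1]
  show _ = ∑ ω, w ω * (avg (fun i => r i ω) - avg (fun i => Exp 1 S (Mom (obs i) d τ))) ^ 2
  generalize avg (fun i => Exp 1 S (Mom (obs i) d τ)) = Rb at e0 ⊢
  have e2 : ∀ ω, w ω * (avg (fun i => r i ω) - Rb) ^ 2 =
      w ω * avg (fun i => r i ω) ^ 2 - 2 * Rb * (w ω * avg (fun i => r i ω)) + Rb ^ 2 * w ω :=
    fun ω => by ring
  simp only [e2, sum_add_distrib, sum_sub_distrib, ← mul_sum, ← e0, hw]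
  ring

theorem cmp_Vr_nonneg {X Col I : Type} [Fintype I] {K d : ℕ} (τ : Shape Col K d) {S : Sys X}
    (hS : Prob (d + 1) S) (obs : I → Col → X → ℝ) : 0 ≤ Vr obs (d + 1) S d τ := by
  obtain ⟨Ω, _, w, x, hw0, hw1, hrep⟩ := Exp_one_Mom_repr τ hS
  rw [cmp_Vr_repr τ S w x hw1 hrep]
  exact sum_nonneg fun ω _ => mul_nonneg (hw0 ω) (sq_nonneg _)

theorem cmp_Vr_map {X Col Col' I : Type} [Fintype I] {K d : ℕ} (φ : Col → Col')
    (τ : Shape Col K d) (D : ℕ) (S : Sys X) (obs : I → Col' → X → ℝ) :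
    Vr obs D S d (Shape.map φ d τ) = Vr (fun i c => obs i (φ c)) D S d τ := by
  have e : ∀ a : Col' → X → ℝ, Mom a d (Shape.map φ d τ) = Mom (fun c => a (φ c)) d τ :=
    fun a => funext fun Q => Mom_map φ a d τ Q
  simp only [Vr, cv, e]

/-- Shared against independent copies, one shape. -/
theorem cmp_shape {X I Λ : Type} [Fintype I] [Nonempty I] [Fintype Λ] [DecidableEq Λ]
    (spin : I → X → Bool) {K d : ℕ} {S : Sys X} (hS : Prob (d + 1) S)
    (τ : Shape (Λ → Bool) K d) :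
    |avg (fun idx : Λ → I => Exp 1 S (Mom (fun c x => ∏ l, indObs spin (idx l) (c l) x) d τ)) -
      avg (fun idx : Λ → I => ∏ l, Exp 1 S (Mom (fun c x => indObs spin (idx l) (c l) x) d τ))| ≤
      ∑ l, Real.sqrt (Vr (indObs spin) (d + 1) S d (Shape.map (fun c => c l) d τ)) := by
  obtain ⟨Ω, _, w, x, hw0, hw1, hrep⟩ := Exp_one_Mom_repr τ hS
  set R : Λ → Ω → ℝ := fun l ω =>
    avg (fun i => ∏ k, indObs spin i (Shape.col d τ k l) (x ω k)) with hR
  set Rb : Λ → ℝ := fun l => avg (fun i => Exp 1 S (Mom (fun c x => indObs spin i (c l) x) d τ))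
    with hRb
  have habs : ∀ i c y, |indObs spin i c y| ≤ 1 := fun i c y => by
    rw [abs_of_nonneg (cmp_ind_nonneg spin i c y)]; exact cmp_ind_le_one spin i c y
  have hR1 : ∀ l ω, |R l ω| ≤ 1 := by
    intro l ω
    refine (abs_avg_le _).trans ((avg_mono (g := fun _ => 1) fun i => ?_).trans
      (avg_const 1).le)
    rw [abs_prod]
    exact prod_le_one (fun _ _ => abs_nonneg _) fun k _ => habs _ _ _
  have hRb1 : ∀ l, |Rb l| ≤ 1 := by
    intro l
    refine (abs_avg_le _).trans ((avg_mono (g := fun _ => 1) fun i => ?_).trans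
      (avg_const 1).le)
    exact abs_Exp_le_of_le (j := 1) (Prob.mono (b := d) hS)
      (fun ω => abs_Mom_le_one (a := fun (c : Λ → Bool) x => indObs spin i (c l) x)
        (fun c y => habs i (c l) y) τ (hS.2.2 ω))
  have e1 : avg (fun idx : Λ → I =>
      Exp 1 S (Mom (fun c x => ∏ l, indObs spin (idx l) (c l) x) d τ)) =
      ∑ ω, w ω * ∏ l, R l ω := by
    simp only [hrep]
    rw [avg_sum univ (fun ω (idx : Λ → I) =>
      w ω * ∏ k, ∏ l, indObs spin (idx l) (Shape.col d τ k l) (x ω k))]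
    refine sum_congr rfl fun ω _ => ?_
    rw [avg_const_mul]
    have e := avg_pi_prod (fun l i => ∏ k, indObs spin i (Shape.col d τ k l) (x ω k))
    have e' : (fun idx : Λ → I => ∏ k, ∏ l, indObs spin (idx l) (Shape.col d τ k l) (x ω k)) =
        fun idx : Λ → I => ∏ l, ∏ k, indObs spin (idx l) (Shape.col d τ k l) (x ω k) :=
      funext fun idx => prod_comm
    rw [e', e]
  have e2 : avg (fun idx : Λ → I =>
      ∏ l, Exp 1 S (Mom (fun c x => indObs spin (idx l) (c l) x) d τ)) = ∏ l, Rb l := by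
    have e := avg_pi_prod (fun (l : Λ) (i : I) =>
      Exp 1 S (Mom (fun (c : Λ → Bool) x => indObs spin i (c l) x) d τ))
    rw [e]
  rw [e1, e2]
  have e3 : ∑ ω, w ω * ∏ l, R l ω - ∏ l, Rb l = ∑ ω, w ω * (∏ l, R l ω - ∏ l, Rb l) := by
    simp only [mul_sub, sum_sub_distrib, ← sum_mul, hw1, one_mul]
  rw [e3]
  refine (abs_sum_le_sum_abs _ _).trans ?_
  have h4 : ∀ ω, |w ω * (∏ l, R l ω - ∏ l, Rb l)| ≤ ∑ l, w ω * |R l ω - Rb l| := by
    intro ω
    rw [abs_mul, abs_of_nonneg (hw0 ω), ← mul_sum]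
    exact mul_le_mul_of_nonneg_left (cmp_abs_prod_sub _ _ _ (fun l => hR1 l ω) hRb1) (hw0 ω)
  refine (sum_le_sum fun ω _ => h4 ω).trans ?_
  rw [sum_comm]
  refine sum_le_sum fun l _ => cmp_sum_sqrt hw0 hw1.le (le_of_eq ?_)
  rw [cmp_Vr_map, cmp_Vr_repr τ S w x hw1 hrep]
  refine sum_congr rfl fun ω _ => ?_
  rw [sq_abs]

theorem cmp_sum_ind {Λ : Type} [Fintype Λ] [DecidableEq Λ] (s : Λ → Bool) (y : (Λ → Bool) → ℝ) :
    ∑ c : Λ → Bool, y c * ∏ l, (if s l = c l then (1 : ℝ) else 0) = y s := by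
  simp only [← bp_ind_pi s]
  simp

/-- The expansion of the logarithm over shapes coloured by spin patterns. -/
theorem cmp_expand {Y Λ : Type} [Fintype Λ] [DecidableEq Λ] {m : ℕ → ℝ} (hm : Exps m)
    {K D' : ℕ} {S : Sys Y} (hS : Prob (D' + 1) S) {lam c εK : ℝ} (hlam : lam < 1)
    (hc : -Real.log (1 - lam) ≤ c) (hmc : m D' * c ≤ 1)
    (hK : ∀ (Q : Sys Y) (y : Y → ℝ), Prob D' Q → (∀ x, |y x| ≤ lam) →
      |Uf m D' Q y - UK m K D' Q y| ≤ εK)
    (V : (Λ → Bool) → ℝ) (hV : ∀ s, 1 - lam ≤ V s ∧ V s ≤ 1) (σ : Y → Λ → Bool) :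
    |Real.log (T m (D' + 1) S (fun Q => V (σ Q.val))) +
      (∑ τ : Shape (Λ → Bool) K D', wt m D' τ * Shape.lprod (fun c => 1 - V c) D' τ *
        Exp 1 S (Mom (fun c x => ∏ l, (if σ x l = c l then (1 : ℝ) else 0)) D' τ)) / m D'| ≤
      εK / m D' + m D' * c ^ 2 := by
  set y : Y → ℝ := fun x => 1 - V (σ x) with hy
  have hy1 : ∀ x, |y x| ≤ lam := fun x => by
    have := hV (σ x)
    rw [abs_le]; constructor <;> simp only [hy] <;> linarith [this.1, this.2]
  have eT : (fun Q : Sys Y => V (σ Q.val)) = fun L => 1 - y L.val := by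
    funext Q; simp [hy]
  have hb := T_bounds hm.pos hS (Φ := fun Q : Sys Y => V (σ Q.val)) (sub_pos.2 hlam)
    (allAt_of_forall _ _ fun Q => hV _)
  set t := T m (D' + 1) S (fun Q => V (σ Q.val)) with ht
  have ht0 : 0 < t := (sub_pos.2 hlam).trans_le hb.1
  have hlog : |Real.log t| ≤ c := by
    rw [abs_of_nonpos (Real.log_nonpos ht0.le hb.2)]
    have := Real.log_le_log (sub_pos.2 hlam) hb.1
    linarith
  have h1 := abs_log_add_div_le ht0 (hm.pos D') hlog hmc
  have h2 : 1 - t ^ m D' = ∑ ω, S.p ω * Uf m D' (S.ch ω) y := by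
    rw [ht, eT]
    exact one_sub_T_rpow hm hS fun x => (le_abs_self _).trans_lt ((hy1 x).trans_lt hlam)
  have h3 : ∑ τ : Shape (Λ → Bool) K D', wt m D' τ * Shape.lprod (fun c => 1 - V c) D' τ *
      Exp 1 S (Mom (fun c x => ∏ l, (if σ x l = c l then (1 : ℝ) else 0)) D' τ) =
      ∑ ω, S.p ω * UK m K D' (S.ch ω) y := by
    have ey : y = fun x => ∑ c : Λ → Bool, (1 - V c) * ∏ l, (if σ x l = c l then (1 : ℝ) else 0) :=
      funext fun x => (cmp_sum_ind (σ x) (fun c => 1 - V c)).symm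
    rw [ey]
    simp only [UK_eq_sum (K := K) (fun (c : Λ → Bool) x =>
      (1 - V c) * ∏ l, (if σ x l = c l then (1 : ℝ) else 0)), Mom_smul, Exp_one, mul_sum]
    rw [sum_comm]
    exact sum_congr rfl fun ω _ => sum_congr rfl fun τ _ => by ring
  have h4 : |∑ ω, S.p ω * UK m K D' (S.ch ω) y - ∑ ω, S.p ω * Uf m D' (S.ch ω) y| ≤ εK := by
    have := abs_Exp_le_of_le (j := 1) (Prob.mono (b := D') hS)
      (F := fun Q => UK m K D' Q y - Uf m D' Q y) (c := εK)
      (fun ω => (abs_sub_comm _ _).trans_le (hK _ y (hS.2.2 ω) hy1))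
    rwa [Exp_sub] at this
  rw [h3]
  rw [← h2] at h4
  have e : Real.log t + (∑ ω, S.p ω * UK m K D' (S.ch ω) y) / m D' =
      (∑ ω, S.p ω * UK m K D' (S.ch ω) y - (1 - t ^ m D')) / m D' +
        (Real.log t + (1 - t ^ m D') / m D') := by ring
  rw [e]
  refine (abs_add_le _ _).trans (add_le_add ?_ h1)
  rw [abs_div, abs_of_pos (hm.pos D')]
  exact div_le_div_of_nonneg_right h4 (hm.pos D').le

theorem cmp_mass {Y Λ : Type} [Fintype Λ] [DecidableEq Λ] {m : ℕ → ℝ} (hm : Exps m)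
    {K D' : ℕ} {S : Sys Y} (hS : Prob (D' + 1) S) (σ : Y → Λ → Bool) :
    ∑ τ : Shape (Λ → Bool) K D', wt m D' τ *
        Exp 1 S (Mom (fun c x => ∏ l, (if σ x l = c l then (1 : ℝ) else 0)) D' τ) ≤ 1 := by
  have h3 : ∑ τ : Shape (Λ → Bool) K D', wt m D' τ *
      Exp 1 S (Mom (fun c x => ∏ l, (if σ x l = c l then (1 : ℝ) else 0)) D' τ) =
      Exp 1 S (fun Q => UK m K D' Q (fun _ => 1)) := by
    have ey : (fun _ : Y => (1 : ℝ)) =
        fun x => ∑ c : Λ → Bool, ∏ l, (if σ x l = c l then (1 : ℝ) else 0) :=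
      funext fun x => by simpa only [one_mul] using (cmp_sum_ind (σ x) (fun _ => 1)).symm
    rw [ey]
    simp only [UK_eq_sum (K := K) (fun (c : Λ → Bool) x =>
      ∏ l, (if σ x l = c l then (1 : ℝ) else 0)), Exp_one, mul_sum]
    rw [sum_comm]
    exact sum_congr rfl fun ω _ => sum_congr rfl fun τ _ => by ring
  rw [h3]
  exact (le_abs_self _).trans (abs_Exp_le_of_le (j := 1) (Prob.mono (b := D') hS)
    (fun ω => abs_UK_le hm K (hS.2.2 ω) le_rfl (fun _ => by simp)))

theorem cmp_Exp_piProd {X Col Λ : Type} [Fintype Λ] [DecidableEq Λ] {K d : ℕ}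
    (a : Λ → Col → X → ℝ) (τ : Shape Col K d) (S : Λ → Sys X) :
    Exp 1 (piProd (d + 1) S) (Mom (fun c (x : Λ → X) => ∏ l, a l c (x l)) d τ) =
      ∏ l, Exp 1 (S l) (Mom (a l) d τ) := by
  show ∑ ω : (l : Λ) → (S l).ι, (∏ l, (S l).p (ω l)) *
    Mom (fun c (x : Λ → X) => ∏ l, a l c (x l)) d τ (piProd d (fun l => (S l).ch (ω l))) = _
  simp only [Mom_piProd, ← prod_mul_distrib]
  exact bp_sum_pi (fun l ω => (S l).p ω * Mom (a l) d τ ((S l).ch ω))

open Classical in
theorem cmp_push {Λ : Type} [Fintype Λ] [DecidableEq Λ] {m : ℕ → ℝ} (hm : Exps m) {K n L d : ℕ}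
    (hL : Fintype.card Λ ≤ L) (l : Λ) (z : Shape Bool K d → ℝ) (hz : ∀ τ, 0 ≤ z τ) {v : ℝ}
    (hv : ∑ τ : Shape Bool K d, (if Shape.size d τ ≤ n then wb m d τ * z τ else 0) ≤ v) :
    ∑ τ : Shape (Λ → Bool) K d, (if Shape.size d τ ≤ n then
      wt m d τ * Real.sqrt (z (Shape.map (fun c => c l) d τ)) else 0) ≤
      2 ^ (L * n + n) * Real.sqrt v := by
  have h1 := Shape.sum_map (K := K) (fun c : Λ → Bool => c l) (fun _ => (1 : ℝ)) d
    (fun τ => if Shape.size d τ ≤ n then wt m d τ * Real.sqrt (z τ) else 0)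
  simp only [Shape.lprod_const, one_pow, one_mul, Shape.size_map, wt_map] at h1
  rw [h1]
  have hco : ∀ c' : Bool, |∑ c : Λ → Bool, if c l = c' then (1 : ℝ) else 0| ≤ 2 ^ L := by
    intro c'
    refine (abs_sum_le_sum_abs _ _).trans ?_
    refine (sum_le_sum (g := fun _ => (1 : ℝ)) fun c _ => by split_ifs <;> simp).trans ?_
    simp only [sum_const, card_univ, Fintype.card_fun, Fintype.card_bool, nsmul_eq_mul, mul_one,
      Nat.cast_pow, Nat.cast_ofNat]
    exact pow_le_pow_right₀ (by norm_num) hL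
  have h2 : ∑ τ : Shape Bool K d, (if Shape.size d τ ≤ n then wb m d τ else 0) * Real.sqrt (z τ) ≤
      Real.sqrt v := by
    refine cmp_sum_sqrt (fun τ => ?_) (le_trans (sum_le_sum fun τ _ => ?_) (sum_wb_le_one hm d))
      (le_trans (le_of_eq (sum_congr rfl fun τ _ => ?_)) hv)
    · split_ifs
      · exact wb_nonneg hm d τ
      · exact le_rfl
    · split_ifs
      · exact le_rfl
      · exact wb_nonneg hm d τ
    · rw [Real.sq_sqrt (hz τ)]
      split_ifs <;> simp
  refine le_trans ?_ (mul_le_mul_of_nonneg_left h2 (by positivity))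
  rw [mul_sum]
  refine sum_le_sum fun τ _ => ?_
  split_ifs with hsz
  · have a1 := (le_abs_self _).trans (Shape.abs_lprod_le hco d τ)
    have a2 : ((2 : ℝ) ^ L) ^ Shape.size d τ ≤ (2 ^ L) ^ n :=
      pow_le_pow_right₀ (one_le_pow₀ (by norm_num)) hsz
    have a3 : wt m d τ ≤ 2 ^ n * wb m d τ := by
      have e : wt m d τ = 2 ^ Shape.size d τ * wb m d τ := by
        unfold wb
        rw [mul_left_comm, ← mul_pow]; norm_num
      rw [e]
      exact mul_le_mul_of_nonneg_right (pow_le_pow_right₀ (by norm_num) hsz) (wb_nonneg hm d τ)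
    have a4 := mul_le_mul (a1.trans a2) (mul_le_mul_of_nonneg_right a3 (Real.sqrt_nonneg (z τ)))
      (mul_nonneg (wt_nonneg hm d τ) (Real.sqrt_nonneg _)) (by positivity)
    refine a4.trans (le_of_eq ?_)
    rw [pow_add, pow_mul]; ring
  · simp

open Classical in
theorem compare {X I Λ : Type} [Fintype I] [Nonempty I] [Fintype Λ] [DecidableEq Λ]
    (spin : I → X → Bool) {m : ℕ → ℝ} (hm : Exps m) {K n L D' : ℕ} (hL : Fintype.card Λ ≤ L)
    {S : Sys X} (hS : Prob (D' + 1) S) {lam c εK v : ℝ} (hlam0 : 0 ≤ lam) (hlam : lam < 1)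
    (hc : -Real.log (1 - lam) ≤ c) (hmc : m D' * c ≤ 1)
    (hK : ∀ (Y : Type) (Q : Sys Y) (y : Y → ℝ), Prob D' Q → (∀ x, |y x| ≤ lam) →
      |Uf m D' Q y - UK m K D' Q y| ≤ εK)
    (hv : ∑ τ : Shape Bool K D', (if Shape.size D' τ ≤ n then
      wb m D' τ * Vr (indObs spin) (D' + 1) S D' τ else 0) ≤ v)
    (V : (Λ → Bool) → ℝ) (hV : ∀ s, 1 - lam ≤ V s ∧ V s ≤ 1) :
    |avg (fun idx : Λ → I =>
        Real.log (T m (D' + 1) S (fun Q => V (fun l => spin (idx l) Q.val)))) -
      avg (fun idx : Λ → I => Real.log (T m (D' + 1) (piProd (D' + 1) (fun _ : Λ => S))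
        (fun Q => V (fun l => spin (idx l) (Q.val l)))))| ≤
      (2 * εK + 2 * lam ^ (n + 1) + L * 2 ^ (L * n + n) * Real.sqrt v) / m D' +
        2 * (m D' * c ^ 2) := by
  have hS' : Prob (D' + 1) (piProd (D' + 1) (fun _ : Λ => S)) := prob_piProd fun _ => hS
  set A : (Λ → I) → Shape (Λ → Bool) K D' → ℝ := fun idx τ =>
    Exp 1 S (Mom (fun c x => ∏ l, indObs spin (idx l) (c l) x) D' τ) with hA
  set B : (Λ → I) → Shape (Λ → Bool) K D' → ℝ := fun idx τ =>
    ∏ l, Exp 1 S (Mom (fun c x => indObs spin (idx l) (c l) x) D' τ) with hB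
  have eB : ∀ idx τ, B idx τ = Exp 1 (piProd (D' + 1) (fun _ : Λ => S))
      (Mom (fun c (x : Λ → X) => ∏ l, (if spin (idx l) (x l) = c l then (1 : ℝ) else 0)) D' τ) :=
    fun idx τ => (cmp_Exp_piProd (fun l c x => indObs spin (idx l) (c l) x) τ (fun _ => S)).symm
  set W : Shape (Λ → Bool) K D' → ℝ := fun τ => wt m D' τ * Shape.lprod (fun c => 1 - V c) D' τ
    with hW
  have h1 : ∀ idx : Λ → I, |Real.log (T m (D' + 1) S (fun Q => V (fun l => spin (idx l) Q.val))) +
      (∑ τ, W τ * A idx τ) / m D'| ≤ εK / m D' + m D' * c ^ 2 := fun idx =>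
    cmp_expand hm hS hlam hc hmc (hK X) V hV (fun x l => spin (idx l) x)
  have h2 : ∀ idx : Λ → I, |Real.log (T m (D' + 1) (piProd (D' + 1) (fun _ : Λ => S))
      (fun Q => V (fun l => spin (idx l) (Q.val l)))) +
      (∑ τ, W τ * B idx τ) / m D'| ≤ εK / m D' + m D' * c ^ 2 := fun idx => by
    simp only [eB]
    exact cmp_expand hm hS' hlam hc hmc (hK (Λ → X)) V hV (fun x l => spin (idx l) (x l))
  have mA : ∀ idx, ∑ τ, wt m D' τ * A idx τ ≤ 1 := fun idx =>
    cmp_mass hm hS (fun x l => spin (idx l) x)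
  have mB : ∀ idx, ∑ τ, wt m D' τ * B idx τ ≤ 1 := fun idx => by
    simp only [eB]
    exact cmp_mass hm hS' (fun x l => spin (idx l) (x l))
  have hS1 : Prob 1 S := Prob.mono (b := D') hS
  have pA : ∀ idx τ, 0 ≤ A idx τ := fun idx τ => Exp_nonneg hS1 fun ω =>
    Mom_nonneg (fun c x => prod_nonneg fun l _ => cmp_ind_nonneg _ _ _ _) τ (hS.2.2 ω)
  have pB : ∀ idx τ, 0 ≤ B idx τ := fun idx τ => prod_nonneg fun l _ => Exp_nonneg hS1 fun ω =>
    Mom_nonneg (fun c x => cmp_ind_nonneg _ _ _ _) τ (hS.2.2 ω)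
  have havg : ∀ (w : Shape (Λ → Bool) K D' → ℝ) (F : (Λ → I) → Shape (Λ → Bool) K D' → ℝ),
      avg (fun idx => ∑ τ, w τ * F idx τ) = ∑ τ, w τ * avg (fun idx => F idx τ) := by
    intro w F
    rw [avg_sum univ (fun τ idx => w τ * F idx τ)]
    simp only [avg_const_mul]
  have mA' : ∑ τ, wt m D' τ * avg (fun idx => A idx τ) ≤ 1 := by
    rw [← havg]; exact (avg_mono mA).trans (avg_const 1).le
  have mB' : ∑ τ, wt m D' τ * avg (fun idx => B idx τ) ≤ 1 := by
    rw [← havg]; exact (avg_mono mB).trans (avg_const 1).le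
  have hlp : ∀ τ : Shape (Λ → Bool) K D',
      |Shape.lprod (fun c => 1 - V c) D' τ| ≤ lam ^ Shape.size D' τ :=
    Shape.abs_lprod_le (fun s => by
      have := hV s
      rw [abs_le]; constructor <;> linarith [this.1, this.2]) D'
  have main : |∑ τ, W τ * avg (fun idx => A idx τ) - ∑ τ, W τ * avg (fun idx => B idx τ)| ≤
      2 * lam ^ (n + 1) + L * 2 ^ (L * n + n) * Real.sqrt v := by
    rw [← sum_sub_distrib]
    refine (abs_sum_le_sum_abs _ _).trans ?_
    have hτ : ∀ τ, |W τ * avg (fun idx => A idx τ) - W τ * avg (fun idx => B idx τ)| ≤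
        lam ^ (n + 1) * (wt m D' τ * avg (fun idx => A idx τ) +
          wt m D' τ * avg (fun idx => B idx τ)) +
        ∑ l, (if Shape.size D' τ ≤ n then wt m D' τ *
          Real.sqrt (Vr (indObs spin) (D' + 1) S D' (Shape.map (fun c => c l) D' τ)) else 0) := by
      intro τ
      have w0 := wt_nonneg hm D' τ
      have a0 : 0 ≤ avg (fun idx => A idx τ) := avg_nonneg fun idx => pA idx τ
      have b0 : 0 ≤ avg (fun idx => B idx τ) := avg_nonneg fun idx => pB idx τ
      rw [← mul_sub, hW, abs_mul, abs_mul, abs_of_nonneg w0]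
      by_cases hsz : Shape.size D' τ ≤ n
      · simp only [if_pos hsz, ← mul_sum]
        have c1 : |Shape.lprod (fun c => 1 - V c) D' τ| ≤ 1 :=
          (hlp τ).trans (pow_le_one₀ hlam0 hlam.le)
        have c2 := mul_le_mul (mul_le_of_le_one_right w0 c1) (cmp_shape spin hS τ)
          (abs_nonneg _) w0
        exact c2.trans (le_add_of_nonneg_left (by positivity))
      · simp only [if_neg hsz, sum_const_zero, add_zero]
        have c1 : |Shape.lprod (fun c => 1 - V c) D' τ| ≤ lam ^ (n + 1) :=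
          (hlp τ).trans (pow_le_pow_of_le_one hlam0 hlam.le (by omega))
        have c2 : |avg (fun idx => A idx τ) - avg (fun idx => B idx τ)| ≤
            avg (fun idx => A idx τ) + avg (fun idx => B idx τ) := by
          rw [abs_le]; constructor <;> linarith
        have c3 := mul_le_mul (mul_le_mul_of_nonneg_left c1 w0) c2 (abs_nonneg _) (by positivity)
        exact c3.trans (le_of_eq (by ring))
    refine (sum_le_sum fun τ _ => hτ τ).trans ?_
    rw [sum_add_distrib, ← mul_sum, sum_add_distrib, sum_comm]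
    refine add_le_add ?_ ?_
    · have := mul_le_mul_of_nonneg_left (add_le_add mA' mB') (pow_nonneg hlam0 (n + 1))
      linarith
    · refine (sum_le_sum fun l _ => cmp_push hm hL l (fun τ => Vr (indObs spin) (D' + 1) S D' τ)
        (fun τ => cmp_Vr_nonneg τ hS _) hv).trans ?_
      rw [sum_const, card_univ, nsmul_eq_mul, mul_assoc]
      exact mul_le_mul_of_nonneg_right (by exact_mod_cast hL) (by positivity)
  have h1' := (abs_avg_le _).trans ((avg_mono h1).trans (avg_const _).le)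
  have h2' := (abs_avg_le _).trans ((avg_mono h2).trans (avg_const _).le)
  rw [avg_add] at h1' h2'
  have ediv : ∀ F : (Λ → I) → Shape (Λ → Bool) K D' → ℝ,
      avg (fun idx => (∑ τ, W τ * F idx τ) / m D') =
        (∑ τ, W τ * avg (fun idx => F idx τ)) / m D' := by
    intro F
    simp only [div_eq_inv_mul]
    rw [avg_const_mul, havg]
  rw [ediv] at h1' h2'
  have main' := div_le_div_of_nonneg_right main (hm.pos D').le
  rw [← abs_of_pos (hm.pos D'), ← abs_div, abs_of_pos (hm.pos D'), sub_div] at main'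
  have e : (2 * εK + 2 * lam ^ (n + 1) + L * 2 ^ (L * n + n) * Real.sqrt v) / m D' =
      2 * (εK / m D') + (2 * lam ^ (n + 1) + L * 2 ^ (L * n + n) * Real.sqrt v) / m D' := by ring
  rw [e]
  rw [abs_le] at h1' h2' main' ⊢
  constructor <;> linarith [h1'.1, h1'.2, h2'.1, h2'.2, main'.1, main'.2]

end Crest.Agent.R141
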