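import Crest.Agent.R141.CoreD
import Crest.Agent.R141.Compare

/-! Row 141, module F5: the hierarchical pinning theorem. -/

set_option autoImplicit false

namespace Crest.Agent.R141

open Finset Sys

theorem abs_indObs_le {X I : Type} (spin : I → X → Bool) (i : I) (c : Bool) (x : X) :
    |indObs spin i c x| ≤ 1 := by
  unfold indObs
  split_ifs <;> simp

theorem avg_log_T_mem {Y P : Type} [Fintype P] [Nonempty P] {m : ℕ → ℝ} (hm : Exps m) {d : ℕ}
    {S : Sys Y} (hS : Prob d S) {lam : ℝ} (hlam : lam < 1) (W : P → Y → ℝ)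
    (hW : ∀ u y, 1 - lam ≤ W u y ∧ W u y ≤ 1) :
    Real.log (1 - lam) ≤ avg (fun u => Real.log (T m d S (fun Q => W u Q.val))) ∧
      avg (fun u => Real.log (T m d S (fun Q => W u Q.val))) ≤ 0 := by
  have h : ∀ u, 1 - lam ≤ T m d S (fun Q => W u Q.val) ∧ T m d S (fun Q => W u Q.val) ≤ 1 :=
    fun u => T_bounds hm.pos hS (by linarith) (allAt_of_forall _ _ (fun Z => hW u _))
  constructor
  · refine (avg_const _).ge.trans (avg_mono (fun u => ?_))
    exact Real.log_le_log (by linarith) (h u).1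
  · refine (avg_mono (fun u => ?_)).trans (avg_const 0).le
    exact Real.log_nonpos (by linarith [(h u).1]) (h u).2

/-- The index set of the probes. -/
def ProbeIx (K D n : ℕ) : Type :=
  (Bool × Bool) ⊕ ((Σ d : Fin D, {τ : Shape Bool K d // Shape.size d τ ≤ n}) × Bool)

noncomputable instance (K D n : ℕ) : Fintype (ProbeIx K D n) := by
  unfold ProbeIx
  infer_instance

/-- Depth of a probe. -/
def probeDepth {K D n : ℕ} : ProbeIx K D n → ℕ
  | Sum.inl _ => 0
  | Sum.inr q => q.1.1 + 1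

/-- The items of a probe. -/
noncomputable def probeItem {X I : Type} {K D n : ℕ} (t c a : ℝ) (obs : I → Bool → X → ℝ) :
    ProbeIx K D n → I → Sys (X → ℝ)
  | Sum.inl q => leafItem a (fun i => obs i q.1) q.2
  | Sum.inr q => brItem t c a obs q.1.1 q.1.2.1 q.2

theorem core (L : ℕ) {lam : ℝ} (hlam0 : 0 ≤ lam) (hlam : lam < 1) {ε : ℝ} (hε : 0 < ε) :
    ∃ (r : ℕ) (m : ℕ → ℝ) (J : Type) (_ : Fintype J) (_ : Nonempty J) (lo hi : ℝ),
      Exps m ∧ (∀ d, d < r → m (d + 1) < m d) ∧ 0 < lo ∧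
      ∀ (X I : Type) [Fintype I] [Nonempty I] (spin : I → X → Bool),
        ∃ 𝒜 : J → Sys (X → ℝ), (∀ j, Item (r + 1) lo hi (𝒜 j)) ∧
          ∀ S : Sys X, Prob (r + 1) S → ∃ ξ : J → ℝ, avg ξ ≤ ε ∧
            ∀ (j : J) (Λ : Type) [Fintype Λ] [DecidableEq Λ], Fintype.card Λ ≤ L →
              ∀ V : (Λ → Bool) → ℝ, (∀ s, 1 - lam ≤ V s ∧ V s ≤ 1) →
                |avg (fun idx : Λ → I => Real.log (T m (r + 1) (add m (r + 1) S (𝒜 j))
                    (fun Q => V (fun l => spin (idx l) Q.val)))) -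
                  avg (fun idx : Λ → I => Real.log (T m (r + 1)
                    (piProd (r + 1) (fun _ : Λ => add m (r + 1) S (𝒜 j)))
                    (fun Q => V (fun l => spin (idx l) (Q.val l)))))| ≤ ξ j := by
  classical
  set c : ℝ := -Real.log (1 - lam) with hc
  have hc0 : 0 ≤ c := by
    rw [hc, neg_nonneg]
    exact Real.log_nonpos (by linarith) (by linarith)
  obtain ⟨η0, hη0, h01, h02, h03⟩ := (ev_pos.and ((ev_mul_le 1 (B := 1 / 2) (by norm_num)).and
    ((ev_mul_le c (B := 1) (by norm_num)).and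
      (ev_mul_le (2 * c ^ 2) (B := ε / 8) (by positivity))))).exists
  rw [one_mul] at h01
  obtain ⟨n, hn⟩ := exists_pow_lt_of_lt_one (x := η0 * ε / 16) (by positivity) hlam
  obtain ⟨v, hv0, hv1⟩ := (ev_pos.and (ev_mul_sqrt_le (L * 2 ^ (L * n + n)) 1 (B := η0 * ε / 8)
    (by positivity))).exists
  rw [one_mul] at hv1
  set xs : ℝ := 1 / η0 with hxs
  have hxs0 : 0 < xs := by positivity
  obtain ⟨x, hx0, hx1⟩ := (ev_pos.and (ev_mul_le
    (Real.exp (n * xs) * ((n : ℝ) ^ 2 / η0 * (2 * (1 + xs)))) (B := v / 3) (by positivity))).exists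
  obtain ⟨R', hR'⟩ := exists_nat_one_div_lt hx0
  set R : ℕ := R' + 1 with hRdef
  have hR : 0 < R := Nat.succ_pos _
  have hR1 : (1 : ℝ) ≤ R := by exact_mod_cast hR
  have hRx : 1 / (R : ℝ) ≤ x := by
    rw [hRdef]; push_cast; exact hR'.le
  obtain ⟨K, hK⟩ := UK_approx hlam (2 * R) (ε := η0 * ε / 16) (by positivity)
  obtain ⟨tiny, htiny, htiny1⟩ := (ev_pos.and (ev_mul_le
    (Real.exp (n * xs) * (1 + xs)) (B := v / 3) (by positivity))).exists
  obtain ⟨t, c', a, x0, ht0, htn, hc'0, hc'n, ha0, ha1, hx00, HT⟩ :=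
    tiny_of_probed (2 * R + 1) n (by omega) hη0 (η1 := 1 / (4 * R)) (by positivity)
      (by rw [div_le_one (by positivity)]; linarith) htiny
  obtain ⟨δ, hδ0, hδ1, hδ2, hδ3⟩ := (ev_pos.and ((ev_mul_le (4 * R) (B := 1) (by norm_num)).and
    ((ev_mul_le (1 / η0) hx00).and
      (ev_mul_le (Real.exp (n * xs) * (2 * R / η0)) (B := v / 3) (by positivity))))).exists
  obtain ⟨m, hm, hstrict, hlo, hend, hthick, hthin, hmax, hsum⟩ := exists_exps hη0 h01 hR hδ0 hδ1
  set N : ℕ := Fintype.card (ProbeIx K (2 * R + 1) n × Fin (2 * R + 1) × Bool) with hN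
  set w : ℝ := ε * x0 / (2 * (c + 1)) with hw
  have hw0 : 0 < w := by positivity
  obtain ⟨y, hy0, hy1⟩ := (ev_pos.and (ev_mul_le (N * 1000) (B := w / 2) (by positivity))).exists
  obtain ⟨J', hJ'⟩ := exists_nat_one_div_lt hy0
  obtain ⟨y', hy'0, hy'1⟩ := (ev_pos.and (ev_mul_le (N * 1000 * (((J' + 1 : ℕ) : ℝ) / η0))
    (B := w / 2) (by positivity))).exists
  obtain ⟨s', hs'⟩ := exists_nat_one_div_lt hy'0
  refine ⟨2 * R, m, (ProbeIx K (2 * R + 1) n × Fin (2 * R + 1) × Bool) → Fin (J' + 1), inferInstance,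
    inferInstance, ((1 / 2) ^ (s' + 1)) ^ N, ((3 / 2) ^ (s' + 1)) ^ N, hm, hstrict, by positivity,
    fun X I _ _ spin => ?_⟩
  have ho := abs_indObs_le spin
  obtain ⟨𝒜, hA1, hA2⟩ := probes (X := X) (I := I) hm (2 * R + 1)
    (probeDepth (K := K) (D := 2 * R + 1) (n := n)) (probeItem t c' a (indObs spin))
    (fun q i => by
      rcases q with q | q
      · exact item_leafItem ha0.le ha1 (fun i x => ho i _ x) _ _
      · exact item_brItem ht0.le htn hc'0.le hc'n ha0 (by linarith) ho q.1.2.2 _ _)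
    (Nat.succ_pos s') (Nat.succ_pos J')
  refine ⟨𝒜, hA1, fun S hS => ?_⟩
  obtain ⟨ξ, hξ0, hξ1, hξ2⟩ := hA2 S hS
  refine ⟨fun j => ε / 2 + c / x0 * ξ j, ?_, fun j Λ _ _ hΛ V hV => ?_⟩
  · rw [avg_add, avg_const, avg_const_mul]
    have h1 : avg ξ ≤ w := by
      refine hξ1.trans ?_
      rw [hend _ (Nat.le_succ _)]
      have b1 : (N : ℝ) * 1000 * (1 / ((J' + 1 : ℕ) : ℝ)) ≤ N * 1000 * y := by
        gcongr
        push_cast; exact hJ'.le
      have b2 : (N : ℝ) * 1000 * (((J' + 1 : ℕ) : ℝ) / η0) * (1 / ((s' + 1 : ℕ) : ℝ)) ≤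
          N * 1000 * (((J' + 1 : ℕ) : ℝ) / η0) * y' := by
        gcongr
        push_cast; exact hs'.le
      have e1 : (N : ℝ) * (1000 * (1 / ((J' + 1 : ℕ) : ℝ) + ((J' + 1 : ℕ) : ℝ) / (η0 * ((s' + 1 : ℕ) : ℝ)))) =
          (N : ℝ) * 1000 * (1 / ((J' + 1 : ℕ) : ℝ)) +
          (N : ℝ) * 1000 * (((J' + 1 : ℕ) : ℝ) / η0) * (1 / ((s' + 1 : ℕ) : ℝ)) := by
        field_simp
      refine le_trans (le_of_eq e1) ?_
      linarith
    have h2 : c / x0 * avg ξ ≤ c / x0 * w := mul_le_mul_of_nonneg_left h1 (by positivity)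
    have h3 : c / x0 * w ≤ ε / 2 := by
      have : c / x0 * w = ε / 2 * (c / (c + 1)) := by rw [hw]; field_simp
      rw [this]
      exact mul_le_of_le_one_right (by positivity) ((div_le_one (by positivity)).2 (by linarith))
    linarith
  · have hR0 : Prob (2 * R + 1) (add m (2 * R + 1) S (𝒜 j)) :=
      prob_add hm.pos (by positivity) hS (hA1 j)
    rcases le_total (ξ j) x0 with hj | hj
    · have hT : Tiny (indObs spin) K (2 * R + 1) n (add m (2 * R + 1) S (𝒜 j)) tiny :=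
        HT X I Bool K m hm hlo (ξ j) (δ / η0) (hξ0 j) hj (by positivity)
          (by rwa [div_mul_eq_mul_div, one_mul] at hδ2)
          (fun d hd he => hthick d (by omega) he) (fun d hd he => hthin d (by omega) he) _ hR0 _ ho
          (fun k z => hξ2 j (Sum.inl (k, z)))
          (fun d hd τ hτ z => hξ2 j (Sum.inr (⟨⟨d, hd⟩, ⟨τ, hτ⟩⟩, z)))
      have hV' := sum_wb_Vr_le hm ho (even_two_mul R) hR0 htiny.le hT (xmax := 1 / R / η0)
        (xthin := δ / η0) (xs := xs) hmax (by positivity)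
        (fun d hd he => hthin d hd (by
          rcases Nat.even_or_odd d with h | h
          · exact absurd he (by simpa [Nat.even_add_one] using h)
          · exact h)) (by positivity) hsum
      have hv : Real.exp (n * xs) * (tiny * (1 + xs) + ((2 * R : ℕ) : ℝ) * (δ / η0) +
          (n : ℝ) ^ 2 * (1 / R / η0) * (2 * (1 + xs))) ≤ v := by
        have b1 : Real.exp (n * xs) * ((n : ℝ) ^ 2 / η0 * (2 * (1 + xs))) * (1 / R) ≤
            Real.exp (n * xs) * ((n : ℝ) ^ 2 / η0 * (2 * (1 + xs))) * x := by gcongr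
        have e1 : Real.exp (n * xs) * (tiny * (1 + xs) + ((2 * R : ℕ) : ℝ) * (δ / η0) +
            (n : ℝ) ^ 2 * (1 / R / η0) * (2 * (1 + xs))) =
            Real.exp (n * xs) * (1 + xs) * tiny + Real.exp (n * xs) * (2 * R / η0) * δ +
            Real.exp (n * xs) * ((n : ℝ) ^ 2 / η0 * (2 * (1 + xs))) * (1 / R) := by
          push_cast; ring
        rw [e1]
        linarith
      have key := compare spin hm (K := K) (n := n) hΛ hR0 hlam0 hlam (c := c) le_rfl
        (by rw [hend _ le_rfl]; linarith) (εK := η0 * ε / 16)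
        (fun Y Q y hQ hy => hK K le_rfl m hm Y Q y hQ hy) (hV'.trans hv) V hV
      refine key.trans ?_
      rw [hend _ le_rfl]
      have b1 : lam ^ (n + 1) ≤ η0 * ε / 16 := by
        rw [pow_succ]
        exact (mul_le_of_le_one_right (by positivity) hlam.le).trans hn.le
      have b2 : (2 * (η0 * ε / 16) + 2 * lam ^ (n + 1) + L * 2 ^ (L * n + n) * Real.sqrt v) / η0 ≤
          3 * ε / 8 := by
        rw [div_le_iff₀ hη0]
        nlinarith
      have b3 : 0 ≤ c / x0 * ξ j := mul_nonneg (by positivity) (hξ0 j)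
      nlinarith
    · have b1 := avg_log_T_mem (P := Λ → I) hm hR0 hlam (fun idx x => V (fun l => spin (idx l) x))
        (fun _ _ => hV _)
      have b2 := avg_log_T_mem (P := Λ → I) hm (prob_piProd (Λ := Λ) (fun _ => hR0)) hlam
        (fun idx x => V (fun l => spin (idx l) (x l))) (fun _ _ => hV _)
      have b3 : c ≤ c / x0 * ξ j := by
        rw [div_mul_eq_mul_div, le_div_iff₀ hx00]
        exact mul_le_mul_of_nonneg_left hj hc0
      rw [abs_le]
      constructor <;> linarith [b1.1, b1.2, b2.1, b2.2]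

end Crest.Agent.R141
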