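import Crest.Agent.R141.BasicAdd

/-! Row 141, module D1: locality of the response at a thin level, and concentration. -/

set_option autoImplicit false

namespace Crest.Agent.R141

open Finset Sys

theorem loc_rpow_close {x ρ : ℝ} (h1 : 1 / 2 ≤ x) (h2 : x ≤ 3 / 2) (h0 : 0 ≤ ρ) (hρ : ρ ≤ 1) :
    |x ^ ρ - x| ≤ 2 * (1 - ρ) := by
  have hx : 0 < x := by linarith
  have hs0 : 0 ≤ 1 - ρ := by linarith
  have hs1 : 1 - ρ ≤ 1 := by linarith
  have a1 : x ^ ρ ≤ 3 / 2 := by
    have := rpow_one_add_le_one_add_mul_self (s := x - 1) (by linarith) h0 hρ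
    rw [show 1 + (x - 1) = x by ring] at this
    nlinarith
  have a2 : x ^ (1 - ρ) ≤ 1 + (1 - ρ) := by
    have := rpow_one_add_le_one_add_mul_self (s := x - 1) (by linarith) hs0 hs1
    rw [show 1 + (x - 1) = x by ring] at this
    nlinarith
  have hxi : x⁻¹ ≤ 2 := by
    rw [inv_le_comm₀ hx (by norm_num)]; linarith
  have a3 : (x ^ (1 - ρ))⁻¹ ≤ 1 + (1 - ρ) := by
    have := rpow_one_add_le_one_add_mul_self (s := x⁻¹ - 1)
      (by have := inv_pos.2 hx; linarith) hs0 hs1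
    rw [show 1 + (x⁻¹ - 1) = x⁻¹ by ring, Real.inv_rpow hx.le] at this
    nlinarith
  have hp : 0 < x ^ (1 - ρ) := Real.rpow_pos_of_pos hx _
  have a4 : 1 - (1 - ρ) ≤ x ^ (1 - ρ) := by
    rw [inv_le_iff_one_le_mul₀ hp] at a3
    nlinarith
  have hq : 0 < x ^ ρ := Real.rpow_pos_of_pos hx _
  have e : x ^ ρ - x = x ^ ρ * (1 - x ^ (1 - ρ)) := by
    rw [mul_sub, ← Real.rpow_add hx]; simp
  rw [e, abs_mul, abs_of_pos hq]
  have : |1 - x ^ (1 - ρ)| ≤ 1 - ρ := abs_le.2 ⟨by linarith, by linarith⟩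
  nlinarith [abs_nonneg (1 - x ^ (1 - ρ))]

theorem loc_rpow_mem {x ρ : ℝ} (h1 : 1 / 2 ≤ x) (h2 : x ≤ 3 / 2) (h0 : 0 ≤ ρ) (hρ : ρ ≤ 1) :
    1 / 2 ≤ x ^ ρ ∧ x ^ ρ ≤ 3 / 2 := by
  have hx : 0 < x := by linarith
  rcases le_total x 1 with h | h
  · constructor
    · have := Real.rpow_le_rpow_of_exponent_ge hx h hρ
      rw [Real.rpow_one] at this
      linarith
    · have := Real.rpow_le_one hx.le h h0
      linarith
  · constructor
    · have := Real.one_le_rpow h h0
      linarith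
    · have := Real.rpow_le_rpow_of_exponent_le h hρ
      rw [Real.rpow_one] at this
      linarith

theorem loc_E1_child {X : Type} (e : ℕ) (R : Sys X) (g : Sys X → ℝ) :
    E1 e R (fun _ S => g S) = Exp (1 + e) R g := (Exp_comp 1 e R g).symm

theorem loc_plus_menuA {X I : Type} [Fintype I] (m : ℕ → ℝ) (d : ℕ) (A : I → Sys (X → ℝ))
    (F : Sys X → Sys X → ℝ) (P S : Sys X) :
    plus m d (menuA A) F P S = avg (fun i => TA m d S (A i) ^ m d * F P (add m d S (A i))) := by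
  unfold plus avg
  rw [Finset.mul_sum]
  exact Finset.sum_congr rfl fun i _ => mul_assoc _ _ _

theorem loc_step_add {X : Type} {m : ℕ → ℝ} (hm : ∀ d, 0 < m d) {d : ℕ} {lo hi : ℝ}
    (hlo : 0 < lo) {S : Sys X} {A : Sys (X → ℝ)} (hS : Prob (d + 1) S)
    (hA : Item (d + 1) lo hi A) (f : Sys X → ℝ) :
    ∑ ω, S.p ω * ∑ a, A.p a * TA m d (S.ch ω) (A.ch a) ^ m d * f (add m d (S.ch ω) (A.ch a)) =
      TA m (d + 1) S A ^ m d * Exp 1 (add m (d + 1) S A) f := by
  have hT := TA_pos hm hlo hS hA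
  have hT' : TA m (d + 1) S A ^ m d ≠ 0 := (Real.rpow_pos_of_pos hT _).ne'
  have : Exp 1 (add m (d + 1) S A) f = ∑ ω : S.ι × A.ι,
      S.p ω.1 * A.p ω.2 * (TA m d (S.ch ω.1) (A.ch ω.2) / TA m (d + 1) S A) ^ m d *
        f (add m d (S.ch ω.1) (A.ch ω.2)) := rfl
  rw [this, Fintype.sum_prod_type, Finset.mul_sum]
  refine Finset.sum_congr rfl fun ω _ => ?_
  rw [Finset.mul_sum, Finset.mul_sum]
  refine Finset.sum_congr rfl fun a _ => ?_
  rw [Real.div_rpow (TA_pos hm hlo (hS.2.2 ω) (hA.ch a)).le hT.le]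
  field_simp

theorem loc_plus_menuB {X I : Type} [Fintype I] {m : ℕ → ℝ} (hm : ∀ d, 0 < m d) {d : ℕ}
    {lo hi : ℝ} (hlo : 0 < lo) {S : Sys X} {A : I → Sys (X → ℝ)} (hS : Prob (d + 1) S)
    (hA : ∀ i, Item (d + 1) lo hi (A i)) (F : Sys X → Sys X → ℝ) :
    ∑ ω, S.p ω * plus m d (menuB A) F S (S.ch ω) =
      avg (fun i => TA m (d + 1) S (A i) ^ m d * Exp 1 (add m (d + 1) S (A i)) (F S)) := by
  have : ∀ Q, plus m d (menuB A) F S Q = ∑ κ : (Σ i : I, (A i).ι),
      (Fintype.card I : ℝ)⁻¹ * (A κ.1).p κ.2 * TA m d Q ((A κ.1).ch κ.2) ^ m d *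
        F S (add m d Q ((A κ.1).ch κ.2)) := fun Q => rfl
  simp only [this, Fintype.sum_sigma, avg, ← loc_step_add hm hlo hS (hA _), Finset.mul_sum]
  rw [Finset.sum_comm]
  refine Finset.sum_congr rfl fun i _ => Finset.sum_congr rfl fun ω _ =>
    Finset.sum_congr rfl fun a _ => by ring

theorem loc_E1_menuB {X I : Type} [Fintype I] {m : ℕ → ℝ} (hm : ∀ d, 0 < m d) {d e : ℕ}
    {lo hi : ℝ} (hlo : 0 < lo) {R : Sys X} {A : I → Sys (X → ℝ)} (hR : Prob (d + 1 + e) R)
    (hA : ∀ i, Item (d + 1) lo hi (A i)) (F : Sys X → Sys X → ℝ) :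
    E1 e R (plus m d (menuB A) F) = Exp e R (fun S =>
      avg (fun i => TA m (d + 1) S (A i) ^ m d * Exp 1 (add m (d + 1) S (A i)) (F S))) :=
  Exp_congr (hR.allAt.imp fun _ hS => loc_plus_menuB hm hlo hS hA F)

theorem loc_E1_menuB_parent {X I : Type} [Fintype I] {m : ℕ → ℝ} (hm : ∀ d, 0 < m d) {d e : ℕ}
    {lo hi : ℝ} (hlo : 0 < lo) {R : Sys X} {A : I → Sys (X → ℝ)} (hR : Prob (d + 1 + e) R)
    (hA : ∀ i, Item (d + 1) lo hi (A i)) (f : Sys X → ℝ) :
    E1 e R (plus m d (menuB A) (fun P _ => f P)) = Exp e R (fun S =>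
      f S * avg (fun i => TA m (d + 1) S (A i) ^ m d)) := by
  rw [loc_E1_menuB hm hlo hR hA]
  refine Exp_congr (hR.allAt.imp fun S hS => ?_)
  rw [← avg_const_mul]
  congr 1
  funext i
  have h1 : Prob 1 (add m (d + 1) S (A i)) := (prob_add hm hlo hS (hA i)).mono
  rw [Exp_const h1, mul_comm]

theorem loc_E1_parent {X : Type} {d e : ℕ} {R : Sys X} (hR : Prob (d + 1 + e) R)
    (f : Sys X → ℝ) : E1 e R (fun P _ => f P) = Exp e R f := by
  refine Exp_congr (hR.allAt.imp fun S hS => ?_)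
  rw [← Finset.sum_mul, hS.2.1, one_mul]

theorem loc_abs_avg_le {I : Type} [Fintype I] [Nonempty I] {f : I → ℝ} {c : ℝ}
    (h : ∀ i, |f i| ≤ c) : |avg f| ≤ c :=
  (abs_avg_le f).trans ((avg_mono h).trans (avg_const c).le)

theorem loc_abs_mul_le_one {x y : ℝ} (hx : |x| ≤ 1) (hy : |y| ≤ 1) : |x * y| ≤ 1 := by
  rw [abs_mul]
  exact mul_le_one₀ hx (abs_nonneg _) hy

/-- Adding an item at a random site hardly moves the conditional means at another random site. -/
theorem locality {X : Type} {m : ℕ → ℝ} (hm : Exps m) (d e : ℕ) {R : Sys X}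
    (hR : Prob (d + 2 + e) R) {I I' : Type} [Fintype I] [Nonempty I] [Fintype I'] [Nonempty I']
    {A : I → Sys (X → ℝ)} (hA : ∀ i, Item (d + 1) (1 / 2) (3 / 2) (A i))
    {F : I' → Sys X → ℝ} (hF : ∀ j, Inv d (F j)) (hF1 : ∀ j Q, Prob d Q → |F j Q| ≤ 1)
    {ηA ηB : ℝ} (hGA : GG m (d + 1) e R (menuA A) ηA) (hGB : GG m d (e + 1) R (menuB A) ηB) :
    Exp (e + 1) R (fun S => avg (fun i => avg (fun j =>
        (Exp 1 (add m (d + 1) S (A i)) (F j) - Exp 1 S (F j)) ^ 2))) ≤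
      2 * (ηA + 3 * ηB + 4 * (1 - m (d + 1) / m d)) := by
  have hR' : Prob (d + 1 + (e + 1)) R := by
    rwa [show d + 1 + (e + 1) = d + 2 + e by omega]
  have hRe : Prob (e + 1) R := hR'.mono
  have hall := hR'.allAt
  have hlo : (0 : ℝ) < 1 / 2 := by norm_num
  set yb : Sys X → I' → ℝ := fun S j => Exp 1 S (F j) with hyb
  set q : Sys X → ℝ := fun S => avg (fun j => yb S j ^ 2) with hq
  have yb1 : ∀ S, Prob (d + 1) S → ∀ j, |yb S j| ≤ 1 := fun S hS j =>
    abs_Exp_le_of_le hS.mono (hS.allAt.imp fun Q hQ => hF1 j Q hQ)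
  have ybinv : ∀ S S', Prob (d + 1) S → Prob (d + 1) S' → Proj id (d + 1) S S' →
      yb S = yb S' := fun S S' hS hS' h => funext fun j => Inv.exp 1 (hF j) S S' hS hS' h
  have qinv : Inv (d + 1) q := fun S S' hS hS' h => by
    simp only [hq, ybinv S S' hS hS' h]
  have q1 : ∀ S, Prob (d + 1) S → |q S| ≤ 1 := fun S hS => loc_abs_avg_le fun j => by
    rw [sq]; exact loc_abs_mul_le_one (yb1 S hS j) (yb1 S hS j)
  have q0 : ∀ S, 0 ≤ q S := fun S => avg_nonneg fun j => sq_nonneg _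
  set Γ : Sys X → I → ℝ := fun S i => TA m (d + 1) S (A i) ^ m d with hΓ
  set Γ' : Sys X → I → ℝ := fun S i => TA m (d + 1) S (A i) ^ m (d + 1) with hΓ'
  set γ : ℝ := 2 * (1 - m (d + 1) / m d) with hγ
  have hmd := hm.pos d
  have Γmem : ∀ S, Prob (d + 1) S → ∀ i, 1 / 2 ≤ Γ S i ∧ Γ S i ≤ 3 / 2 := fun S hS i =>
    loc_rpow_mem (TA_bounds hm.pos hlo hS (hA i)).1 (TA_bounds hm.pos hlo hS (hA i)).2 hmd.le
      (hm.le_one d)
  have Γclose : ∀ S, Prob (d + 1) S → ∀ i, |Γ' S i - Γ S i| ≤ γ := by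
    intro S hS i
    have : Γ' S i = Γ S i ^ (m (d + 1) / m d) := by
      simp only [hΓ, hΓ']
      rw [← Real.rpow_mul (TA_pos hm.pos hlo hS (hA i)).le]
      congr 1
      field_simp
    rw [this]
    exact loc_rpow_close (Γmem S hS i).1 (Γmem S hS i).2 (div_pos (hm.pos _) hmd).le
      ((div_le_one hmd).2 (hm.anti (Nat.le_succ d)))
  -- menu A
  have hAe := hGA (fun _ S => q S) (fun _ _ S S' _ _ hS hS' _ h => qinv S S' hS hS' h)
    (fun _ S _ hS => q1 S hS)
  have eA1 : plus m (d + 1) (menuA A) (fun _ S => q S) =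
      fun _ S => avg (fun i => Γ' S i * q (add m (d + 1) S (A i))) := by
    funext P S; rw [loc_plus_menuA]
  have eA2 : plus m (d + 1) (menuA A) (fun _ _ => 1) = fun _ S => avg (fun i => Γ' S i) := by
    funext P S; rw [loc_plus_menuA]; simp only [mul_one, hΓ']
  rw [eA1, eA2, loc_E1_child, loc_E1_child, loc_E1_child, add_comm 1 e] at hAe
  -- menu B, parent only
  have hB0 := hGB (fun P _ => q P) (fun P P' _ _ hP hP' _ _ h _ => qinv P P' hP hP' h)
    (fun P _ hP _ => q1 P hP)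
  have eB : E1 (e + 1) R (plus m d (menuB A) (fun _ _ => 1)) =
      Exp (e + 1) R (fun S => avg (fun i => Γ S i)) := by
    rw [loc_E1_menuB_parent hm.pos hlo hR' hA (fun _ => 1)]
    simp only [one_mul, hΓ]
  rw [eB, loc_E1_menuB_parent hm.pos hlo hR' hA, loc_E1_parent hR'] at hB0
  -- menu B, cross term
  have hB1 := hGB (fun P Q => avg (fun j => yb P j * F j Q))
    (fun P P' S S' hP hP' hS hS' h h' => by
      simp only [ybinv P P' hP hP' h, fun j => hF j S S' hS hS' h'])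
    (fun P Q hP hQ => loc_abs_avg_le fun j => loc_abs_mul_le_one (yb1 P hP j) (hF1 j Q hQ))
  have eC : ∀ P S : Sys X, Exp 1 S (fun Q => avg (fun j => yb P j * F j Q)) =
      avg (fun j => yb P j * yb S j) := by
    intro P S
    rw [Exp_avg]
    simp only [Exp_const_mul, hyb]
  have eB1 : E1 (e + 1) R (fun P Q => avg (fun j => yb P j * F j Q)) = Exp (e + 1) R q := by
    unfold E1
    congr 1
    funext S
    rw [← Exp_one S (fun Q => avg (fun j => yb S j * F j Q)), eC]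
    simp only [hq, sq]
  rw [eB, eB1, loc_E1_menuB hm.pos hlo hR' hA] at hB1
  simp only [eC] at hB1
  -- comparison of the two tilts
  have c1 : Exp (e + 1) R (fun S => avg (fun i => Γ S i * q (add m (d + 1) S (A i)))) ≤
      Exp (e + 1) R (fun S => avg (fun i => Γ' S i * q (add m (d + 1) S (A i)))) + γ := by
    rw [← Exp_const hRe γ, ← Exp_add]
    refine Exp_mono hRe (hall.imp fun S hS => ?_)
    rw [← avg_const (I := I) γ, ← avg_add]
    refine avg_mono fun i => ?_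
    have h1 := abs_le.1 (Γclose S hS i)
    have h2 := abs_le.1 (q1 _ (prob_add hm.pos hlo hS (hA i)))
    have h3 := q0 (add m (d + 1) S (A i))
    nlinarith
  have c2 : Exp (e + 1) R (fun S => avg (fun i => Γ' S i)) ≤
      Exp (e + 1) R (fun S => avg (fun i => Γ S i)) + γ := by
    rw [← Exp_const hRe γ, ← Exp_add]
    refine Exp_mono hRe (hall.imp fun S hS => ?_)
    rw [← avg_const (I := I) γ, ← avg_add]
    refine avg_mono fun i => ?_
    have h1 := abs_le.1 (Γclose S hS i)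
    linarith
  have Eq0 : 0 ≤ Exp (e + 1) R q := Exp_nonneg hRe (allAt_of_forall _ _ q0)
  have Eq1 : Exp (e + 1) R q ≤ 1 :=
    (le_abs_self _).trans (abs_Exp_le_of_le hRe (hall.imp q1))
  have hγ0 : 0 ≤ γ := by
    have := (div_le_one hmd).2 (hm.anti (Nat.le_succ d))
    rw [hγ]; linarith
  -- pointwise expansion
  have main : Exp (e + 1) R (fun S => avg (fun i => avg (fun j =>
        (yb (add m (d + 1) S (A i)) j - yb S j) ^ 2))) ≤
      2 * (Exp (e + 1) R (fun S => avg (fun i => Γ S i * q (add m (d + 1) S (A i)))) -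
        2 * Exp (e + 1) R (fun S => avg (fun i => Γ S i *
          avg (fun j => yb S j * yb (add m (d + 1) S (A i)) j))) +
        Exp (e + 1) R (fun S => q S * avg (fun i => Γ S i))) := by
    rw [← Exp_const_mul, ← Exp_sub, ← Exp_add, ← Exp_const_mul]
    refine Exp_mono hRe (hall.imp fun S hS => ?_)
    rw [← avg_const_mul, ← avg_sub, ← avg_const_mul, ← avg_add, ← avg_const_mul]
    refine avg_mono fun i => ?_
    have e3 : avg (fun j => (yb (add m (d + 1) S (A i)) j - yb S j) ^ 2) =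
        q (add m (d + 1) S (A i)) - 2 * avg (fun j => yb S j * yb (add m (d + 1) S (A i)) j) +
          q S := by
      simp only [hq]
      rw [← avg_const_mul, ← avg_sub, ← avg_add]
      congr 1
      funext j
      ring
    have e4 : 0 ≤ avg (fun j => (yb (add m (d + 1) S (A i)) j - yb S j) ^ 2) :=
      avg_nonneg fun j => sq_nonneg _
    have e5 := (Γmem S hS i).1
    rw [e3] at e4 ⊢
    nlinarith
  have a1 := (abs_le.1 hAe).2
  have a2 := (abs_le.1 hB0).2
  have a3 := (abs_le.1 hB1).1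
  have a4 := mul_le_mul_of_nonneg_left c2 Eq0
  refine main.trans ?_
  nlinarith

/-- Menu B, functional of the parent only: the mean tilt is nearly uncorrelated with it. -/
theorem cov_menuB {X : Type} {m : ℕ → ℝ} (hm : Exps m) (d e : ℕ) {R : Sys X}
    (hR : Prob (d + 1 + e) R) {I : Type} [Fintype I] [Nonempty I]
    {A : I → Sys (X → ℝ)} (hA : ∀ i, Item (d + 1) (1 / 2) (3 / 2) (A i))
    {f : Sys X → ℝ} (hf : Inv (d + 1) f) (hf1 : ∀ Q, Prob (d + 1) Q → |f Q| ≤ 1)
    {η : ℝ} (hG : GG m d e R (menuB A) η) :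
    |Exp e R (fun S => f S * avg (fun i => TA m (d + 1) S (A i) ^ m d)) -
        Exp e R f * Exp e R (fun S => avg (fun i => TA m (d + 1) S (A i) ^ m d))| ≤ η := by
  have h := hG (fun P _ => f P) (fun P P' _ _ hP hP' _ _ hPP _ => hf P P' hP hP' hPP)
    (fun P _ hP _ => hf1 P hP)
  rw [loc_E1_menuB_parent hm.pos (by norm_num) hR hA, loc_E1_parent hR,
    loc_E1_menuB_parent hm.pos (by norm_num) hR hA (fun _ => 1)] at h
  simpa only [one_mul] using h

/-- Menu A at the leaf level. -/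
theorem cov_menuA_leaf {X : Type} {m : ℕ → ℝ} (hm : Exps m) (e : ℕ) {R : Sys X}
    (hR : Prob (1 + e) R) {I : Type} [Fintype I] [Nonempty I] (g : I → X → ℝ)
    {f : X → ℝ} (hf1 : ∀ x, |f x| ≤ 1)
    {η : ℝ} (hG : GG m 0 e R (menuA (fun i => leaf (g i))) η) :
    |Exp (1 + e) R (fun L => f L.val * avg (fun i => g i L.val)) -
        Exp (1 + e) R (fun L => f L.val) * Exp (1 + e) R (fun L => avg (fun i => g i L.val))| ≤ η := by
  have h := hG (fun _ Q => f Q.val)
    (fun _ _ S S' _ _ hS hS' _ hSS => inv_val f S S' hS hS' hSS) (fun _ Q _ _ => hf1 Q.val)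
  have e1 : plus m 0 (menuA (fun i => leaf (g i))) (fun _ Q => f Q.val) =
      fun _ L => f L.val * avg (fun i => g i L.val) := by
    funext P L
    rw [loc_plus_menuA, ← avg_const_mul]
    simp only [TA_zero, add_zero_val, hm.zero, Real.rpow_one, leaf_val, mul_comm]
  have e2 : plus m 0 (menuA (fun i => leaf (g i))) (fun _ _ => 1) =
      fun _ L => avg (fun i => g i L.val) := by
    funext P L
    rw [loc_plus_menuA]
    simp only [TA_zero, hm.zero, Real.rpow_one, leaf_val, mul_one]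
  rwa [e1, e2, loc_E1_child, loc_E1_child, loc_E1_child] at h

end Crest.Agent.R141
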