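import Crest.Agent.R141.GGmulti
import Crest.Agent.R141.Local

/-! Row 141, module F5a: probes (families of items whose menus satisfy `GG` at every level). -/

set_option autoImplicit false

namespace Crest.Agent.R141

open Finset Sys

/-- All the menus built from the family `A` of items of depth `b` satisfy `GG` in `R`. -/
def Probed {X I : Type} [Fintype I] (m : ℕ → ℝ) (D : ℕ) (R : Sys X) (b : ℕ)
    (A : I → Sys (X → ℝ)) (ξ : ℝ) : Prop :=
  (∀ jj l e, b + jj = l → l + 1 + e = D → GG m l e R (menuA fun i => lift jj (A i)) ξ) ∧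
  (∀ jj l e, b + jj = l + 1 → l + 1 + e = D → GG m l e R (menuB fun i => lift jj (A i)) ξ)

theorem Probed.mono {X I : Type} [Fintype I] {m : ℕ → ℝ} {D : ℕ} {R : Sys X} {b : ℕ}
    {A : I → Sys (X → ℝ)} {ξ ξ' : ℝ} (h : Probed m D R b A ξ) (hξ : ξ ≤ ξ') :
    Probed m D R b A ξ' :=
  ⟨fun jj l e h1 h2 => (h.1 jj l e h1 h2).mono hξ, fun jj l e h1 h2 => (h.2 jj l e h1 h2).mono hξ⟩

/-- The menu of the probe `(b, A)` at level `l` of kind `k`. -/
noncomputable def probeMenu {X I : Type} [Fintype I] (b : ℕ) (A : I → Sys (X → ℝ)) (l : ℕ) :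
    Bool → Sys (X → ℝ)
  | true => if b ≤ l then menuA (fun i => lift (l - b) (A i)) else triv (l + 1) (fun _ => 1)
  | false => if b ≤ l + 1 then menuB (fun i => lift (l + 1 - b) (A i)) else triv (l + 1) (fun _ => 1)

theorem item_probeMenu {X I : Type} [Fintype I] [Nonempty I] {b : ℕ} {A : I → Sys (X → ℝ)}
    (hA : ∀ i, Item b (1 / 2) (3 / 2) (A i)) (l : ℕ) (k : Bool) :
    Item (l + 1) (1 / 2) (3 / 2) (probeMenu b A l k) := by
  have ht : Item (l + 1) (1 / 2) (3 / 2) (triv (l + 1) (fun _ : X => (1 : ℝ))) :=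
    (item_triv (l + 1)).mono (by norm_num) (by norm_num)
  cases k
  · simp only [probeMenu]
    split_ifs with h
    · refine item_menuB (fun i => ?_)
      have := (hA i).lift (l + 1 - b)
      rwa [Nat.add_sub_cancel' h] at this
    · exact ht
  · simp only [probeMenu]
    split_ifs with h
    · refine item_menuA (fun i => ?_)
      have := (hA i).lift (l - b)
      rwa [Nat.add_sub_cancel' h] at this
    · exact ht

theorem probes {X I : Type} [Fintype I] [Nonempty I] {m : ℕ → ℝ} (hm : Exps m) (D : ℕ)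
    {𝓟 : Type} [Fintype 𝓟] [DecidableEq 𝓟] (bb : 𝓟 → ℕ) (A : 𝓟 → I → Sys (X → ℝ))
    (hA : ∀ q i, Item (bb q) (1 / 2) (3 / 2) (A q i)) {s J : ℕ} (hs : 0 < s) (hJ : 0 < J) :
    ∃ 𝒜 : ((𝓟 × Fin D × Bool) → Fin J) → Sys (X → ℝ),
      (∀ j, Item D (((1 / 2) ^ s) ^ Fintype.card (𝓟 × Fin D × Bool))
        (((3 / 2) ^ s) ^ Fintype.card (𝓟 × Fin D × Bool)) (𝒜 j)) ∧
      ∀ S : Sys X, Prob D S → ∃ ξ : ((𝓟 × Fin D × Bool) → Fin J) → ℝ, (∀ j, 0 ≤ ξ j) ∧
        avg ξ ≤ Fintype.card (𝓟 × Fin D × Bool) * (1000 * (1 / (J : ℝ) + J / (m D * s))) ∧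
        ∀ j q, Probed m D (add m D S (𝒜 j)) (bb q) (A q) (ξ j) := by
  obtain ⟨𝒜, h1, h2⟩ := gg_multi (X := X) hm D (𝓣 := 𝓟 × Fin D × Bool) (fun t => (t.2.1 : ℕ))
    (fun t => t.2.1.2) (fun t => probeMenu (bb t.1) (A t.1) t.2.1 t.2.2)
    (fun t => item_probeMenu (hA t.1) _ _) hs hJ
  refine ⟨𝒜, h1, fun S hS => ?_⟩
  obtain ⟨ξ, h3, h4, h5⟩ := h2 S hS
  refine ⟨ξ, h3, h4, fun j q => ⟨fun jj l e h6 h7 => ?_, fun jj l e h6 h7 => ?_⟩⟩
  · have := h5 j (q, ⟨l, by omega⟩, true)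
    simp only [probeMenu] at this
    rw [if_pos (by omega)] at this
    have e1 : D - 1 - l = e := by omega
    have e2 : l - bb q = jj := by omega
    rwa [e1, e2] at this
  · have := h5 j (q, ⟨l, by omega⟩, false)
    simp only [probeMenu] at this
    rw [if_pos (by omega)] at this
    have e1 : D - 1 - l = e := by omega
    have e2 : l + 1 - bb q = jj := by omega
    rwa [e1, e2] at this

/-- Locality for a probe, at a level of small branching intensity. -/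
theorem loc_of_probed {X I I' : Type} [Fintype I] [Nonempty I] [Fintype I'] [Nonempty I']
    {m : ℕ → ℝ} (hm : Exps m) {D : ℕ} {R : Sys X} (hR : Prob D R) {b : ℕ} {A : I → Sys (X → ℝ)}
    (hA : ∀ i, Item b (1 / 2) (3 / 2) (A i)) {ξ : ℝ} (hP : Probed m D R b A ξ) {jj l e : ℕ}
    (h1 : b + jj = l + 1) (h2 : l + 2 + e = D) {F : I' → Sys X → ℝ} (hF : ∀ j, Inv l (F j))
    (hF1 : ∀ j Q, Prob l Q → |F j Q| ≤ 1) {δ : ℝ} (hδ : 1 - m (l + 1) / m l ≤ δ) :
    Exp (e + 1) R (fun S => avg (fun i => avg (fun j =>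
        (Exp 1 (add m (l + 1) S (lift jj (A i))) (F j) - Exp 1 S (F j)) ^ 2))) ≤
      8 * ξ + 8 * δ := by
  have hR' : Prob (l + 2 + e) R := h2 ▸ hR
  have hA' : ∀ i, Item (l + 1) (1 / 2) (3 / 2) (lift jj (A i)) := fun i => h1 ▸ (hA i).lift jj
  have := locality hm l e hR' hA' hF hF1 (hP.1 jj (l + 1) e h1 (by omega))
    (hP.2 jj l (e + 1) h1 (by omega))
  linarith

end Crest.Agent.R141
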