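import Crest.Agent.R141.Tree

/-! Row 141, module F2: the recursion over the shape that bounds covariances of tree products. -/

set_option autoImplicit false
set_option linter.unusedSectionVars false

namespace Crest.Agent.R141

open Finset Sys

section defs

variable {X Col I : Type} [Fintype I] {K : ℕ}

/-- No branching at nodes of even remaining depth. -/
def Good : (d : ℕ) → Shape Col K d → Prop
  | 0, _ => True
  | d + 1, τ => (Even (d + 1) → (τ.1 : ℕ) = 0) ∧ ∀ c, Good d (τ.2 c)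

/-- Mean square of the conditional tree moments, `j` levels above the root of `τ`. -/
noncomputable def qq (obs : I → Col → X → ℝ) (D : ℕ) (R : Sys X) (d j : ℕ) (τ : Shape Col K d) :
    ℝ :=
  Exp (D - d - j) R (fun S => avg (fun i => Exp j S (Mom (obs i) d τ) ^ 2))

/-- Two-site covariance of the tree product in the system `S`, `j` levels above the root. -/
noncomputable def cv (obs : I → Col → X → ℝ) (d j : ℕ) (τ : Shape Col K d) (S : Sys X)
    (i i' : I) : ℝ :=
  Exp j S (Mom (fun c x => obs i c x * obs i' c x) d τ) -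
    Exp j S (Mom (obs i) d τ) * Exp j S (Mom (obs i') d τ)

/-- Mean absolute conditional covariance. -/
noncomputable def Pur (obs : I → Col → X → ℝ) (D : ℕ) (R : Sys X) (d j : ℕ) (τ : Shape Col K d) :
    ℝ :=
  Exp (D - d - j) R (fun S => avg (fun i => avg (fun i' => |cv obs d j τ S i i'|)))

/-- Variance of the site average of the tree product. -/
noncomputable def Vr (obs : I → Col → X → ℝ) (D : ℕ) (R : Sys X) (d : ℕ) (τ : Shape Col K d) :
    ℝ :=
  avg (fun i => avg (fun i' => cv obs d (D - d) τ R i i'))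

/-- The conditional moment one level above the root of `τ`. -/
noncomputable def Ybar (obs : I → Col → X → ℝ) (d : ℕ) (τ : Shape Col K d) (i : I) (Q : Sys X) :
    ℝ :=
  Exp 1 Q (Mom (obs i) d τ)

/-- Covariance of two functionals over `j` steps. -/
noncomputable def covF (j : ℕ) (S : Sys X) (F G : Sys X → ℝ) : ℝ :=
  Exp j S (fun Q => F Q * G Q) - Exp j S F * Exp j S G

open Classical in
/-- The recursive error bound; `g` are the martingale increments, `th` marks thin levels. -/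
noncomputable def Bnd (n : ℕ) (tiny : ℝ) (g : (d : ℕ) → Shape Col K d → ℝ) :
    (d : ℕ) → Shape Col K d → ℝ
  | 0, _ => tiny
  | d + 1, τ => ∑ c, Bnd n tiny g d (τ.2 c) +
      if (τ.1 : ℕ) = 0 then 0
      else tiny + (if Even (d + 1) then 1 else 0) + n * ∑ c, g d (τ.2 c)

/-- The hypotheses produced by the perturbation. -/
structure Tiny (obs : I → Col → X → ℝ) (K D n : ℕ) (R : Sys X) (tiny : ℝ) : Prop where
  leaf : ∀ (c : Col) (j : ℕ), Even j → j + 1 ≤ D → Pur (K := K) obs D R 0 j c ≤ tiny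
  leafVar : ∀ c : Col, Vr (K := K) obs D R 0 c ≤ tiny
  br : ∀ (d : ℕ) (τ : Shape Col K d) (j : ℕ), Odd d → Good d τ → Shape.size d τ ≤ n → Even j →
    d + 1 + j + 1 ≤ D →
    Exp (D - (d + 1) - j) R (fun S => avg (fun i => avg (fun i' =>
      |covF j S (Ybar obs d τ i) (Ybar obs d τ i')|))) ≤ tiny
  brVar : ∀ (d : ℕ) (τ : Shape Col K d), Odd d → Good d τ → Shape.size d τ ≤ n → d + 2 ≤ D →
    avg (fun i => avg (fun i' => covF (D - (d + 1)) R (Ybar obs d τ i) (Ybar obs d τ i'))) ≤ tiny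

end defs

/-! ### auxiliary lemmas -/

section aux

variable {X Col I : Type} [Fintype I] {K : ℕ}

theorem pur_prob_le {D e : ℕ} {R : Sys X} (hR : Prob D R) (h : e ≤ D) : Prob e R := by
  obtain ⟨b, rfl⟩ := Nat.exists_eq_add_of_le' h
  exact hR.mono

theorem pur_allAt {D b e : ℕ} {R : Sys X} (hR : Prob D R) (h : b + e ≤ D) :
    AllAt e R (Prob b) :=
  (pur_prob_le hR h).allAt

theorem pur_Exp_succ_bot (j : ℕ) (S : Sys X) (F : Sys X → ℝ) :
    Exp (j + 1) S F = Exp j S (fun Q => Exp 1 Q F) := by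
  rw [add_comm]
  exact Exp_comp 1 j S F

theorem pur_Exp_succ_top (j : ℕ) (S : Sys X) (F : Sys X → ℝ) :
    Exp (j + 1) S F = Exp 1 S (fun Q => Exp j Q F) := Exp_comp j 1 S F

theorem pur_sum_one {k : ℕ} (hk : k = 0) (g : Fin (k + 1) → ℝ) : ∑ c, g c = g 0 := by
  subst hk
  simp

theorem pur_prod_one {k : ℕ} (hk : k = 0) (g : Fin (k + 1) → ℝ) : ∏ c, g c = g 0 := by
  subst hk
  simp

theorem pur_abs_prod_sub {ι : Type} (s : Finset ι) (a b : ι → ℝ) (ha : ∀ i, |a i| ≤ 1)
    (hb : ∀ i, |b i| ≤ 1) : |∏ i ∈ s, a i - ∏ i ∈ s, b i| ≤ ∑ i ∈ s, |a i - b i| := by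
  classical
  induction s using Finset.induction_on with
  | empty => simp
  | insert x s hx ih =>
    rw [Finset.prod_insert hx, Finset.prod_insert hx, Finset.sum_insert hx]
    have h1 : |∏ i ∈ s, b i| ≤ 1 := by
      rw [Finset.abs_prod]
      exact Finset.prod_le_one (fun i _ => abs_nonneg _) (fun i _ => hb i)
    have h2 : a x * ∏ i ∈ s, a i - b x * ∏ i ∈ s, b i =
        (a x - b x) * ∏ i ∈ s, b i + a x * (∏ i ∈ s, a i - ∏ i ∈ s, b i) := by ring
    rw [h2]
    refine (abs_add_le _ _).trans (add_le_add ?_ ?_)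
    · rw [abs_mul]
      exact mul_le_of_le_one_right (abs_nonneg _) h1
    · rw [abs_mul]
      exact (mul_le_of_le_one_left (abs_nonneg _) (ha x)).trans ih

theorem pur_Mom_succ (a : Col → X → ℝ) (d : ℕ) (τ : Shape Col K (d + 1)) (S : Sys X) :
    Mom a (d + 1) τ S = ∏ c, Exp 1 S (Mom a d (τ.2 c)) := rfl

theorem pur_Mom_stem (a : Col → X → ℝ) (d : ℕ) (τ : Shape Col K (d + 1)) (h0 : (τ.1 : ℕ) = 0) :
    Mom a (d + 1) τ = fun S => Exp 1 S (Mom a d (τ.2 0)) := by
  funext S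
  rw [pur_Mom_succ, pur_prod_one h0]

theorem pur_Exp_Mom_stem (a : Col → X → ℝ) (d j : ℕ) (τ : Shape Col K (d + 1))
    (h0 : (τ.1 : ℕ) = 0) (S : Sys X) :
    Exp j S (Mom a (d + 1) τ) = Exp (j + 1) S (Mom a d (τ.2 0)) := by
  rw [pur_Mom_stem a d τ h0, pur_Exp_succ_bot]

theorem pur_abs_Exp_Mom_le {a : Col → X → ℝ} (ha : ∀ c x, |a c x| ≤ 1) {d j : ℕ}
    (τ : Shape Col K d) {S : Sys X} (hS : Prob (d + j) S) : |Exp j S (Mom a d τ)| ≤ 1 :=
  abs_Exp_le_of_le hS.mono (hS.allAt.imp fun _ hQ => abs_Mom_le_one ha τ hQ)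

theorem pur_abs_mul_le {obs : I → Col → X → ℝ} (ho : ∀ i c x, |obs i c x| ≤ 1) (i i' : I)
    (c : Col) (x : X) : |obs i c x * obs i' c x| ≤ 1 := by
  rw [abs_mul]
  exact mul_le_one₀ (ho i c x) (abs_nonneg _) (ho i' c x)

theorem pur_Exp_sq_sub {j : ℕ} {P : Sys X} (hP : Prob j P) (F : Sys X → ℝ) (a : ℝ) :
    Exp j P (fun Q => (F Q - a) ^ 2) =
      Exp j P (fun Q => F Q * F Q) - 2 * a * Exp j P F + a ^ 2 := by
  have : (fun Q => (F Q - a) ^ 2) = fun Q => (F Q * F Q - 2 * a * F Q) + a ^ 2 := by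
    funext Q
    ring
  rw [this, Exp_add, Exp_sub, Exp_const_mul, Exp_const hP]

theorem pur_covF_self_le {j : ℕ} {P : Sys X} (hP : Prob j P) (F : Sys X → ℝ) (a : ℝ) :
    covF j P F F ≤ Exp j P (fun Q => (F Q - a) ^ 2) := by
  rw [pur_Exp_sq_sub hP, covF]
  nlinarith [sq_nonneg (Exp j P F - a)]

theorem pur_covF_self_eq {j : ℕ} {P : Sys X} (hP : Prob j P) (F : Sys X → ℝ) :
    Exp j P (fun Q => (F Q - Exp j P F) ^ 2) = covF j P F F := by
  rw [pur_Exp_sq_sub hP, covF]
  ring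

theorem pur_abs_covF_le {j : ℕ} {P : Sys X} (hP : Prob j P) (F G : Sys X → ℝ) :
    |covF j P F G| ≤ 1 / 2 * covF j P F F + 1 / 2 * covF j P G G := by
  have h1 := sq_Exp_le hP (fun Q => F Q + G Q)
  have h2 := sq_Exp_le hP (fun Q => F Q - G Q)
  have e1 : (fun Q => (F Q + G Q) ^ 2) = fun Q => (F Q * F Q + G Q * G Q) + 2 * (F Q * G Q) := by
    funext Q
    ring
  have e2 : (fun Q => (F Q - G Q) ^ 2) = fun Q => (F Q * F Q + G Q * G Q) - 2 * (F Q * G Q) := by
    funext Q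
    ring
  rw [e1, Exp_add, Exp_add, Exp_add, Exp_const_mul] at h1
  rw [e2, Exp_sub, Exp_sub, Exp_add, Exp_const_mul] at h2
  unfold covF
  rw [abs_le]
  constructor <;> nlinarith

/-- Mean over the level `e` and two independent sites. -/
noncomputable def purE (e : ℕ) (R : Sys X) (f : Sys X → I → I → ℝ) : ℝ :=
  Exp e R (fun S => avg (fun i => avg (fun i' => f S i i')))

theorem purE_mono {e : ℕ} {R : Sys X} (hR : Prob e R) {f g : Sys X → I → I → ℝ}
    (h : AllAt e R (fun S => ∀ i i', f S i i' ≤ g S i i')) : purE e R f ≤ purE e R g :=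
  Exp_mono hR (h.imp fun _ hS => avg_mono fun i => avg_mono fun i' => hS i i')

theorem purE_add (e : ℕ) (R : Sys X) (f g : Sys X → I → I → ℝ) :
    purE e R (fun S i i' => f S i i' + g S i i') = purE e R f + purE e R g := by
  simp only [purE, avg_add, Exp_add]

theorem purE_sum {J : Type} (s : Finset J) (e : ℕ) (R : Sys X) (f : J → Sys X → I → I → ℝ) :
    purE e R (fun S i i' => ∑ c ∈ s, f c S i i') = ∑ c ∈ s, purE e R (f c) := by
  simp only [purE, avg_sum, Exp_sum]

theorem purE_comp (j e : ℕ) (R : Sys X) (f : Sys X → I → I → ℝ) :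
    purE e R (fun S i i' => Exp j S (fun Q => f Q i i')) = purE (j + e) R f := by
  simp only [purE, Exp_comp, Exp_avg]

theorem purE_half [Nonempty I] (e : ℕ) (R : Sys X) (f : Sys X → I → ℝ) :
    purE e R (fun S i i' => 1 / 2 * f S i + 1 / 2 * f S i') = Exp e R (fun S => avg (f S)) := by
  simp only [purE, avg_add, avg_const, avg_const_mul]
  refine congrArg _ (funext fun S => ?_)
  ring

/-- The mean one-step conditional variance is the martingale increment. -/
theorem pur_var_mean (obs : I → Col → X → ℝ) {D : ℕ} (R : Sys X) {d j : ℕ} (h : d + j + 1 ≤ D)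
    (τ : Shape Col K d) :
    Exp (D - d - (j + 1)) R (fun P => avg (fun i =>
      covF 1 P (fun Q => Exp j Q (Mom (obs i) d τ)) (fun Q => Exp j Q (Mom (obs i) d τ)))) =
      qq obs D R d j τ - qq obs D R d (j + 1) τ := by
  unfold qq covF
  have e1 : D - d - j = (D - d - (j + 1)) + 1 := by omega
  rw [e1, pur_Exp_succ_bot]
  simp only [avg_sub, Exp_sub, Exp_avg, pur_Exp_succ_top j, sq]

theorem pur_cv_stem (obs : I → Col → X → ℝ) (d j : ℕ) (τ : Shape Col K (d + 1))
    (h0 : (τ.1 : ℕ) = 0) (S : Sys X) (i i' : I) :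
    cv obs (d + 1) j τ S i i' = cv obs d (j + 1) (τ.2 0) S i i' := by
  simp only [cv, pur_Exp_Mom_stem _ d j τ h0]

theorem pur_cv_one (obs : I → Col → X → ℝ) (d : ℕ) (s : Shape Col K d) (P : Sys X) (i i' : I) :
    cv obs d 1 s P i i' = covF 1 P (Mom (obs i) d s) (Mom (obs i') d s) +
      Exp 1 P (fun Q => cv obs d 0 s Q i i') := by
  have : (fun Q => cv obs d 0 s Q i i') = fun Q =>
      Mom (fun c x => obs i c x * obs i' c x) d s Q - Mom (obs i) d s Q * Mom (obs i') d s Q := rfl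
  rw [this, Exp_sub]
  unfold cv covF
  ring

theorem pur_cv_decomp (obs : I → Col → X → ℝ) (d j : ℕ) (s : Shape Col K d) (S : Sys X)
    (i i' : I) :
    cv obs d (j + 1) s S i i' - covF j S (Ybar obs d s i) (Ybar obs d s i') =
      Exp j S (fun P => cv obs d 1 s P i i') := by
  have e1 : (fun P => cv obs d 1 s P i i') = fun P =>
      Exp 1 P (Mom (fun c x => obs i c x * obs i' c x) d s) -
        Ybar obs d s i P * Ybar obs d s i' P := rfl
  have e2 : ∀ i, Exp (j + 1) S (Mom (obs i) d s) = Exp j S (Ybar obs d s i) :=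
    fun i => pur_Exp_succ_bot j S _
  rw [e1, Exp_sub]
  unfold cv covF
  rw [e2, e2, pur_Exp_succ_bot]
  ring

theorem pur_Pur_one_le [Nonempty I] (obs : I → Col → X → ℝ) {D : ℕ} {R : Sys X} (hR : Prob D R)
    {d : ℕ} (h : d + 1 ≤ D) (s : Shape Col K d) {V : ℝ}
    (hV : Exp (D - d - 1) R (fun P => avg (fun i =>
      covF 1 P (Mom (obs i) d s) (Mom (obs i) d s))) ≤ V) :
    Pur obs D R d 1 s ≤ V + Pur obs D R d 0 s := by
  have e0 : Pur obs D R d 0 s = purE (D - d - 1) R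
      (fun P i i' => Exp 1 P (fun Q => |cv obs d 0 s Q i i'|)) := by
    rw [purE_comp, show 1 + (D - d - 1) = D - d - 0 by omega]
    rfl
  rw [← purE_half] at hV
  refine le_trans ?_ (add_le_add hV e0.ge)
  rw [← purE_add]
  refine purE_mono (pur_prob_le hR (by omega))
    ((pur_allAt (b := 1) hR (by omega)).imp fun P hP i i' => ?_)
  rw [pur_cv_one]
  exact (abs_add_le _ _).trans (add_le_add (pur_abs_covF_le hP _ _) (abs_Exp_le hP _))

theorem pur_Pur_zero_le {obs : I → Col → X → ℝ} (ho : ∀ i c x, |obs i c x| ≤ 1) {D : ℕ}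
    {R : Sys X} (hR : Prob D R) {d : ℕ} (h : d + 1 ≤ D) (τ : Shape Col K (d + 1)) :
    Pur obs D R (d + 1) 0 τ ≤ ∑ c, Pur obs D R d 1 (τ.2 c) := by
  have e0 : ∑ c, Pur obs D R d 1 (τ.2 c) =
      purE (D - d - 1) R (fun P i i' => ∑ c, |cv obs d 1 (τ.2 c) P i i'|) := by
    rw [purE_sum]
    rfl
  have e1 : Pur obs D R (d + 1) 0 τ =
      purE (D - d - 1) R (fun P i i' => |cv obs (d + 1) 0 τ P i i'|) := by
    rw [show D - d - 1 = D - (d + 1) - 0 by omega]
    rfl
  rw [e0, e1]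
  refine purE_mono (pur_prob_le hR (by omega))
    ((pur_allAt (b := d + 1) hR (by omega)).imp fun P hP i i' => ?_)
  have e2 : cv obs (d + 1) 0 τ P i i' =
      ∏ c, Exp 1 P (Mom (fun c x => obs i c x * obs i' c x) d (τ.2 c)) -
        ∏ c, (Exp 1 P (Mom (obs i) d (τ.2 c)) * Exp 1 P (Mom (obs i') d (τ.2 c))) := by
    rw [Finset.prod_mul_distrib]
    rfl
  rw [e2]
  refine pur_abs_prod_sub _ _ _ (fun c => pur_abs_Exp_Mom_le (pur_abs_mul_le ho i i') _ hP)
    (fun c => ?_)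
  rw [abs_mul]
  exact mul_le_one₀ (pur_abs_Exp_Mom_le (ho i) _ hP) (abs_nonneg _)
    (pur_abs_Exp_Mom_le (ho i') _ hP)

theorem pur_var_succ_le {a : Col → X → ℝ} (ha : ∀ c x, |a c x| ≤ 1) {d : ℕ}
    (τ : Shape Col K (d + 1)) {P : Sys X} (hP : Prob (d + 2) P) :
    covF 1 P (Mom a (d + 1) τ) (Mom a (d + 1) τ) ≤ (((τ.1 : ℕ) + 1 : ℕ) : ℝ) * ∑ c,
      covF 1 P (fun Q => Exp 1 Q (Mom a d (τ.2 c))) (fun Q => Exp 1 Q (Mom a d (τ.2 c))) := by
  have hP1 : Prob 1 P := pur_prob_le hP (by omega)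
  refine (pur_covF_self_le hP1 _
    (∏ c, Exp 1 P (fun Q => Exp 1 Q (Mom a d (τ.2 c))))).trans ?_
  simp only [← pur_covF_self_eq hP1]
  rw [← Exp_sum, ← Exp_const_mul]
  refine Exp_mono hP1 ((pur_allAt (b := d + 1) (e := 1) hP le_rfl).imp fun Q hQ => ?_)
  rw [pur_Mom_succ]
  have h1 := pur_abs_prod_sub Finset.univ (fun c => Exp 1 Q (Mom a d (τ.2 c)))
    (fun c => Exp 1 P (fun Q => Exp 1 Q (Mom a d (τ.2 c))))
    (fun c => pur_abs_Exp_Mom_le ha _ hQ)
    (fun c => by
      rw [← pur_Exp_succ_top 1]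
      exact pur_abs_Exp_Mom_le (j := 2) ha _ hP)
  have h2 := sq_sum_le_card_mul_sum_sq (s := Finset.univ)
    (f := fun c => |Exp 1 Q (Mom a d (τ.2 c)) - Exp 1 P (fun Q => Exp 1 Q (Mom a d (τ.2 c)))|)
  simp only [sq_abs, Finset.card_univ, Fintype.card_fin] at h2
  refine le_trans ?_ h2
  rw [← sq_abs]
  exact pow_le_pow_left₀ (abs_nonneg _) h1 2

end aux

variable {X Col I : Type} [Fintype I] [Nonempty I] {K : ℕ}

theorem qq_nonneg (obs : I → Col → X → ℝ) {D : ℕ} {R : Sys X} (hR : Prob D R) (d j : ℕ)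
    (τ : Shape Col K d) : 0 ≤ qq obs D R d j τ :=
  Exp_nonneg (pur_prob_le hR (by omega))
    (allAt_of_forall _ _ fun _ => avg_nonneg fun _ => sq_nonneg _)

theorem qq_le_one {obs : I → Col → X → ℝ} (ho : ∀ i c x, |obs i c x| ≤ 1) {D : ℕ} {R : Sys X}
    (hR : Prob D R) {d j : ℕ} (h : d + j ≤ D) (τ : Shape Col K d) : qq obs D R d j τ ≤ 1 := by
  have hRe : Prob (D - d - j) R := pur_prob_le hR (by omega)
  rw [← Exp_const hRe 1]
  refine Exp_mono hRe ((pur_allAt (b := d + j) hR (by omega)).imp fun S hS => ?_)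
  rw [← avg_const (I := I) 1]
  refine avg_mono fun i => ?_
  exact (sq_le_one_iff_abs_le_one _).2 (pur_abs_Exp_Mom_le (ho i) τ hS)

/-- Conditional means form a martingale, so the mean squares decrease upwards. -/
theorem qq_succ_le (obs : I → Col → X → ℝ) {D : ℕ} {R : Sys X} (hR : Prob D R) {d j : ℕ}
    (h : d + j + 1 ≤ D) (τ : Shape Col K d) : qq obs D R d (j + 1) τ ≤ qq obs D R d j τ := by
  rw [← sub_nonneg, ← pur_var_mean obs R h τ]
  refine Exp_nonneg (pur_prob_le hR (by omega))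
    ((pur_allAt (b := 1) hR (by omega)).imp fun P hP => avg_nonneg fun i => ?_)
  rw [← pur_covF_self_eq hP]
  exact Exp_nonneg hP (allAt_of_forall _ _ fun _ => sq_nonneg _)

/-- A root with a single child. -/
theorem qq_stem (obs : I → Col → X → ℝ) (D : ℕ) (R : Sys X) (d j : ℕ)
    (τ : Shape Col K (d + 1)) (h0 : (τ.1 : ℕ) = 0) :
    qq obs D R (d + 1) j τ = qq obs D R d (j + 1) (τ.2 0) := by
  unfold qq
  rw [show D - (d + 1) - j = D - d - (j + 1) by omega]
  simp only [pur_Exp_Mom_stem _ d j τ h0]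

theorem Vr_le_one {obs : I → Col → X → ℝ} (ho : ∀ i c x, |obs i c x| ≤ 1) {D : ℕ} {R : Sys X}
    (hR : Prob D R) {d : ℕ} (h : d ≤ D) (τ : Shape Col K d) : Vr obs D R d τ ≤ 1 := by
  have hR' : Prob (d + (D - d)) R := pur_prob_le hR (by omega)
  unfold Vr cv
  simp only [avg_sub]
  rw [← avg_mul_avg]
  have h1 : avg (fun i => avg (fun i' =>
      Exp (D - d) R (Mom (fun c x => obs i c x * obs i' c x) d τ))) ≤ 1 := by
    rw [← avg_const (I := I) 1]
    refine avg_mono fun i => ?_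
    rw [← avg_const (I := I) 1]
    exact avg_mono fun i' =>
      (le_abs_self _).trans (pur_abs_Exp_Mom_le (pur_abs_mul_le ho i i') τ hR')
  nlinarith [mul_self_nonneg (avg fun i => Exp (D - d) R (Mom (obs i) d τ))]

theorem pur_Bnd_succ (n : ℕ) (tiny : ℝ) (g : (d : ℕ) → Shape Col K d → ℝ) (d : ℕ)
    (τ : Shape Col K (d + 1)) :
    Bnd n tiny g (d + 1) τ = ∑ c, Bnd n tiny g d (τ.2 c) +
      if (τ.1 : ℕ) = 0 then 0
      else tiny + (if Even (d + 1) then 1 else 0) + n * ∑ c, g d (τ.2 c) := by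
  rw [Bnd]

theorem pur_Bnd_nonneg {n D : ℕ} {tiny : ℝ} (ht : 0 ≤ tiny) {g : (d : ℕ) → Shape Col K d → ℝ}
    (hg : ∀ d τ, d + 2 ≤ D → 0 ≤ g d τ) (d : ℕ) (hd : d + 1 ≤ D) (τ : Shape Col K d) :
    0 ≤ Bnd n tiny g d τ ∧ (¬ Good d τ → 1 ≤ Bnd n tiny g d τ) := by
  induction d with
  | zero => exact ⟨ht, fun h => absurd trivial h⟩
  | succ d ih =>
    have h1 : ∀ c, 0 ≤ Bnd n tiny g d (τ.2 c) := fun c => (ih (by omega) _).1
    have h2 : 0 ≤ ∑ c, Bnd n tiny g d (τ.2 c) := Finset.sum_nonneg fun c _ => h1 c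
    have h3 : 0 ≤ (n : ℝ) * ∑ c, g d (τ.2 c) :=
      mul_nonneg (Nat.cast_nonneg n) (Finset.sum_nonneg fun c _ => hg d _ hd)
    have h4 : (0 : ℝ) ≤ if (τ.1 : ℕ) = 0 then 0
        else tiny + (if Even (d + 1) then 1 else 0) + n * ∑ c, g d (τ.2 c) := by
      split_ifs <;> linarith
    rw [pur_Bnd_succ]
    refine ⟨add_nonneg h2 h4, fun hG => ?_⟩
    by_cases hc : ∀ c, Good d (τ.2 c)
    · have h5 : ¬ (Even (d + 1) → (τ.1 : ℕ) = 0) := fun h => hG ⟨h, hc⟩
      rw [Classical.not_imp] at h5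
      rw [if_neg h5.2, if_pos h5.1]
      linarith
    · obtain ⟨c, hc⟩ := not_forall.1 hc
      have h5 := (ih (by omega) _).2 hc
      have h6 : Bnd n tiny g d (τ.2 c) ≤ ∑ c, Bnd n tiny g d (τ.2 c) :=
        Finset.single_le_sum (f := fun c => Bnd n tiny g d (τ.2 c)) (fun c _ => h1 c)
          (Finset.mem_univ c)
      linarith

/-- The part of the covariance that is not seen by `Ybar`. -/
theorem pur_Pur_one_succ_le {obs : I → Col → X → ℝ} (ho : ∀ i c x, |obs i c x| ≤ 1) {D n : ℕ}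
    {R : Sys X} (hR : Prob D R) {d : ℕ} (hd : d + 2 ≤ D) (τ : Shape Col K (d + 1))
    (hn : Shape.size (d + 1) τ ≤ n) :
    Pur obs D R (d + 1) 1 τ ≤ ∑ c, Pur obs D R d 0 (τ.2 c) +
      n * ∑ c, (qq obs D R d 0 (τ.2 c) - qq obs D R d 2 (τ.2 c)) := by
  have hkn : (((τ.1 : ℕ) + 1 : ℕ) : ℝ) ≤ n := by
    exact_mod_cast (Shape.succ_le_size τ).trans hn
  have hn1 : (1 : ℝ) ≤ n := by
    exact_mod_cast (Shape.one_le_size _ τ).trans hn
  have hV : Exp (D - (d + 1) - 1) R (fun P => avg (fun i =>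
      covF 1 P (Mom (obs i) (d + 1) τ) (Mom (obs i) (d + 1) τ))) ≤
      (((τ.1 : ℕ) + 1 : ℕ) : ℝ) * ∑ c, (qq obs D R d 1 (τ.2 c) - qq obs D R d 2 (τ.2 c)) := by
    have e1 : ∀ c, qq obs D R d 1 (τ.2 c) - qq obs D R d 2 (τ.2 c) = _ :=
      fun c => (pur_var_mean obs R (j := 1) hd (τ.2 c)).symm
    simp only [e1]
    rw [← Exp_sum, ← Exp_const_mul, show D - (d + 1) - 1 = D - d - (1 + 1) by omega]
    refine Exp_mono (pur_prob_le hR (by omega))
      ((pur_allAt (b := d + 2) hR (by omega)).imp fun P hP => ?_)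
    rw [← avg_sum, ← avg_const_mul]
    exact avg_mono fun i => pur_var_succ_le (ho i) τ hP
  have h1 := pur_Pur_one_le obs hR (d := d + 1) hd τ hV
  have h2 := pur_Pur_zero_le ho hR (d := d) (by omega) τ
  have h3 : ∑ c, Pur obs D R d 1 (τ.2 c) ≤
      ∑ c, ((qq obs D R d 0 (τ.2 c) - qq obs D R d 1 (τ.2 c)) + Pur obs D R d 0 (τ.2 c)) :=
    Finset.sum_le_sum fun c _ => pur_Pur_one_le obs hR (by omega) _
      (pur_var_mean obs R (j := 0) (by omega) (τ.2 c)).le
  rw [Finset.sum_add_distrib] at h3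
  have h4 : 0 ≤ ∑ c, (qq obs D R d 0 (τ.2 c) - qq obs D R d 1 (τ.2 c)) :=
    Finset.sum_nonneg fun c _ => sub_nonneg.2 (qq_succ_le obs hR (j := 0) (by omega) _)
  have h5 : 0 ≤ ∑ c, (qq obs D R d 1 (τ.2 c) - qq obs D R d 2 (τ.2 c)) :=
    Finset.sum_nonneg fun c _ => sub_nonneg.2 (qq_succ_le obs hR (j := 1) (by omega) _)
  have h6 : ∑ c, (qq obs D R d 0 (τ.2 c) - qq obs D R d 2 (τ.2 c)) =
      ∑ c, (qq obs D R d 0 (τ.2 c) - qq obs D R d 1 (τ.2 c)) +
        ∑ c, (qq obs D R d 1 (τ.2 c) - qq obs D R d 2 (τ.2 c)) := by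
    rw [← Finset.sum_add_distrib]
    exact Finset.sum_congr rfl fun c _ => by ring
  have h7 := mul_le_mul_of_nonneg_right hkn h5
  have h8 := mul_le_mul_of_nonneg_right hn1 h4
  rw [h6, mul_add]
  linarith

theorem pur_rem_le (obs : I → Col → X → ℝ) {D : ℕ} {R : Sys X} (hR : Prob D R) {d j e : ℕ}
    (h : d + 1 + j + e = D) (τ : Shape Col K d) :
    purE e R (fun S i i' =>
      |cv obs d (j + 1) τ S i i' - covF j S (Ybar obs d τ i) (Ybar obs d τ i')|) ≤
      Pur obs D R d 1 τ := by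
  have e0 : Pur obs D R d 1 τ =
      purE e R (fun S i i' => Exp j S (fun P => |cv obs d 1 τ P i i'|)) := by
    rw [purE_comp, show j + e = D - d - 1 by omega]
    rfl
  rw [e0]
  refine purE_mono (pur_prob_le hR (by omega))
    ((pur_allAt (b := j) hR (by omega)).imp fun S hS i i' => ?_)
  rw [pur_cv_decomp]
  exact abs_Exp_le hS _

theorem pur_good {obs : I → Col → X → ℝ} (ho : ∀ i c x, |obs i c x| ≤ 1) {D n : ℕ} (hD : Odd D)
    {R : Sys X} (hR : Prob D R) {tiny : ℝ} (hT : Tiny obs K D n R tiny)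
    (d : ℕ) (hd : d + 1 ≤ D) (τ : Shape Col K d) (hn : Shape.size d τ ≤ n) (hG : Good d τ) :
    (∀ j, Even (d + j) → d + j + 1 ≤ D → Pur obs D R d j τ ≤
      Bnd n tiny (fun d' τ' => qq obs D R d' 0 τ' - qq obs D R d' 2 τ') d τ) ∧
    Vr obs D R d τ ≤ Bnd n tiny (fun d' τ' => qq obs D R d' 0 τ' - qq obs D R d' 2 τ') d τ := by
  induction d with
  | zero =>
    exact ⟨fun j hj hjD => hT.leaf τ j (by simpa using hj) (by omega), hT.leafVar τ⟩
  | succ d ih =>
    have ih' := fun c => ih (by omega) (τ.2 c) ((Shape.size_child_le τ c).trans hn) (hG.2 c)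
    rw [pur_Bnd_succ]
    by_cases h0 : (τ.1 : ℕ) = 0
    · rw [if_pos h0, add_zero, pur_sum_one h0]
      refine ⟨fun j hj hjD => ?_, ?_⟩
      · have e1 : Pur obs D R (d + 1) j τ = Pur obs D R d (j + 1) (τ.2 0) := by
          unfold Pur
          rw [show D - (d + 1) - j = D - d - (j + 1) by omega]
          simp only [pur_cv_stem obs d j τ h0]
        rw [e1]
        exact (ih' 0).1 (j + 1) (by rwa [show d + (j + 1) = d + 1 + j by omega]) (by omega)
      · have e1 : Vr obs D R (d + 1) τ = Vr obs D R d (τ.2 0) := by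
          unfold Vr
          rw [show D - d = D - (d + 1) + 1 by omega]
          simp only [pur_cv_stem obs d _ τ h0]
        rw [e1]
        exact (ih' 0).2
    · have hne : ¬ Even (d + 1) := fun h => h0 (hG.1 h)
      have hodd : Odd (d + 1) := Nat.not_even_iff_odd.1 hne
      have hev : Even (d + 0) := by
        rw [Nat.even_add_one, not_not] at hne
        exact hne
      rw [if_neg h0, if_neg hne, add_zero]
      have h1 := pur_Pur_one_succ_le ho hR (d := d) hd τ hn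
      have h2 : ∑ c, Pur obs D R d 0 (τ.2 c) ≤ ∑ c, Bnd n tiny
          (fun d' τ' => qq obs D R d' 0 τ' - qq obs D R d' 2 τ') d (τ.2 c) :=
        Finset.sum_le_sum fun c _ => (ih' c).1 0 hev (by omega)
      refine ⟨fun j hj hjD => ?_, ?_⟩
      · have hjo : Odd j := by
          rw [Nat.even_add, iff_comm] at hj
          exact Nat.not_even_iff_odd.1 fun h => hne (hj.1 h)
        obtain ⟨j', rfl⟩ : ∃ j', j = j' + 1 := ⟨j - 1, by have := hjo.pos; omega⟩
        have hj' : Even j' := by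
          rw [← Nat.not_even_iff_odd, Nat.even_add_one, not_not] at hjo
          exact hjo
        have h3 := hT.br (d + 1) τ j' hodd hG hn hj' (by omega)
        have h4 := pur_rem_le obs hR (d := d + 1) (j := j') (e := D - (d + 1 + 1) - j')
          (by omega) τ
        have h5 : Pur obs D R (d + 1) (j' + 1) τ ≤
            purE (D - (d + 1 + 1) - j') R (fun S i i' =>
              |covF j' S (Ybar obs (d + 1) τ i) (Ybar obs (d + 1) τ i')|) +
            purE (D - (d + 1 + 1) - j') R (fun S i i' => |cv obs (d + 1) (j' + 1) τ S i i' -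
              covF j' S (Ybar obs (d + 1) τ i) (Ybar obs (d + 1) τ i')|) := by
          rw [← purE_add, show D - (d + 1 + 1) - j' = D - (d + 1) - (j' + 1) by omega]
          refine purE_mono (f := fun S i i' => |cv obs (d + 1) (j' + 1) τ S i i'|)
            (pur_prob_le hR (by omega)) (allAt_of_forall _ _ fun S i i' => ?_)
          refine le_trans (le_of_eq ?_) (abs_add_le _ _)
          rw [add_sub_cancel]
        have h6 : purE (D - (d + 1 + 1) - j') R (fun S i i' =>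
              |covF j' S (Ybar obs (d + 1) τ i) (Ybar obs (d + 1) τ i')|) ≤ tiny := h3
        linarith
      · have hd3 : d + 1 + 2 ≤ D := by
          rcases hD with ⟨a, ha⟩
          rcases hodd with ⟨b, hb⟩
          omega
        have h3 := hT.brVar (d + 1) τ hodd hG hn hd3
        have h4 := pur_rem_le obs hR (d := d + 1) (j := D - (d + 1 + 1)) (e := 0) (by omega) τ
        have h5 : Vr obs D R (d + 1) τ ≤
            purE 0 R (fun S i i' =>
              covF (D - (d + 1 + 1)) S (Ybar obs (d + 1) τ i) (Ybar obs (d + 1) τ i')) +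
            purE 0 R (fun S i i' => |cv obs (d + 1) (D - (d + 1 + 1) + 1) τ S i i' -
              covF (D - (d + 1 + 1)) S (Ybar obs (d + 1) τ i) (Ybar obs (d + 1) τ i')|) := by
          rw [← purE_add, show D - (d + 1 + 1) + 1 = D - (d + 1) by omega]
          refine purE_mono (e := 0) (R := R)
            (f := fun S i i' => cv obs (d + 1) (D - (d + 1)) τ S i i') trivial
            (allAt_of_forall _ _ fun S i i' => ?_)
          linarith [le_abs_self (cv obs (d + 1) (D - (d + 1)) τ S i i' -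
            covF (D - (d + 1 + 1)) S (Ybar obs (d + 1) τ i) (Ybar obs (d + 1) τ i'))]
        have h6 : purE 0 R (fun S i i' =>
            covF (D - (d + 1 + 1)) S (Ybar obs (d + 1) τ i) (Ybar obs (d + 1) τ i')) ≤ tiny := h3
        linarith

/-- The main recursion. -/
theorem Vr_le_Bnd {obs : I → Col → X → ℝ} (ho : ∀ i c x, |obs i c x| ≤ 1) {D n : ℕ} (hD : Odd D)
    {R : Sys X} (hR : Prob D R) {tiny : ℝ} (ht : 0 ≤ tiny) (hT : Tiny obs K D n R tiny)
    (d : ℕ) (hd : d + 1 ≤ D) (τ : Shape Col K d) (hn : Shape.size d τ ≤ n) :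
    Vr obs D R d τ ≤ Bnd n tiny (fun d' τ' => qq obs D R d' 0 τ' - qq obs D R d' 2 τ') d τ := by
  by_cases hG : Good d τ
  · exact (pur_good ho hD hR hT d hd τ hn hG).2
  · refine (Vr_le_one ho hR (by omega) τ).trans
      ((pur_Bnd_nonneg (D := D) ht (fun d' τ' h => ?_) d hd τ).2 hG)
    exact sub_nonneg.2 ((qq_succ_le obs hR (j := 1) (by omega) τ').trans
      (qq_succ_le obs hR (j := 0) (by omega) τ'))

end Crest.Agent.R141
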