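import Crest.Agent.R141.BasicT

/-! Row 141, module D2: linear response of a tilt and the contraction inequality. -/

set_option autoImplicit false

namespace Crest.Agent.R141

open Finset Sys

variable {X : Type}

private theorem lr_Exp_succ (j : ℕ) (S : Sys X) (F : Sys X → ℝ) :
    Exp (j + 1) S F = ∑ ω, S.p ω * Exp j (S.ch ω) F := rfl

private theorem lr_Lin_succ (m : ℕ → ℝ) (j : ℕ) (S : Sys X) (F G : Sys X → ℝ) :
    Lin m (j + 1) S F G = ∑ ω, S.p ω *
      (m j * ((Exp j (S.ch ω) F - Exp (j + 1) S F) * (Exp j (S.ch ω) G - Exp (j + 1) S G)) +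
        Lin m j (S.ch ω) F G) := rfl

private theorem lr_abs_sum_le {j : ℕ} {S : Sys X} (hS : Prob (j + 1) S) {g : S.ι → ℝ} {c : ℝ}
    (h : ∀ ω, |g ω| ≤ c) : |∑ ω, S.p ω * g ω| ≤ c := by
  refine (abs_sum_le_sum_abs _ _).trans ?_
  calc ∑ ω, |S.p ω * g ω| ≤ ∑ ω, S.p ω * c := by
        refine sum_le_sum fun ω _ => ?_
        rw [abs_mul, abs_of_pos (hS.1 ω)]
        exact mul_le_mul_of_nonneg_left (h ω) (hS.1 ω).le
    _ = c := by rw [← sum_mul, hS.2.1, one_mul]

theorem Lin_add_right (m : ℕ → ℝ) (j : ℕ) (S : Sys X) (F G G' : Sys X → ℝ) :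
    Lin m j S F (fun Q => G Q + G' Q) = Lin m j S F G + Lin m j S F G' := by
  induction j generalizing S with
  | zero => simp [Lin]
  | succ j ih =>
    rw [lr_Lin_succ, lr_Lin_succ, lr_Lin_succ, ← sum_add_distrib]
    refine sum_congr rfl fun ω _ => ?_
    rw [ih, Exp_add, Exp_add]; ring

theorem Lin_sub_right (m : ℕ → ℝ) (j : ℕ) (S : Sys X) (F G G' : Sys X → ℝ) :
    Lin m j S F (fun Q => G Q - G' Q) = Lin m j S F G - Lin m j S F G' := by
  induction j generalizing S with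
  | zero => simp [Lin]
  | succ j ih =>
    rw [lr_Lin_succ, lr_Lin_succ, lr_Lin_succ, ← sum_sub_distrib]
    refine sum_congr rfl fun ω _ => ?_
    rw [ih, Exp_sub, Exp_sub]; ring

theorem Lin_const_mul_right (m : ℕ → ℝ) (j : ℕ) (S : Sys X) (c : ℝ) (F G : Sys X → ℝ) :
    Lin m j S F (fun Q => c * G Q) = c * Lin m j S F G := by
  induction j generalizing S with
  | zero => simp [Lin]
  | succ j ih =>
    rw [lr_Lin_succ, lr_Lin_succ, mul_sum]
    refine sum_congr rfl fun ω _ => ?_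
    rw [ih, Exp_const_mul, Exp_const_mul]; ring

theorem Lin_comm (m : ℕ → ℝ) (j : ℕ) (S : Sys X) (F G : Sys X → ℝ) :
    Lin m j S F G = Lin m j S G F := by
  induction j generalizing S with
  | zero => simp [Lin]
  | succ j ih =>
    rw [lr_Lin_succ, lr_Lin_succ]
    refine sum_congr rfl fun ω _ => ?_
    rw [ih]; ring

theorem abs_Lin_le {m : ℕ → ℝ} (hm : ∀ d, 0 < m d) (hm1 : ∀ d, m d ≤ 1) {j : ℕ} {S : Sys X}
    (hS : Prob j S) {F G : Sys X → ℝ} {a b : ℝ} (hF : AllAt j S (fun Q => |F Q| ≤ a))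
    (hG : AllAt j S (fun Q => |G Q| ≤ b)) : |Lin m j S F G| ≤ 4 * j * (a * b) := by
  induction j generalizing S with
  | zero => simp [Lin]
  | succ j ih =>
    rw [lr_Lin_succ]
    refine lr_abs_sum_le hS fun ω => ?_
    have h1 := abs_Exp_le_of_le (hS.2.2 ω) (hF ω)
    have h2 := abs_Exp_le_of_le (hS.2.2 ω) (hG ω)
    have h3 := abs_Exp_le_of_le hS hF
    have h4 := abs_Exp_le_of_le hS hG
    have h5 := ih (hS.2.2 ω) (hF ω) (hG ω)
    have h6 : |Exp j (S.ch ω) F - Exp (j + 1) S F| ≤ 2 * a :=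
      (abs_sub _ _).trans (by linarith)
    have h7 : |Exp j (S.ch ω) G - Exp (j + 1) S G| ≤ 2 * b :=
      (abs_sub _ _).trans (by linarith)
    have h8 := mul_le_mul h6 h7 (abs_nonneg _) ((abs_nonneg _).trans h6)
    refine (abs_add_le _ _).trans ?_
    rw [abs_mul, abs_mul, abs_of_pos (hm j)]
    have h9 := mul_le_of_le_one_left (mul_nonneg (abs_nonneg (Exp j (S.ch ω) F - Exp (j + 1) S F))
      (abs_nonneg (Exp j (S.ch ω) G - Exp (j + 1) S G))) (hm1 j)
    push_cast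
    linarith

/-- With all exponents equal to one the form is the covariance. -/
theorem Lin_one {j : ℕ} {S : Sys X} (hS : Prob j S) (F G : Sys X → ℝ) :
    Lin (fun _ => 1) j S F G = Exp j S (fun Q => F Q * G Q) - Exp j S F * Exp j S G := by
  induction j generalizing S with
  | zero => simp [Lin, Exp]
  | succ j ih =>
    rw [lr_Lin_succ]
    have h : ∀ ω, S.p ω * (1 * ((Exp j (S.ch ω) F - Exp (j + 1) S F) *
        (Exp j (S.ch ω) G - Exp (j + 1) S G)) + Lin (fun _ => 1) j (S.ch ω) F G) =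
        S.p ω * Exp j (S.ch ω) (fun Q => F Q * G Q) -
          Exp (j + 1) S F * (S.p ω * Exp j (S.ch ω) G) -
          Exp (j + 1) S G * (S.p ω * Exp j (S.ch ω) F) +
          Exp (j + 1) S F * Exp (j + 1) S G * S.p ω := by
      intro ω
      rw [ih (hS.2.2 ω)]; ring
    simp only [h, sum_add_distrib, sum_sub_distrib, ← mul_sum, hS.2.1, ← lr_Exp_succ]
    ring

private theorem lr_exp_bound {x : ℝ} (hx : |x| ≤ 3) :
    |Real.exp x - 1 - x| ≤ Real.exp 3 * x ^ 2 := by
  have h := Complex.norm_exp_sub_sum_le_norm_mul_exp (x : ℂ) 2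
  have e : Complex.exp x - ∑ m ∈ range 2, (x : ℂ) ^ m / m.factorial =
      ((Real.exp x - 1 - x : ℝ) : ℂ) := by
    simp [sum_range_succ]; ring
  rw [e, Complex.norm_real, Complex.norm_real, Real.norm_eq_abs, Real.norm_eq_abs, sq_abs] at h
  rw [mul_comm]
  exact h.trans (mul_le_mul_of_nonneg_left (Real.exp_le_exp.mpr hx) (sq_nonneg _))

private theorem lr_log_T {m : ℕ → ℝ} (hm : ∀ d, 0 < m d) (hm1 : ∀ d, m d ≤ 1) {j : ℕ} {S : Sys X}
    (hS : Prob j S) {h : Sys X → ℝ} {a : ℝ} (ha : a ≤ 1) (hh : AllAt j S (fun Q => |h Q| ≤ a)) :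
    Exp j S h ≤ Real.log (T m j S (fun Q => Real.exp (h Q))) ∧
      Real.log (T m j S (fun Q => Real.exp (h Q))) ≤ Exp j S h + a ^ 2 := by
  have hpos : AllAt j S (fun Q => 0 < Real.exp (h Q)) :=
    allAt_of_forall j S fun Q => Real.exp_pos _
  constructor
  · have := Exp_log_le_log_T hm hS hpos
    simpa only [Real.log_exp] using this
  · have h1 := T_le_Exp hm hm1 hS hpos
    have h2 : Exp j S (fun Q => Real.exp (h Q)) ≤ Exp j S (fun Q => h Q + (1 + a ^ 2)) := by
      refine Exp_mono hS (hh.imp fun Q hQ => ?_)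
      have h3 := Real.abs_exp_sub_one_sub_id_le (hQ.trans ha)
      have h4 : h Q ^ 2 ≤ a ^ 2 := by
        rw [← sq_abs]; exact pow_le_pow_left₀ (abs_nonneg _) hQ 2
      linarith [le_abs_self (Real.exp (h Q) - 1 - h Q)]
    rw [Exp_add, Exp_const hS] at h2
    have h5 := Real.log_le_sub_one_of_pos (T_pos (m := m) hS hpos)
    linarith

private theorem lr_aux (j : ℕ) : ∃ C : ℝ, 0 ≤ C ∧ ∀ (X : Type) (m : ℕ → ℝ),
    (∀ d, 0 < m d) → (∀ d, m d ≤ 1) → ∀ (S : Sys X) (h F : Sys X → ℝ) (a : ℝ), Prob j S →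
      a ≤ 1 → AllAt j S (fun Q => |h Q| ≤ a) → AllAt j S (fun Q => |F Q| ≤ 1) →
      |Exp j (tilt m j S (fun Q => Real.exp (h Q))) F - Exp j S F - Lin m j S F h| ≤ C * a ^ 2 := by
  induction j with
  | zero => exact ⟨0, le_rfl, fun X m _ _ S h F a _ _ _ _ => by simp [Exp, tilt, Lin]⟩
  | succ j ih =>
    obtain ⟨C, hC, ih⟩ := ih
    set E := Real.exp 3 with hE
    have hE0 : 0 < E := Real.exp_pos _
    refine ⟨(9 * E + 1) + C + (3 + 9 * E) * (C + 4 * j), by positivity, ?_⟩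
    intro X m hm hm1 S h F a hS ha hh hF
    have hb := abs_Exp_le_of_le hS hh
    have ha0 : 0 ≤ a := (abs_nonneg _).trans hb
    set Φ : Sys X → ℝ := fun Q => Real.exp (h Q) with hΦ
    set w : S.ι → ℝ := fun ω => (T m j (S.ch ω) Φ / T m (j + 1) S Φ) ^ m j with hw
    have e1 : Exp (j + 1) (tilt m (j + 1) S Φ) F =
        ∑ ω, S.p ω * w ω * Exp j (tilt m j (S.ch ω) Φ) F := rfl
    have e2 : ∑ ω, S.p ω * (m j * Exp (j + 1) S F * (Exp j (S.ch ω) h - Exp (j + 1) S h)) = 0 := by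
      have : ∀ ω, S.p ω * (m j * Exp (j + 1) S F * (Exp j (S.ch ω) h - Exp (j + 1) S h)) =
          m j * Exp (j + 1) S F * (S.p ω * Exp j (S.ch ω) h) -
            m j * Exp (j + 1) S F * Exp (j + 1) S h * S.p ω := fun ω => by ring
      simp only [this, sum_sub_distrib, ← mul_sum, hS.2.1, ← lr_Exp_succ]
      ring
    have e3 : Exp (j + 1) (tilt m (j + 1) S Φ) F - Exp (j + 1) S F - Lin m (j + 1) S F h =
        ∑ ω, S.p ω * ((w ω - 1 - m j * (Exp j (S.ch ω) h - Exp (j + 1) S h)) * Exp j (S.ch ω) F +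
          (Exp j (tilt m j (S.ch ω) Φ) F - Exp j (S.ch ω) F - Lin m j (S.ch ω) F h) +
          (w ω - 1) * (Exp j (tilt m j (S.ch ω) Φ) F - Exp j (S.ch ω) F)) := by
      rw [← sub_zero (_ - _ - _), ← e2, e1, lr_Lin_succ]
      nth_rewrite 1 [lr_Exp_succ j S F]
      rw [← sum_sub_distrib, ← sum_sub_distrib, ← sum_sub_distrib]
      refine sum_congr rfl fun ω _ => ?_
      ring
    rw [e3]
    refine lr_abs_sum_le hS fun ω => ?_
    have hSω := hS.2.2 ω
    obtain ⟨l1, l2⟩ := lr_log_T hm hm1 hS ha hh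
    obtain ⟨l3, l4⟩ := lr_log_T hm hm1 hSω ha (hh ω)
    have hbω := abs_Exp_le_of_le hSω (hh ω)
    have hFω := abs_Exp_le_of_le hSω (hF ω)
    have hT : 0 < T m (j + 1) S Φ := T_pos hS (allAt_of_forall _ _ fun Q => Real.exp_pos _)
    have hTω : 0 < T m j (S.ch ω) Φ := T_pos hSω (allAt_of_forall _ _ fun Q => Real.exp_pos _)
    set L := Real.log (T m (j + 1) S Φ)
    set Lω := Real.log (T m j (S.ch ω) Φ)
    set x := m j * (Lω - L) with hx
    have hwx : w ω = Real.exp x := by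
      simp only [hw]
      rw [Real.rpow_def_of_pos (div_pos hTω hT), Real.log_div hTω.ne' hT.ne', mul_comm]
    set dh := Exp j (S.ch ω) h - Exp (j + 1) S h with hdh
    have ha2 : a ^ 2 ≤ a := by nlinarith
    have b1 : |Lω - L - dh| ≤ a ^ 2 := by
      rw [abs_le]; constructor <;> linarith
    have b2 : |Lω - L| ≤ 3 * a := by
      rw [abs_le] at hb hbω ⊢; constructor <;> linarith
    have b3 : |x| ≤ 3 * a := by
      rw [hx, abs_mul, abs_of_pos (hm j)]
      exact (mul_le_of_le_one_left (abs_nonneg _) (hm1 j)).trans b2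
    have b4 : |x - m j * dh| ≤ a ^ 2 := by
      rw [hx, ← mul_sub, abs_mul, abs_of_pos (hm j)]
      exact (mul_le_of_le_one_left (abs_nonneg _) (hm1 j)).trans b1
    have b5 : |w ω - 1 - x| ≤ 9 * E * a ^ 2 := by
      rw [hwx]
      refine (lr_exp_bound (b3.trans (by linarith))).trans ?_
      have : x ^ 2 ≤ (3 * a) ^ 2 := by
        rw [← sq_abs]; exact pow_le_pow_left₀ (abs_nonneg _) b3 2
      nlinarith
    have b6 : |w ω - 1 - m j * dh| ≤ (9 * E + 1) * a ^ 2 := by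
      have := abs_add_le (w ω - 1 - x) (x - m j * dh)
      rw [sub_add_sub_cancel] at this
      linarith
    have b7 : |w ω - 1| ≤ (3 + 9 * E) * a := by
      have := abs_add_le (w ω - 1 - x) x
      rw [sub_add_cancel] at this
      have h9 : 9 * E * a ^ 2 ≤ 9 * E * a := mul_le_mul_of_nonneg_left ha2 (by positivity)
      linarith
    have b8 := ih X m hm hm1 (S.ch ω) h F a hSω ha (hh ω) (hF ω)
    have b9 := abs_Lin_le hm hm1 hSω (hF ω) (hh ω)
    have b10 : |Exp j (tilt m j (S.ch ω) Φ) F - Exp j (S.ch ω) F| ≤ (C + 4 * j) * a := by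
      have := abs_add_le (Exp j (tilt m j (S.ch ω) Φ) F - Exp j (S.ch ω) F - Lin m j (S.ch ω) F h)
        (Lin m j (S.ch ω) F h)
      rw [sub_add_cancel] at this
      have h9 : C * a ^ 2 ≤ C * a := mul_le_mul_of_nonneg_left ha2 hC
      linarith
    have b11 := mul_le_mul b7 b10 (abs_nonneg _) (by positivity)
    have b12 := mul_le_mul b6 hFω (abs_nonneg _) (by positivity)
    refine (abs_add_three _ _ _).trans ?_
    rw [abs_mul, abs_mul]
    nlinarith

/-- First-order expansion of a tilted expectation. -/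
theorem lin_resp (D : ℕ) : ∃ C : ℝ, 0 ≤ C ∧ ∀ (j : ℕ), j ≤ D → ∀ (X : Type) (m : ℕ → ℝ),
    (∀ d, 0 < m d) → (∀ d, m d ≤ 1) → ∀ (S : Sys X) (h F : Sys X → ℝ) (a : ℝ), Prob j S →
      a ≤ 1 → AllAt j S (fun Q => |h Q| ≤ a) → AllAt j S (fun Q => |F Q| ≤ 1) →
      |Exp j (tilt m j S (fun Q => Real.exp (h Q))) F - Exp j S F - Lin m j S F h| ≤ C * a ^ 2 := by
  choose C hC hCb using lr_aux
  refine ⟨∑ k ∈ range (D + 1), C k, sum_nonneg fun k _ => hC k, ?_⟩
  intro j hj X m hm hm1 S h F a hS ha hh hF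
  refine (hCb j X m hm hm1 S h F a hS ha hh hF).trans
    (mul_le_mul_of_nonneg_right ?_ (sq_nonneg _))
  exact single_le_sum (fun k _ => hC k) (mem_range.mpr (by omega))

private theorem lr_psd {m : ℕ → ℝ} {j : ℕ} {S : Sys X} (hS : Prob j S) (hm : ∀ k, k < j → 0 ≤ m k)
    {I : Type} [Fintype I] (Y : I → Sys X → ℝ) {M : I → I → ℝ}
    (hM : ∀ u : I → ℝ, 0 ≤ ∑ i, ∑ i', M i i' * (u i * u i')) :
    0 ≤ ∑ i, ∑ i', M i i' * Lin m j S (Y i) (Y i') := by
  induction j generalizing S with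
  | zero => simp [Lin]
  | succ j ih =>
    have e : ∑ i, ∑ i', M i i' * Lin m (j + 1) S (Y i) (Y i') =
        ∑ ω, S.p ω * (m j * ∑ i, ∑ i', M i i' *
          ((Exp j (S.ch ω) (Y i) - Exp (j + 1) S (Y i)) *
            (Exp j (S.ch ω) (Y i') - Exp (j + 1) S (Y i'))) +
          ∑ i, ∑ i', M i i' * Lin m j (S.ch ω) (Y i) (Y i')) := by
      simp only [lr_Lin_succ m j S, mul_sum, ← sum_add_distrib]
      rw [sum_comm (γ := S.ι)]
      refine sum_congr rfl fun i _ => ?_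
      rw [sum_comm (γ := S.ι)]
      refine sum_congr rfl fun i' _ => sum_congr rfl fun ω _ => ?_
      ring
    rw [e]
    refine sum_nonneg fun ω _ => mul_nonneg (hS.1 ω).le (add_nonneg ?_ ?_)
    · exact mul_nonneg (hm j (by omega))
        (hM fun i => Exp j (S.ch ω) (Y i) - Exp (j + 1) S (Y i))
    · exact ih (hS.2.2 ω) fun k hk => hm k (by omega)

private theorem lr_split (m : ℕ → ℝ) (η : ℝ) (j : ℕ) (S : Sys X) (F G : Sys X → ℝ) :
    Lin m j S F G = η * Lin (fun _ => 1) j S F G + Lin (fun k => m k - η) j S F G := by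
  induction j generalizing S with
  | zero => simp [Lin]
  | succ j ih =>
    rw [lr_Lin_succ, lr_Lin_succ, lr_Lin_succ, mul_sum, ← sum_add_distrib]
    refine sum_congr rfl fun ω _ => ?_
    rw [ih]; ring

/-- The response matrix dominates `η` times the covariance matrix in Hilbert-Schmidt norm. -/
theorem lin_contract {m : ℕ → ℝ} {j : ℕ} {S : Sys X} (hS : Prob j S) {η : ℝ} (hη0 : 0 ≤ η)
    (hη : ∀ k, k < j → η ≤ m k) {I : Type} [Fintype I] (Y : I → Sys X → ℝ) :
    η ^ 2 * ∑ i, ∑ i', (Exp j S (fun Q => Y i Q * Y i' Q) - Exp j S (Y i) * Exp j S (Y i')) ^ 2 ≤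
      ∑ i, ∑ i', Lin m j S (Y i) (Y i') ^ 2 := by
  have h1 : ∀ u : I → ℝ, 0 ≤ ∑ i, ∑ i', Lin (fun _ => 1) j S (Y i) (Y i') * (u i * u i') := by
    intro u
    have := lr_psd (m := fun _ => 1) hS (fun _ _ => zero_le_one) Y (M := fun i i' => u i * u i')
      (fun v => by
        have e : ∑ i, ∑ i', u i * u i' * (v i * v i') = (∑ i, u i * v i) ^ 2 := by
          rw [sq, sum_mul_sum]
          exact sum_congr rfl fun i _ => sum_congr rfl fun i' _ => by ring
        rw [e]; exact sq_nonneg _)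
    simpa only [mul_comm] using this
  have h2 := lr_psd (m := fun k => m k - η) hS (fun k hk => sub_nonneg.mpr (hη k hk)) Y h1
  have h3 := mul_nonneg (mul_nonneg zero_le_two hη0) h2
  simp only [← Lin_one hS]
  refine (le_add_of_nonneg_right h3).trans ?_
  simp only [mul_sum, ← sum_add_distrib]
  refine sum_le_sum fun i _ => sum_le_sum fun i' _ => ?_
  rw [lr_split m η]
  nlinarith [sq_nonneg (Lin (fun k => m k - η) j S (Y i) (Y i'))]

end Crest.Agent.R141
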