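import Crest.Agent.R141.BasicAdd
import Crest.Agent.R141.LinResp

/-! Row 141, module F1: from locality of the response to small covariances along a stem. -/

set_option autoImplicit false

namespace Crest.Agent.R141

open Finset Sys

theorem stem_sq_mean {X I : Type} [Fintype I] {e : ℕ} {R : Sys X} (hR : Prob e R)
    (f : Sys X → I → I → ℝ) :
    Exp e R (fun S => avg (fun i => avg (fun i' => |f S i i'|))) ^ 2 ≤
      Exp e R (fun S => avg (fun i => avg (fun i' => f S i i' ^ 2))) := by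
  refine (sq_Exp_le hR _).trans (Exp_mono hR (allAt_of_forall _ _ fun S => ?_))
  refine (sq_avg_le _).trans (avg_mono fun i => (sq_avg_le _).trans (avg_mono fun i' => ?_))
  rw [sq_abs]

theorem stem_mean_le_sqrt {X I : Type} [Fintype I] {e : ℕ} {R : Sys X} (hR : Prob e R)
    (f : Sys X → I → I → ℝ) {loc : ℝ}
    (h : Exp e R (fun S => avg (fun i => avg (fun i' => f S i i' ^ 2))) ≤ loc) :
    Exp e R (fun S => avg (fun i => avg (fun i' => |f S i i'|))) ≤ Real.sqrt loc :=
  (le_abs_self _).trans (Real.abs_le_sqrt ((stem_sq_mean hR f).trans h))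

/-- The linear response is controlled by the two locality defects. -/
theorem stem_resp {X : Type} {m : ℕ → ℝ} (hm : Exps m) {b j : ℕ} {S : Sys X}
    (hS : Prob (b + j) S) {A : Sys (X → ℝ)} (hA : Item b (1 / 2) (3 / 2) A) {Y : Sys X → ℝ}
    {c : ℝ}
    (hlin : |Exp j (tilt (fun k => m (b + k)) j S (fun Q => Real.exp (Real.log (TA m b Q A)))) Y -
      Exp j S Y - Lin (fun k => m (b + k)) j S Y (fun Q => Real.log (TA m b Q A))| ≤ c) :
    |Lin (fun k => m (b + k)) j S Y (fun Q => Real.log (TA m b Q A))| ≤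
      |Exp j (add m (b + j) S (lift j A)) Y - Exp j S Y| +
        3 ^ j * Exp j S (fun Q => |Y (add m b Q A) - Y Q|) + c := by
  have hlo : (0 : ℝ) < 1 / 2 := by norm_num
  have hall := hS.allAt
  have hSj : Prob j S := hS.mono
  have hb : AllAt j S (fun Q => 1 / 2 ≤ TA m b Q A ∧ TA m b Q A ≤ 3 / 2) :=
    hall.imp fun Q hQ => TA_bounds hm.pos hlo hQ hA
  have hpos : AllAt j S (fun Q => 0 < TA m b Q A) := hb.imp fun Q hQ => hlo.trans_le hQ.1
  rw [tilt_congr (Ψ := fun Q => TA m b Q A) (hpos.imp fun Q hQ => Real.exp_log hQ)] at hlin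
  rw [Exp_add_lift]
  set S' := tilt (fun k => m (b + k)) j S (fun Q => TA m b Q A) with hS'
  have hP' : Prob j S' := prob_tilt' (fun k => hm.pos _) hSj hpos
  have h1 : |Exp j S' (fun Q => Y (add m b Q A)) - Exp j S' Y| ≤
      3 ^ j * Exp j S (fun Q => |Y (add m b Q A) - Y Q|) := by
    rw [← Exp_sub]
    exact (abs_Exp_le hP' _).trans (Exp_tilt_le (fun k => hm.pos _) (fun k => hm.le_one _) hSj hb
      (allAt_of_forall _ _ fun Q => abs_nonneg _))
  have h2 := abs_le.1 h1
  have h3 := abs_le.1 hlin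
  have h4 := le_abs_self (Exp j S' (fun Q => Y (add m b Q A)) - Exp j S Y)
  have h5 := neg_abs_le (Exp j S' (fun Q => Y (add m b Q A)) - Exp j S Y)
  rw [abs_le]
  constructor <;> linarith

/-- `Y i` is a bounded functional at remaining depth `b`; the items `A z i` have log-tilts whose
difference is `2 γ Y i` up to a relative error `δ`; both localities hold up to `loc`. Then the
covariances of the `Y i` over the `j` steps above are small in the mean. -/
theorem stem (D : ℕ) : ∃ C : ℝ, 0 ≤ C ∧ ∀ (b j e : ℕ), j ≤ D → ∀ (X I : Type) [Fintype I]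
    [Nonempty I] (m : ℕ → ℝ), Exps m → ∀ (R : Sys X), Prob (b + j + e) R →
    ∀ (Y : I → Sys X → ℝ) (A : Bool → I → Sys (X → ℝ)) (γ a δ loc η : ℝ),
      0 < γ → a ≤ 1 → 0 ≤ δ → 0 ≤ η → η ≤ m (b + j) →
      (∀ i Q, Prob b Q → |Y i Q| ≤ 1) →
      (∀ z i, Item b (1 / 2) (3 / 2) (A z i)) →
      (∀ z i Q, Prob b Q → |Real.log (TA m b Q (A z i))| ≤ a) →
      (∀ i Q, Prob b Q → |Real.log (TA m b Q (A false i)) - Real.log (TA m b Q (A true i)) -
        2 * γ * Y i Q| ≤ 2 * γ * δ) →
      (∀ z, Exp e R (fun S => avg (fun i => avg (fun i' =>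
        (Exp j (add m (b + j) S (lift j (A z i))) (Y i') - Exp j S (Y i')) ^ 2))) ≤ loc) →
      (∀ z, Exp (j + e) R (fun Q => avg (fun i => avg (fun i' =>
        (Y i' (add m b Q (A z i)) - Y i' Q) ^ 2))) ≤ loc) →
      (η * Exp e R (fun S => avg (fun i => avg (fun i' =>
        |Exp j S (fun Q => Y i Q * Y i' Q) - Exp j S (Y i) * Exp j S (Y i')|)))) ^ 2 ≤
        C * (Real.sqrt loc / γ + a ^ 2 / γ + δ) := by
  obtain ⟨C0, hC0, hlin⟩ := lin_resp D
  refine ⟨4 * D * (1 + 3 ^ D + C0 + 4 * D), by positivity, ?_⟩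
  intro b j e hj X I _ _ m hm R hR Y A γ a δ loc η hγ ha hδ hη0 hη hY hA hlog hdiff hU hV
  have hRe : Prob e R := hR.mono
  have hRje : Prob (j + e) R := by
    rw [add_assoc] at hR
    exact hR.mono
  have hall := hR.allAt
  set m' : ℕ → ℝ := fun k => m (b + k) with hm'
  have hm'0 : ∀ k, 0 < m' k := fun k => hm.pos _
  have hm'1 : ∀ k, m' k ≤ 1 := fun k => hm.le_one _
  set U : Bool → Sys X → I → I → ℝ := fun z S i i' =>
    Exp j (add m (b + j) S (lift j (A z i))) (Y i') - Exp j S (Y i') with hUdef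
  set V : Bool → Sys X → I → I → ℝ := fun z Q i i' => Y i' (add m b Q (A z i)) - Y i' Q with hVdef
  have hU' : ∀ z, Exp e R (fun S => avg (fun i => avg (fun i' => |U z S i i'|))) ≤
      Real.sqrt loc := fun z => stem_mean_le_sqrt hRe (U z) (hU z)
  have hV' : ∀ z, Exp e R (fun S => avg (fun i => avg (fun i' =>
      Exp j S (fun Q => |V z Q i i'|)))) ≤ Real.sqrt loc := by
    intro z
    have := stem_mean_le_sqrt hRje (V z) (hV z)
    rw [Exp_comp] at this
    simpa only [Exp_avg] using this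
  -- pointwise bound on the response matrix
  have hL : ∀ S, Prob (b + j) S → ∀ i i', 2 * γ * |Lin m' j S (Y i) (Y i')| ≤
      (|U false S i i'| + |U true S i i'|) +
        3 ^ j * (Exp j S (fun Q => |V false Q i i'|) + Exp j S (fun Q => |V true Q i i'|)) +
        (2 * (C0 * a ^ 2) + 4 * j * (2 * γ * δ)) := by
    intro S hS i i'
    have hSj : Prob j S := hS.mono
    have hYall : AllAt j S (fun Q => |Y i' Q| ≤ 1) := hS.allAt.imp fun Q hQ => hY i' Q hQ
    have r : ∀ z, |Lin m' j S (Y i') (fun Q => Real.log (TA m b Q (A z i)))| ≤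
        |U z S i i'| + 3 ^ j * Exp j S (fun Q => |V z Q i i'|) + C0 * a ^ 2 := fun z =>
      stem_resp hm hS (hA z i) (hlin j hj X m' hm'0 hm'1 S _ (Y i') a hSj ha
        (hS.allAt.imp fun Q hQ => hlog z i Q hQ) hYall)
    have err := abs_Lin_le hm'0 hm'1 hSj hYall (hS.allAt.imp fun Q hQ => hdiff i Q hQ)
    rw [Lin_sub_right, Lin_sub_right, Lin_const_mul_right, one_mul, Lin_comm m' j S (Y i') (Y i)]
      at err
    have r0 := abs_le.1 (r false)
    have r1 := abs_le.1 (r true)
    have e0 := abs_le.1 err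
    rw [← abs_of_pos (by positivity : 0 < 2 * γ), ← abs_mul, abs_of_pos (by positivity : 0 < 2 * γ),
      abs_le]
    constructor <;> linarith
  have hEL : 2 * γ * Exp e R (fun S => avg (fun i => avg (fun i' => |Lin m' j S (Y i) (Y i')|))) ≤
      2 * Real.sqrt loc + 3 ^ j * (2 * Real.sqrt loc) +
        (2 * (C0 * a ^ 2) + 4 * j * (2 * γ * δ)) := by
    have h1 : 2 * γ * Exp e R (fun S => avg (fun i => avg (fun i' =>
        |Lin m' j S (Y i) (Y i')|))) ≤
        (Exp e R (fun S => avg (fun i => avg (fun i' => |U false S i i'|))) +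
          Exp e R (fun S => avg (fun i => avg (fun i' => |U true S i i'|)))) +
        3 ^ j * (Exp e R (fun S => avg (fun i => avg (fun i' =>
            Exp j S (fun Q => |V false Q i i'|)))) +
          Exp e R (fun S => avg (fun i => avg (fun i' => Exp j S (fun Q => |V true Q i i'|))))) +
        (2 * (C0 * a ^ 2) + 4 * j * (2 * γ * δ)) := by
      rw [← Exp_const hRe (2 * (C0 * a ^ 2) + 4 * j * (2 * γ * δ)), ← Exp_add, ← Exp_add,
        ← Exp_const_mul, ← Exp_const_mul, ← Exp_add, ← Exp_add]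
      refine Exp_mono hRe (hall.imp fun S hS => ?_)
      rw [← avg_const (I := I) (2 * (C0 * a ^ 2) + 4 * j * (2 * γ * δ)), ← avg_add, ← avg_add,
        ← avg_const_mul, ← avg_const_mul, ← avg_add, ← avg_add]
      refine avg_mono fun i => ?_
      rw [← avg_const (I := I) (2 * (C0 * a ^ 2) + 4 * j * (2 * γ * δ)), ← avg_add, ← avg_add,
        ← avg_const_mul, ← avg_const_mul, ← avg_add, ← avg_add]
      exact avg_mono fun i' => hL S hS i i'
    have h3 : (0 : ℝ) ≤ 3 ^ j := by positivity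
    have h4 := mul_le_mul_of_nonneg_left (add_le_add (hV' false) (hV' true)) h3
    have h5 := hU' false
    have h6 := hU' true
    linarith
  have hcov : η ^ 2 * Exp e R (fun S => avg (fun i => avg (fun i' =>
      (Exp j S (fun Q => Y i Q * Y i' Q) - Exp j S (Y i) * Exp j S (Y i')) ^ 2))) ≤
      4 * j * Exp e R (fun S => avg (fun i => avg (fun i' => |Lin m' j S (Y i) (Y i')|))) := by
    rw [← Exp_const_mul, ← Exp_const_mul]
    refine Exp_mono hRe (hall.imp fun S hS => ?_)
    have hSj : Prob j S := hS.mono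
    have hc := lin_contract (m := m') hSj hη0
      (fun k hk => hη.trans (hm.anti (by omega : b + k ≤ b + j))) Y
    have h1 : η ^ 2 * avg (fun i => avg (fun i' =>
        (Exp j S (fun Q => Y i Q * Y i' Q) - Exp j S (Y i) * Exp j S (Y i')) ^ 2)) ≤
        avg (fun i => avg (fun i' => Lin m' j S (Y i) (Y i') ^ 2)) := by
      simp only [avg, ← Finset.mul_sum]
      have : (0 : ℝ) ≤ (Fintype.card I : ℝ)⁻¹ * (Fintype.card I : ℝ)⁻¹ := by positivity
      have := mul_le_mul_of_nonneg_left hc this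
      linarith
    refine h1.trans ?_
    rw [← avg_const_mul]
    refine avg_mono fun i => ?_
    rw [← avg_const_mul]
    refine avg_mono fun i' => ?_
    have h2 := abs_Lin_le hm'0 hm'1 hSj (hS.allAt.imp fun Q hQ => hY i Q hQ)
      (hS.allAt.imp fun Q hQ => hY i' Q hQ)
    rw [← sq_abs, sq]
    exact mul_le_mul_of_nonneg_right (by linarith) (abs_nonneg _)
  have hsq := stem_sq_mean hRe (fun S i i' =>
    Exp j S (fun Q => Y i Q * Y i' Q) - Exp j S (Y i) * Exp j S (Y i'))
  set EL := Exp e R (fun S => avg (fun i => avg (fun i' => |Lin m' j S (Y i) (Y i')|)))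
  have hEL0 : 0 ≤ EL := Exp_nonneg hRe (allAt_of_forall _ _ fun S =>
    avg_nonneg fun i => avg_nonneg fun i' => abs_nonneg _)
  have hjD : (j : ℝ) ≤ D := by exact_mod_cast hj
  have h3 : (3 : ℝ) ^ j ≤ 3 ^ D := pow_le_pow_right₀ (by norm_num) hj
  have hs := Real.sqrt_nonneg loc
  have hEL' : EL ≤ (1 + 3 ^ D) * (Real.sqrt loc / γ) + C0 * (a ^ 2 / γ) + 4 * D * δ := by
    have h4 : (1 + 3 ^ D) * (Real.sqrt loc / γ) + C0 * (a ^ 2 / γ) + 4 * D * δ =
        ((1 + 3 ^ D) * Real.sqrt loc + C0 * a ^ 2 + 4 * D * δ * γ) / γ := by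
      field_simp
    rw [h4, le_div_iff₀ hγ]
    have h5 := mul_le_mul_of_nonneg_right h3 hs
    have h6 := mul_le_mul_of_nonneg_right hjD (mul_pos hγ hγ).le
    have h7 := mul_le_mul_of_nonneg_right hjD (mul_nonneg hδ hγ.le)
    nlinarith
  have x0 : 0 ≤ Real.sqrt loc / γ := by positivity
  have y0 : 0 ≤ a ^ 2 / γ := by positivity
  have hD0 : (0 : ℝ) ≤ D := by positivity
  have h3D : (0 : ℝ) ≤ 3 ^ D := by positivity
  have hfin : EL ≤ (1 + 3 ^ D + C0 + 4 * D) * (Real.sqrt loc / γ + a ^ 2 / γ + δ) := by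
    refine hEL'.trans ?_
    have := mul_nonneg hC0 x0
    have := mul_nonneg hC0 hδ
    have := mul_nonneg hD0 x0
    have := mul_nonneg hD0 y0
    have := mul_nonneg h3D y0
    have := mul_nonneg h3D hδ
    nlinarith
  calc _ = η ^ 2 * _ := mul_pow _ _ _
    _ ≤ _ := mul_le_mul_of_nonneg_left hsq (sq_nonneg η)
    _ ≤ 4 * j * EL := hcov
    _ ≤ 4 * D * EL := by gcongr
    _ ≤ 4 * D * ((1 + 3 ^ D + C0 + 4 * D) * (Real.sqrt loc / γ + a ^ 2 / γ + δ)) := by gcongr
    _ = _ := by ring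

end Crest.Agent.R141
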