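import Crest.Agent.R141.CoreA
import Crest.Agent.R141.Stem
import Crest.Agent.R141.Purity

/-! Row 141, module F5b: the leaf probes. -/

set_option autoImplicit false

namespace Crest.Agent.R141

open Finset Sys

theorem abs_sgn (z : Bool) : |sgn z| = 1 := by cases z <;> simp [sgn]

theorem abs_log_one_sub_add_le {x : ℝ} (hx : |x| ≤ 1 / 2) : |Real.log (1 - x) + x| ≤ 2 * x ^ 2 := by
  have h1 : |x| < 1 := by linarith
  have := Real.abs_log_sub_add_sum_range_le h1 1
  simp only [range_one, sum_singleton, zero_add, pow_one, CharP.cast_eq_zero, div_one,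
    Nat.reduceAdd] at this
  rw [add_comm]
  refine this.trans ?_
  rw [div_le_iff₀ (by linarith), sq_abs]
  nlinarith [sq_nonneg x]

theorem abs_log_one_sub_le {x : ℝ} (hx : |x| ≤ 1 / 2) : |Real.log (1 - x)| ≤ 2 * |x| := by
  have h := abs_log_one_sub_add_le hx
  have h2 : |Real.log (1 - x)| ≤ |Real.log (1 - x) + x| + |x| := by
    have := abs_sub (Real.log (1 - x) + x) x
    simpa using this
  have h3 : x ^ 2 = |x| ^ 2 := (sq_abs x).symm
  nlinarith [abs_nonneg x]

/-- The leaf probe. -/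
noncomputable def leafItem {X I : Type} (a : ℝ) (g : I → X → ℝ) (z : Bool) (i : I) :
    Sys (X → ℝ) := leaf (fun x => 1 - a * sgn z * g i x)

theorem abs_leaf_arg_le {X I : Type} {a : ℝ} (ha : 0 ≤ a) {g : I → X → ℝ} (hg : ∀ i x, |g i x| ≤ 1)
    (z : Bool) (i : I) (x : X) : |a * sgn z * g i x| ≤ a := by
  rw [abs_mul, abs_mul, abs_sgn, abs_of_nonneg ha, mul_one]
  exact mul_le_of_le_one_right ha (hg i x)

theorem item_leafItem {X I : Type} {a : ℝ} (ha : 0 ≤ a) (ha' : a ≤ 1 / 2) {g : I → X → ℝ}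
    (hg : ∀ i x, |g i x| ≤ 1) (z : Bool) (i : I) : Item 0 (1 / 2) (3 / 2) (leafItem a g z i) := by
  refine item_leaf (fun x => ?_)
  have := abs_le.1 (abs_leaf_arg_le ha hg z i x)
  constructor <;> linarith [this.1, this.2]

theorem leaf_cov (D : ℕ) : ∃ C : ℝ, 0 ≤ C ∧ ∀ (X I : Type) [Fintype I] [Nonempty I] (m : ℕ → ℝ),
    Exps m → ∀ (R : Sys X), Prob D R → ∀ (g : I → X → ℝ), (∀ i x, |g i x| ≤ 1) →
    ∀ (a η0 ξ δ : ℝ), 0 < a → a ≤ 1 / 2 → 0 ≤ η0 → (∀ d, η0 ≤ m d) → 0 ≤ ξ → 0 ≤ δ →
      (∀ d, d + 2 ≤ D → Odd d → 1 - m (d + 1) / m d ≤ δ) →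
      (∀ z, Probed m D R 0 (leafItem a g z) ξ) →
      ∀ j, Even j → j + 1 ≤ D →
        (η0 * Exp (D - j) R (fun S => avg (fun i => avg (fun i' =>
          |Exp j S (fun Q => g i Q.val * g i' Q.val) -
            Exp j S (fun Q => g i Q.val) * Exp j S (fun Q => g i' Q.val)|)))) ^ 2 ≤
          C * (Real.sqrt (8 * ξ + 8 * δ) / a + 6 * a) := by
  obtain ⟨C, hC0, hC⟩ := stem D
  refine ⟨C, hC0, fun X I _ _ m hm R hR g hg a η0 ξ δ ha ha' hη0 hηm hξ hδ hthin hP j hj hjD => ?_⟩
  have hR' : Prob (0 + j + (D - j)) R := by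
    rwa [show 0 + j + (D - j) = D by omega]
  have hitem := fun z i => item_leafItem ha.le ha' hg z i
  have hloc : 0 ≤ 8 * ξ + 8 * δ := by linarith
  have key := hC 0 j (D - j) (by omega) X I m hm R hR' (fun i Q => g i Q.val) (leafItem a g)
    a (2 * a) (2 * a) (8 * ξ + 8 * δ) η0 ha (by linarith) (by linarith) hη0 (hηm _)
    (fun i Q _ => hg i _) hitem ?_ ?_ ?_ ?_
  · refine key.trans (le_of_eq ?_)
    congr 1
    field_simp
    ring
  · intro z i Q _
    have h1 := abs_leaf_arg_le ha.le hg z i Q.val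
    have h2 := abs_log_one_sub_le (h1.trans ha')
    change |Real.log (1 - a * sgn z * g i Q.val)| ≤ 2 * a
    linarith
  · intro i Q _
    have h1 := abs_leaf_arg_le ha.le hg false i Q.val
    have h1' := abs_leaf_arg_le ha.le hg true i Q.val
    have h2 := abs_log_one_sub_add_le (h1.trans ha')
    have h2' := abs_log_one_sub_add_le (h1'.trans ha')
    change |Real.log (1 - a * sgn false * g i Q.val) - Real.log (1 - a * sgn true * g i Q.val) -
      2 * a * g i Q.val| ≤ 2 * a * (2 * a)
    have h3 : (a * sgn false * g i Q.val) ^ 2 ≤ a ^ 2 := by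
      rw [← sq_abs]; exact pow_le_pow_left₀ (abs_nonneg _) h1 2
    have h3' : (a * sgn true * g i Q.val) ^ 2 ≤ a ^ 2 := by
      rw [← sq_abs]; exact pow_le_pow_left₀ (abs_nonneg _) h1' 2
    have e1 : a * sgn false * g i Q.val = -(a * g i Q.val) := by simp [sgn]
    have e2 : a * sgn true * g i Q.val = a * g i Q.val := by simp [sgn]
    rw [abs_le] at h2 h2' ⊢
    constructor <;> nlinarith [h2.1, h2.2, h2'.1, h2'.2]
  · intro z
    rcases Nat.eq_zero_or_pos j with rfl | hj0
    · have : (fun S : Sys X => avg (fun i => avg (fun i' =>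
          (Exp 0 (add m (0 + 0) S (lift 0 (leafItem a g z i))) (fun Q => g i' Q.val) -
            Exp 0 S (fun Q => g i' Q.val)) ^ 2))) = fun _ => 0 := by
        funext S
        have : ∀ i i', Exp 0 (add m (0 + 0) S (lift 0 (leafItem a g z i))) (fun Q => g i' Q.val) =
            Exp 0 S (fun Q => g i' Q.val) := fun _ _ => rfl
        simp [this, avg]
      rw [this, Exp_const (by simpa using hR)]
      exact hloc
    · obtain ⟨l, rfl⟩ : ∃ l, j = l + 1 := ⟨j - 1, by omega⟩
      obtain ⟨e, he⟩ : ∃ e, D - (l + 1) = e + 1 := ⟨D - (l + 1) - 1, by omega⟩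
      have hodd : Odd l := by
        rcases Nat.even_or_odd l with h | h
        · exact absurd hj (by simpa [Nat.even_add_one] using h)
        · exact h
      have := loc_of_probed (I' := I) hm hR (hitem z) (hP z) (jj := l + 1) (l := l) (e := e)
        (by omega) (by omega) (F := fun i' Q => Exp l Q (fun L => g i' L.val))
        (fun i' => by simpa using (inv_val (g i')).exp l)
        (fun i' Q hQ => abs_Exp_le_of_le hQ (allAt_of_forall _ _ (fun Z => hg i' _)))
        (hthin l (by omega) hodd)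
      rw [he, Nat.zero_add]
      exact this
  · intro z
    have : (fun Q : Sys X => avg (fun i => avg (fun i' =>
        (g i' (add m 0 Q (leafItem a g z i)).val - g i' Q.val) ^ 2))) = fun _ => 0 := by
      funext Q
      simp [add_zero_val, avg]
    rw [this, Exp_const (by rwa [show j + (D - j) = D by omega])]
    exact hloc

/-- The site average turns the mean covariance into a variance. -/
theorem avg_avg_cov {X I : Type} [Fintype I] (j : ℕ) (S : Sys X) (Y : I → Sys X → ℝ) :
    avg (fun i => avg (fun i' => Exp j S (fun Q => Y i Q * Y i' Q) - Exp j S (Y i) * Exp j S (Y i'))) =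
      Exp j S (fun Q => avg (fun i => Y i Q) * avg (fun i => Y i Q)) -
        Exp j S (fun Q => avg (fun i => Y i Q)) * Exp j S (fun Q => avg (fun i => Y i Q)) := by
  simp only [avg_sub]
  congr 1
  · simp only [avg_mul_avg, Exp_avg]
  · rw [Exp_avg, avg_mul_avg]

theorem leaf_var {X I : Type} [Fintype I] [Nonempty I] {m : ℕ → ℝ} (hm : Exps m) {D : ℕ}
    (hD : 1 ≤ D) {R : Sys X} (hR : Prob D R) {g : I → X → ℝ} (hg : ∀ i x, |g i x| ≤ 1)
    {a ξ : ℝ} (ha : 0 < a) (hP : Probed m D R 0 (leafItem a g true) ξ) :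
    avg (fun i => avg (fun i' => Exp D R (fun Q => g i Q.val * g i' Q.val) -
      Exp D R (fun Q => g i Q.val) * Exp D R (fun Q => g i' Q.val))) ≤ ξ / a := by
  obtain ⟨e, rfl⟩ : ∃ e, D = 1 + e := ⟨D - 1, by omega⟩
  rw [avg_avg_cov (1 + e) R (fun i Q => g i Q.val)]
  have hf : ∀ x, |avg (fun i => g i x)| ≤ 1 := fun x =>
    (abs_avg_le _).trans ((avg_mono (fun i => hg i x)).trans (avg_const 1).le)
  have key := cov_menuA_leaf hm e hR (fun i x => 1 - a * sgn true * g i x)
    (f := fun x => avg (fun i => g i x)) hf (hP.1 0 0 e rfl (by omega))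
  have e1 : ∀ x, avg (fun i => 1 - a * sgn true * g i x) = 1 - a * avg (fun i => g i x) := by
    intro x
    rw [avg_sub, avg_const, ← avg_const_mul]
    simp [sgn]
  simp only [e1] at key
  have e2 : Exp (1 + e) R (fun L => avg (fun i => g i L.val) * (1 - a * avg (fun i => g i L.val))) =
      Exp (1 + e) R (fun L => avg (fun i => g i L.val)) -
        a * Exp (1 + e) R (fun L => avg (fun i => g i L.val) * avg (fun i => g i L.val)) := by
    rw [← Exp_const_mul, ← Exp_sub]
    congr 1
    funext L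
    ring
  have e3 : Exp (1 + e) R (fun L => 1 - a * avg (fun i => g i L.val)) =
      1 - a * Exp (1 + e) R (fun L => avg (fun i => g i L.val)) := by
    rw [Exp_sub, Exp_const hR, Exp_const_mul]
  rw [e2, e3] at key
  rw [le_div_iff₀ ha]
  have := (abs_le.1 key).1
  nlinarith

end Crest.Agent.R141
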