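import Crest.Agent.R141.Defs

/-! Row 141, module E (auxiliary): mixed differences and elementary estimates. -/

set_option autoImplicit false

namespace Crest.Agent.R141

open Finset

theorem iso_abs_sgn (b : Bool) : |sgn b| = 1 := by cases b <;> simp [sgn]

theorem iso_sgn_not (b : Bool) : sgn (!b) = -sgn b := by cases b <;> simp [sgn]

/-- flip one coordinate -/
def isoFlip {N : Type} [DecidableEq N] (j : N) (e : N → Bool) : N → Bool :=
  Function.update e j (!e j)

theorem isoFlip_self {N : Type} [DecidableEq N] (j : N) (e : N → Bool) : isoFlip j e j = !e j := by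
  simp [isoFlip]

theorem isoFlip_ne {N : Type} [DecidableEq N] {j x : N} (h : x ≠ j) (e : N → Bool) :
    isoFlip j e x = e x := by
  simp [isoFlip, h]

theorem isoFlip_invol {N : Type} [DecidableEq N] (j : N) : Function.Involutive (isoFlip j) := by
  intro e
  funext x
  by_cases h : x = j
  · subst h; simp [isoFlip]
  · simp [isoFlip, h]

theorem sum_isoFlip {N : Type} [Fintype N] [DecidableEq N] (j : N) (F : (N → Bool) → ℝ) :
    ∑ e, F (isoFlip j e) = ∑ e, F e :=
  Equiv.sum_comp (isoFlip_invol j).toPerm F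

theorem sum_prod_sgn_eq_zero {N : Type} [Fintype N] [DecidableEq N] {J : Finset N}
    (hJ : J.Nonempty) : ∑ e : N → Bool, ∏ x ∈ J, sgn (e x) = 0 := by
  obtain ⟨j, hj⟩ := hJ
  have h := sum_isoFlip j (fun e => ∏ x ∈ J, sgn (e x))
  have h2 : ∀ e : N → Bool, ∏ x ∈ J, sgn (isoFlip j e x) = -∏ x ∈ J, sgn (e x) := by
    intro e
    rw [← Finset.mul_prod_erase _ _ hj, ← Finset.mul_prod_erase _ _ hj, isoFlip_self, iso_sgn_not,
      neg_mul]
    congr 2
    exact Finset.prod_congr rfl fun x hx => by rw [isoFlip_ne (ne_of_mem_erase hx)]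
  simp only [h2, sum_neg_distrib] at h
  linarith

/-- Mixed differences. -/
theorem iso_mixed {N : Type} [Fintype N] [DecidableEq N] (J : Finset N) :
    ∀ (f : ℕ → ℝ → ℝ) (R x0 A M : ℝ) (v : N → ℝ),
      (∀ k x, |x| ≤ R → HasDerivAt (f k) (f (k + 1) x) x) →
      (∀ e : N → Bool, |x0 + ∑ x, sgn (e x) * v x| ≤ R) →
      (∀ ξ, |ξ| ≤ R → |f J.card ξ - A| ≤ M) →
      |∑ e : N → Bool, (∏ x ∈ J, sgn (e x)) * f 0 (x0 + ∑ x, sgn (e x) * v x) -
          2 ^ Fintype.card N * ((∏ x ∈ J, v x) * A)| ≤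
        2 ^ Fintype.card N * (|∏ x ∈ J, v x| * M) := by
  induction J using Finset.induction_on with
  | empty =>
    intro f R x0 A M v _ hR hM
    simp only [prod_empty, one_mul, abs_one, card_empty] at hM ⊢
    have hc : (2 : ℝ) ^ Fintype.card N = ∑ _e : N → Bool, (1 : ℝ) := by simp
    rw [hc, Finset.sum_mul, Finset.sum_mul, ← Finset.sum_sub_distrib]
    refine (Finset.abs_sum_le_sum_abs _ _).trans (Finset.sum_le_sum fun e _ => ?_)
    simpa using hM _ (hR e)
  | insert j J hj ih =>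
    intro f R x0 A M v hf hR hM
    set v' : N → ℝ := Function.update v j 0 with hv'
    have hsplit : ∀ e : N → Bool, ∑ x, sgn (e x) * v x = ∑ x, sgn (e x) * v' x + sgn (e j) * v j := by
      intro e
      rw [← Finset.add_sum_erase _ _ (mem_univ j), ← Finset.add_sum_erase _ _ (mem_univ j)]
      have : ∑ x ∈ univ.erase j, sgn (e x) * v' x = ∑ x ∈ univ.erase j, sgn (e x) * v x :=
        Finset.sum_congr rfl fun x hx => by rw [hv', Function.update_of_ne (ne_of_mem_erase hx)]
      rw [this, hv', Function.update_self]; ring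
    have hinv : ∀ e : N → Bool, ∑ x, sgn (isoFlip j e x) * v' x = ∑ x, sgn (e x) * v' x := by
      intro e
      apply Finset.sum_congr rfl
      intro x _
      by_cases h : x = j
      · subst h; simp [hv']
      · rw [isoFlip_ne h]
    have hinvJ : ∀ e : N → Bool, ∏ x ∈ J, sgn (isoFlip j e x) = ∏ x ∈ J, sgn (e x) := by
      intro e
      exact Finset.prod_congr rfl fun x hx => by
        have hne : x ≠ j := fun h => hj (h ▸ hx)
        rw [isoFlip_ne hne]
    have hpv : ∏ x ∈ J, v' x = ∏ x ∈ J, v x :=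
      Finset.prod_congr rfl fun x hx => by
        have hne : x ≠ j := fun h => hj (h ▸ hx)
        rw [hv', Function.update_of_ne hne]
    have hR' : ∀ e : N → Bool, |x0 + ∑ x, sgn (e x) * v' x| ≤ R - |v j| := by
      intro e
      have h1 := hR e
      have h2 := hR (isoFlip j e)
      rw [hsplit] at h1 h2
      rw [hinv, isoFlip_self, iso_sgn_not] at h2
      have h3 : |sgn (e j) * v j| = |v j| := by rw [abs_mul, iso_abs_sgn, one_mul]
      rw [← h3]
      rw [abs_le] at h1 h2 ⊢
      rcases abs_cases (sgn (e j) * v j) with h | h <;> constructor <;> linarith [h.1]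
    have hp : ∀ x, |x| ≤ R - |v j| → |x + v j| ≤ R ∧ |x - v j| ≤ R := by
      intro x hx
      have h1 := abs_add_le x (v j)
      have h2 := abs_sub x (v j)
      constructor <;> linarith
    have key := ih (fun k x => (f k (x + v j) - f k (x - v j)) / 2) (R - |v j|) x0 (v j * A)
      (|v j| * M) v'
      (by
        intro k x hx
        have h1 := (hf k _ (hp x hx).1).comp_add_const x (v j)
        have h2 := (hf k _ (hp x hx).2).comp_sub_const x (v j)
        exact (h1.sub h2).div_const 2)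
      hR'
      (by
        intro ξ hξ
        have hconv : Convex ℝ (Set.Icc (-R) R) := convex_Icc _ _
        have h1 := hconv.norm_image_sub_le_of_norm_hasDerivWithin_le
          (f := fun x => f J.card x - A * x) (f' := fun x => f (J.card + 1) x - A) (C := M)
          (x := ξ - v j) (y := ξ + v j)
          (fun x hx => by
            have := (hf J.card x (abs_le.2 hx)).fun_sub ((hasDerivAt_id' x).const_mul A)
            rw [mul_one] at this
            exact this.hasDerivWithinAt)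
          (fun x hx => by
            have := hM x (abs_le.2 hx)
            rwa [card_insert_of_notMem hj] at this)
          (abs_le.1 (hp ξ hξ).2) (abs_le.1 (hp ξ hξ).1)
        simp only [Real.norm_eq_abs] at h1
        have e1 : ξ + v j - (ξ - v j) = 2 * v j := by ring
        have e2 : f J.card (ξ + v j) - A * (ξ + v j) - (f J.card (ξ - v j) - A * (ξ - v j)) =
            2 * ((f J.card (ξ + v j) - f J.card (ξ - v j)) / 2 - v j * A) := by ring
        rw [e1, e2, abs_mul, abs_mul, abs_two] at h1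
        linarith)
    have hsum : ∑ e : N → Bool, (∏ x ∈ insert j J, sgn (e x)) * f 0 (x0 + ∑ x, sgn (e x) * v x) =
        ∑ e : N → Bool, (∏ x ∈ J, sgn (e x)) *
          ((f 0 (x0 + ∑ x, sgn (e x) * v' x + v j) - f 0 (x0 + ∑ x, sgn (e x) * v' x - v j)) / 2) := by
      have h1 := sum_isoFlip j
        (fun e => (∏ x ∈ insert j J, sgn (e x)) * f 0 (x0 + ∑ x, sgn (e x) * v x))
      have h2 : ∀ a b : ℝ, a = b → b = (a + b) / 2 := fun a b h => by linarith
      rw [h2 _ _ h1, ← Finset.sum_add_distrib, Finset.sum_div]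
      apply Finset.sum_congr rfl
      intro e _
      rw [prod_insert hj, prod_insert hj, hsplit, hsplit, hinv, hinvJ, isoFlip_self]
      cases e j <;> simp only [sgn, Bool.not_false, Bool.not_true, if_true, Bool.false_eq_true,
        if_false, one_mul, neg_mul, ← add_assoc, ← sub_eq_add_neg] <;> ring
    rw [hsum, prod_insert hj, abs_mul]
    rw [hpv] at key
    convert key using 2 <;> ring

/-- the derivatives of `1 - (1 - x) ^ ρ` -/
noncomputable def isoPhi (ρ : ℝ) : ℕ → ℝ → ℝ
  | 0, x => 1 - (1 - x) ^ ρ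
  | k + 1, x => (ρ * ∏ j ∈ range k, ((j : ℝ) + 1 - ρ)) * (1 - x) ^ (ρ - (k + 1))

theorem iso_hasDerivAt_rpow (s : ℝ) {x : ℝ} (hx : |x| ≤ 1 / 2) :
    HasDerivAt (fun x : ℝ => (1 - x) ^ s) (-s * (1 - x) ^ (s - 1)) x := by
  have h0 : 1 - x ≠ 0 := by
    have := (abs_le.1 hx).2
    linarith
  have := ((hasDerivAt_id x).const_sub 1).rpow_const (p := s) (Or.inl h0)
  simp only [id] at this
  convert this using 1
  ring

theorem isoPhi_deriv (ρ : ℝ) (k : ℕ) {x : ℝ} (hx : |x| ≤ 1 / 2) :
    HasDerivAt (isoPhi ρ k) (isoPhi ρ (k + 1) x) x := by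
  cases k with
  | zero =>
    have := (iso_hasDerivAt_rpow ρ hx).const_sub 1
    refine HasDerivAt.congr_deriv (f := fun x : ℝ => 1 - (1 - x) ^ ρ) this ?_
    simp [isoPhi]
  | succ k =>
    have := (iso_hasDerivAt_rpow (ρ - (k + 1)) hx).const_mul
      (ρ * ∏ j ∈ range k, ((j : ℝ) + 1 - ρ))
    refine HasDerivAt.congr_deriv (f := fun x : ℝ =>
      (ρ * ∏ j ∈ range k, ((j : ℝ) + 1 - ρ)) * (1 - x) ^ (ρ - (k + 1))) this ?_
    simp only [isoPhi, prod_range_succ]
    have e : ρ - (((k + 1 : ℕ) : ℝ) + 1) = ρ - (k + 1) - 1 := by push_cast; ring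
    rw [e]; ring

theorem iso_rpow_sub_one_le {n : ℕ} {s ξ : ℝ} (hs0 : 0 ≤ s) (hs : s ≤ n) (hξ : |ξ| ≤ 1 / 2) :
    |(1 - ξ) ^ (-s) - 1| ≤ n * 2 ^ (n + 1) * |ξ| := by
  have hconv : Convex ℝ (Set.Icc (-(1 / 2) : ℝ) (1 / 2)) := convex_Icc _ _
  have h1 := hconv.norm_image_sub_le_of_norm_hasDerivWithin_le
    (f := fun x : ℝ => (1 - x) ^ (-s)) (f' := fun x => -(-s) * (1 - x) ^ (-s - 1))
    (C := n * 2 ^ (n + 1)) (x := 0) (y := ξ)
    (fun x hx => (iso_hasDerivAt_rpow (-s) (abs_le.2 hx)).hasDerivWithinAt)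
    (fun x hx => by
      have hx1 : (1 / 2 : ℝ) ≤ 1 - x := by linarith [hx.2]
      have h2 : (1 - x) ^ (-s - 1) ≤ (1 / 2 : ℝ) ^ (-s - 1) :=
        Real.rpow_le_rpow_of_nonpos (by norm_num) hx1 (by linarith)
      have h3 : (1 / 2 : ℝ) ^ (-s - 1) ≤ 2 ^ (n + 1) := by
        rw [one_div, Real.inv_rpow (by norm_num), ← Real.rpow_neg (by norm_num), ← Real.rpow_natCast]
        apply Real.rpow_le_rpow_of_exponent_le (by norm_num)
        push_cast; linarith
      have h4 : 0 ≤ (1 - x) ^ (-s - 1) := Real.rpow_nonneg (by linarith) _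
      rw [Real.norm_eq_abs, neg_neg, abs_of_nonneg (mul_nonneg hs0 h4)]
      exact mul_le_mul hs (h2.trans h3) h4 (Nat.cast_nonneg _))
    (by constructor <;> norm_num) (abs_le.1 hξ)
  simpa using h1

theorem iso_prod_approx {ι : Type} (s : Finset ι) (a z y : ι → ℝ) {δ : ℝ} (hδ : 0 ≤ δ)
    (hz : ∀ i, 0 ≤ z i) (hy : ∀ i, |y i| ≤ 1) (ha : ∀ i, |a i - z i * y i| ≤ δ * z i) :
    |∏ i ∈ s, a i - (∏ i ∈ s, z i) * ∏ i ∈ s, y i| ≤ ((1 + δ) ^ s.card - 1) * ∏ i ∈ s, z i ∧
      |∏ i ∈ s, a i| ≤ (1 + δ) ^ s.card * ∏ i ∈ s, z i := by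
  classical
  induction s using Finset.induction_on with
  | empty => simp
  | insert j s hj ih =>
    rw [prod_insert hj, prod_insert hj, prod_insert hj, card_insert_of_notMem hj, pow_succ]
    obtain ⟨h1, h2⟩ := ih
    have hZ : 0 ≤ ∏ i ∈ s, z i := Finset.prod_nonneg fun i _ => hz i
    have h3 : |z j * y j| ≤ z j := by
      rw [abs_mul, abs_of_nonneg (hz j)]
      exact mul_le_of_le_one_right (hz j) (hy j)
    have h4 : |a j| ≤ (1 + δ) * z j := by
      have := abs_add_le (a j - z j * y j) (z j * y j)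
      rw [sub_add_cancel] at this
      linarith [ha j]
    constructor
    · have e : a j * ∏ i ∈ s, a i - z j * (∏ i ∈ s, z i) * (y j * ∏ i ∈ s, y i) =
          (a j - z j * y j) * ∏ i ∈ s, a i +
            (z j * y j) * (∏ i ∈ s, a i - (∏ i ∈ s, z i) * ∏ i ∈ s, y i) := by ring
      rw [e]
      refine (abs_add_le _ _).trans ?_
      rw [abs_mul (a j - z j * y j), abs_mul (z j * y j)]
      have b1 := mul_le_mul (ha j) h2 (abs_nonneg _) (mul_nonneg hδ (hz j))
      have b2 := mul_le_mul h3 h1 (abs_nonneg _) (hz j)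
      calc _ ≤ _ := add_le_add b1 b2
        _ = _ := by ring
    · rw [abs_mul]
      have b1 := mul_le_mul h4 h2 (abs_nonneg _) (mul_nonneg (by linarith) (hz j))
      calc _ ≤ _ := b1
        _ = _ := by ring

theorem iso_pow_sub_one_le {x C : ℝ} (hx : 0 ≤ x) (hC : x ≤ C) (n : ℕ) :
    (1 + x) ^ n - 1 ≤ n * x * (1 + C) ^ n := by
  induction n with
  | zero => simp
  | succ n ih =>
    have h1 : (1 + x) ^ n ≤ (1 + C) ^ n := pow_le_pow_left₀ (by linarith) (by linarith) n
    have h2 : (1 + C) ^ n ≤ (1 + C) ^ (n + 1) := pow_le_pow_right₀ (by linarith) (by omega)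
    have h3 : (0 : ℝ) ≤ n * x := by positivity
    have h4 := mul_le_mul_of_nonneg_left h2 h3
    have h5 := mul_le_mul_of_nonneg_left (h1.trans h2) hx
    rw [pow_succ (1 + x)]
    push_cast
    nlinarith

theorem iso_abs_one_sub_rpow_le {x μ r : ℝ} (hμ0 : 0 ≤ μ) (hμ : μ ≤ 1) (hr : r ≤ 1 / 2)
    (h1 : 1 - r ≤ x) (h2 : x ≤ 1 + r) : |1 - x ^ μ| ≤ r := by
  have hx : 0 < x := by linarith
  rw [abs_le]
  rcases le_total x 1 with h | h
  · have a1 : x ^ μ ≤ 1 := Real.rpow_le_one hx.le h hμ0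
    have a2 : x ^ (1 : ℝ) ≤ x ^ μ := Real.rpow_le_rpow_of_exponent_ge hx h hμ
    rw [Real.rpow_one] at a2
    constructor <;> linarith
  · have a1 : 1 ≤ x ^ μ := Real.one_le_rpow h hμ0
    have a2 : x ^ μ ≤ x ^ (1 : ℝ) := Real.rpow_le_rpow_of_exponent_le h hμ
    rw [Real.rpow_one] at a2
    constructor <;> linarith

end Crest.Agent.R141
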