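import Crest.Agent.R141.BasicProj

/-! Row 141, module B: Sibuya weights, tree expansion of nested power means, tree moments. -/

set_option autoImplicit false

namespace Crest.Agent.R141

open Finset Sys

/-! ### Sibuya weights -/

private theorem tree_factor_nonneg {ρ : ℝ} (h1 : ρ ≤ 1) (j : ℕ) : 0 ≤ 1 - ρ / ((j : ℝ) + 1) := by
  have : (0 : ℝ) ≤ j := Nat.cast_nonneg j
  rw [sub_nonneg, div_le_one (by positivity)]
  linarith

private theorem tree_sib_succ (ρ : ℝ) (k : ℕ) :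
    sib ρ (k + 1) = sib ρ k * (((k : ℝ) + 1 - ρ) / (k + 2)) := by
  unfold sib
  rw [prod_range_succ]
  have h1 : ((k : ℝ) + 1) ≠ 0 := by positivity
  have h2 : ((k : ℝ) + 2) ≠ 0 := by positivity
  have h3 : ((k : ℝ) + 1 + 1) ≠ 0 := by positivity
  push_cast
  field_simp
  ring

theorem sib_zero (ρ : ℝ) : sib ρ 0 = ρ := by
  simp [sib]

theorem sib_nonneg {ρ : ℝ} (h0 : 0 ≤ ρ) (h1 : ρ ≤ 1) (k : ℕ) : 0 ≤ sib ρ k := by
  unfold sib
  refine mul_nonneg (div_nonneg h0 (by positivity)) (prod_nonneg fun j _ => ?_)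
  exact tree_factor_nonneg h1 j

theorem sum_sib (ρ : ℝ) (K : ℕ) :
    ∑ k ∈ range K, sib ρ k = 1 - ∏ j ∈ range K, (1 - ρ / (j + 1)) := by
  induction K with
  | zero => simp
  | succ K ih =>
    rw [sum_range_succ, ih, prod_range_succ, sib]
    ring

set_option linter.unusedVariables false in
theorem sum_sib_le_one {ρ : ℝ} (h0 : 0 ≤ ρ) (h1 : ρ ≤ 1) (K : ℕ) :
    ∑ k ∈ range K, sib ρ k ≤ 1 := by
  rw [sum_sib]
  have : 0 ≤ ∏ j ∈ range K, (1 - ρ / ((j : ℝ) + 1)) :=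
    prod_nonneg fun j _ => tree_factor_nonneg h1 j
  linarith

/-- The branching mass is at most `1 - ρ`. -/
theorem sum_sib_ne_zero_le {ρ : ℝ} (h0 : 0 ≤ ρ) (h1 : ρ ≤ 1) (K : ℕ) :
    ∑ k : Fin K, (if (k : ℕ) = 0 then 0 else sib ρ k) ≤ 1 - ρ := by
  cases K with
  | zero => simp [h1]
  | succ K =>
    have h := sum_sib_le_one h0 h1 (K + 1)
    rw [sum_range_succ', sib_zero] at h
    rw [Fin.sum_univ_succ]
    have e : ∑ i : Fin K, (if ((i.succ : Fin (K + 1)) : ℕ) = 0 then (0 : ℝ)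
        else sib ρ (i.succ : Fin (K + 1))) = ∑ k ∈ range K, sib ρ (k + 1) := by
      rw [← Fin.sum_univ_eq_sum_range (fun k => sib ρ (k + 1)) K]
      refine sum_congr rfl fun i _ => ?_
      simp
    rw [e]
    simp only [Fin.val_zero, if_true]
    linarith

theorem factorial_mul_sib (ρ : ℝ) (k : ℕ) :
    ((k + 1).factorial : ℝ) * sib ρ k = ρ * ∏ j ∈ range k, ((j : ℝ) + 1 - ρ) := by
  induction k with
  | zero => simp [sib]
  | succ k ih =>
    rw [prod_range_succ, ← mul_assoc, ← ih, tree_sib_succ, Nat.factorial_succ (k + 1)]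
    have : ((k : ℝ) + 2) ≠ 0 := by positivity
    push_cast
    field_simp
    ring

private theorem tree_desc (ρ : ℝ) (n : ℕ) :
    (descPochhammer ℤ n).smeval ρ = ∏ j ∈ range n, (ρ - j) := by
  induction n with
  | zero => simp
  | succ n ih =>
    rw [prod_range_succ, ← ih]
    simp [descPochhammer_succ_right, Polynomial.smeval_mul, Polynomial.smeval_natCast,
      Polynomial.smeval_sub]

private theorem tree_choose_succ (ρ : ℝ) (k : ℕ) :
    Ring.choose ρ (k + 1) = (-1) ^ k * sib ρ k := by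
  have h := Ring.descPochhammer_eq_factorial_smul_choose ρ (k + 1)
  rw [tree_desc, nsmul_eq_mul, prod_range_succ'] at h
  have hf : (((k + 1).factorial : ℕ) : ℝ) ≠ 0 := by positivity
  apply mul_left_cancel₀ hf
  rw [← h, mul_left_comm, factorial_mul_sib]
  have e : ∏ j ∈ range k, (ρ - ((j + 1 : ℕ) : ℝ)) =
      (-1) ^ k * ∏ j ∈ range k, ((j : ℝ) + 1 - ρ) := by
    rw [← card_range k, ← prod_const, card_range, ← prod_mul_distrib]
    refine prod_congr rfl fun j _ => ?_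
    push_cast
    ring
  rw [e]
  simp only [Nat.cast_zero, sub_zero]
  ring

theorem hasSum_sib {ρ x : ℝ} (hx : |x| < 1) :
    HasSum (fun k => sib ρ k * x ^ (k + 1)) (1 - (1 - x) ^ ρ) := by
  have hmem : (-x) ∈ Metric.eball (0 : ℝ) 1 := by
    rw [← ENNReal.ofReal_one, Metric.eball_ofReal]
    simpa using hx
  have h := (Real.one_add_rpow_hasFPowerSeriesOnBall_zero (a := ρ)).hasSum hmem
  have h1 : HasSum (fun n => Ring.choose ρ n * (-x) ^ n) ((1 - x) ^ ρ) := by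
    have e : (fun n => (binomialSeries ℝ ρ n) fun _ => -x) =
        fun n => Ring.choose ρ n * (-x) ^ n := by
      funext n
      rw [binomialSeries_apply]
      simp
    rw [e, zero_add, ← sub_eq_add_neg] at h
    exact h
  have h3 := ((hasSum_nat_add_iff' 1).2 h1).neg
  simp only [range_one, sum_singleton, Ring.choose_zero_right, pow_zero, mul_one, neg_sub] at h3
  have e : (fun k => sib ρ k * x ^ (k + 1)) =
      fun k => -(Ring.choose ρ (k + 1) * (-x) ^ (k + 1)) := by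
    funext k
    rw [tree_choose_succ, neg_pow x]
    have : ((-1 : ℝ) ^ k) * (-1) ^ k = 1 := by rw [← mul_pow]; simp
    calc sib ρ k * x ^ (k + 1) = ((-1 : ℝ) ^ k * (-1) ^ k) * (sib ρ k * x ^ (k + 1)) := by
          rw [this, one_mul]
      _ = _ := by ring
  rw [e]
  exact h3

private theorem tree_succ_mul_sib_le {ρ : ℝ} (h0 : 0 ≤ ρ) (h1 : ρ ≤ 1) (k : ℕ) :
    sib ρ k * ((k : ℝ) + 1) ≤ 1 := by
  have e : sib ρ k * ((k : ℝ) + 1) = ρ * ∏ j ∈ range k, (1 - ρ / ((j : ℝ) + 1)) := by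
    unfold sib
    have : ((k : ℝ) + 1) ≠ 0 := by positivity
    field_simp
  rw [e]
  refine mul_le_one₀ h1 (prod_nonneg fun j _ => tree_factor_nonneg h1 j)
    (prod_le_one (fun j _ => tree_factor_nonneg h1 j) fun j _ => ?_)
  have : 0 ≤ ρ / ((j : ℝ) + 1) := by positivity
  linarith

private theorem tree_sib_le_one {ρ : ℝ} (h0 : 0 ≤ ρ) (h1 : ρ ≤ 1) (k : ℕ) : sib ρ k ≤ 1 := by
  have h := tree_succ_mul_sib_le h0 h1 k
  have h2 := sib_nonneg h0 h1 k
  have : (0 : ℝ) ≤ k := Nat.cast_nonneg k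
  nlinarith

private theorem tree_abs_phi_le {ρ u : ℝ} (h0 : 0 ≤ ρ) (h1 : ρ ≤ 1) (hu : |u| ≤ 1) :
    |1 - (1 - u) ^ ρ| ≤ |u| := by
  obtain ⟨hl, hr⟩ := abs_le.1 hu
  rcases le_total 0 u with h | h
  · have a1 : (1 - u) ^ ρ ≤ 1 := Real.rpow_le_one (by linarith) (by linarith) h0
    have a2 : 1 - u ≤ (1 - u) ^ ρ := Real.self_le_rpow_of_le_one (by linarith) (by linarith) h1
    rw [abs_of_nonneg h, abs_of_nonneg (by linarith)]
    linarith
  · have a1 : 1 ≤ (1 - u) ^ ρ := Real.one_le_rpow (by linarith) h0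
    have a2 : (1 - u) ^ ρ ≤ 1 - u := Real.rpow_le_self_of_one_le (by linarith) h1
    rw [abs_of_nonpos h, abs_of_nonpos (by linarith)]
    linarith

private theorem tree_tail_le {ρ u lam : ℝ} (h0 : 0 ≤ ρ) (h1 : ρ ≤ 1) (hlam : lam < 1)
    (hu : |u| ≤ lam) (K : ℕ) :
    |1 - (1 - u) ^ ρ - ∑ k ∈ range K, sib ρ k * u ^ (k + 1)| ≤ lam ^ K / (1 - lam) := by
  have hs := hasSum_sib (ρ := ρ) (hu.trans_lt hlam)
  have hl0 : 0 ≤ lam := (abs_nonneg _).trans hu
  have hb : ∀ k, ‖sib ρ k * u ^ (k + 1)‖ ≤ 1 * lam ^ k := by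
    intro k
    rw [Real.norm_eq_abs, abs_mul, abs_of_nonneg (sib_nonneg h0 h1 k), abs_pow]
    refine mul_le_mul (tree_sib_le_one h0 h1 k) ?_ (by positivity) zero_le_one
    calc |u| ^ (k + 1) ≤ lam ^ (k + 1) := pow_le_pow_left₀ (abs_nonneg _) hu _
      _ ≤ lam ^ k := pow_le_pow_of_le_one hl0 hlam.le (Nat.le_succ k)
  have := norm_sub_le_of_geometric_bound_of_hasSum hlam hb hs K
  rwa [Real.norm_eq_abs, abs_sub_comm, one_mul] at this

private theorem tree_lip {ρ u v lam : ℝ} (h0 : 0 ≤ ρ) (h1 : ρ ≤ 1) (hlam : lam < 1)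
    (hu : |u| ≤ lam) (hv : |v| ≤ lam) (K : ℕ) :
    |∑ k ∈ range K, sib ρ k * u ^ (k + 1) - ∑ k ∈ range K, sib ρ k * v ^ (k + 1)| ≤
      |u - v| / (1 - lam) := by
  have hl0 : 0 ≤ lam := (abs_nonneg _).trans hu
  rw [← sum_sub_distrib]
  calc _ ≤ ∑ k ∈ range K, |sib ρ k * u ^ (k + 1) - sib ρ k * v ^ (k + 1)| :=
        abs_sum_le_sum_abs _ _
    _ ≤ ∑ k ∈ range K, |u - v| * lam ^ k := by
        refine sum_le_sum fun k _ => ?_
        rw [← mul_sub, abs_mul, abs_of_nonneg (sib_nonneg h0 h1 k)]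
        have a1 := abs_pow_sub_pow_le u v (k + 1)
        have a2 : max |u| |v| ^ (k + 1 - 1) ≤ lam ^ k := by
          rw [Nat.add_sub_cancel]
          exact pow_le_pow_left₀ (le_max_of_le_left (abs_nonneg _)) (max_le hu hv) _
        have a3 : |u ^ (k + 1) - v ^ (k + 1)| ≤ |u - v| * ((k : ℝ) + 1) * lam ^ k := by
          refine a1.trans ?_
          push_cast
          exact mul_le_mul_of_nonneg_left a2 (by positivity)
        calc sib ρ k * |u ^ (k + 1) - v ^ (k + 1)|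
            ≤ sib ρ k * (|u - v| * ((k : ℝ) + 1) * lam ^ k) :=
              mul_le_mul_of_nonneg_left a3 (sib_nonneg h0 h1 k)
          _ = (sib ρ k * ((k : ℝ) + 1)) * (|u - v| * lam ^ k) := by ring
          _ ≤ |u - v| * lam ^ k :=
              mul_le_of_le_one_left (by positivity) (tree_succ_mul_sib_le h0 h1 k)
    _ = |u - v| * ∑ k ∈ range K, lam ^ k := by rw [mul_sum]
    _ ≤ |u - v| * (1 - lam)⁻¹ := by
        refine mul_le_mul_of_nonneg_left ?_ (abs_nonneg _)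
        exact sum_le_hasSum _ (fun _ _ => by positivity) (hasSum_geometric_of_lt_one hl0 hlam)
    _ = _ := by rw [div_eq_mul_inv]

theorem Exps.ratio_pos {m : ℕ → ℝ} (hm : Exps m) (d : ℕ) : 0 < m (d + 1) / m d :=
  div_pos (hm.pos _) (hm.pos _)

theorem Exps.ratio_le_one {m : ℕ → ℝ} (hm : Exps m) (d : ℕ) : m (d + 1) / m d ≤ 1 :=
  (div_le_one (hm.pos _)).2 (hm.anti (Nat.le_succ d))

/-! ### shapes -/

namespace Shape

variable {Col Col' : Type} {K : ℕ}

/-- Recolour the leaves. -/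
def map (φ : Col → Col') : (d : ℕ) → Shape Col K d → Shape Col' K d
  | 0, τ => φ τ
  | d + 1, τ => ⟨τ.1, fun c => map φ d (τ.2 c)⟩

theorem one_le_size (d : ℕ) (τ : Shape Col K d) : 1 ≤ size d τ := by
  induction d with
  | zero => exact le_rfl
  | succ d ih =>
    show 1 ≤ ∑ c, size d (τ.2 c)
    exact (ih (τ.2 0)).trans (single_le_sum (f := fun c => size d (τ.2 c))
      (fun _ _ => Nat.zero_le _) (mem_univ 0))

theorem succ_le_size {d : ℕ} (τ : Shape Col K (d + 1)) : (τ.1 : ℕ) + 1 ≤ size (d + 1) τ := by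
  show (τ.1 : ℕ) + 1 ≤ ∑ c, size d (τ.2 c)
  calc (τ.1 : ℕ) + 1 = ∑ _c : Fin (τ.1 + 1), 1 := by simp
    _ ≤ _ := sum_le_sum fun c _ => one_le_size d _

theorem size_child_le {d : ℕ} (τ : Shape Col K (d + 1)) (c : Fin (τ.1 + 1)) :
    size d (τ.2 c) ≤ size (d + 1) τ := by
  show size d (τ.2 c) ≤ ∑ c, size d (τ.2 c)
  exact single_le_sum (f := fun c => size d (τ.2 c)) (fun _ _ => Nat.zero_le _) (mem_univ c)

theorem size_map (φ : Col → Col') (d : ℕ) (τ : Shape Col K d) : size d (map φ d τ) = size d τ := by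
  induction d with
  | zero => rfl
  | succ d ih =>
    show ∑ c, size d (map φ d (τ.2 c)) = ∑ c, size d (τ.2 c)
    exact sum_congr rfl fun c _ => ih _

theorem card_leaf (d : ℕ) (τ : Shape Col K d) : Fintype.card (Leaf d τ) = size d τ := by
  induction d with
  | zero => rfl
  | succ d ih =>
    show Fintype.card (Σ c : Fin (τ.1 + 1), Leaf d (τ.2 c)) = ∑ c, size d (τ.2 c)
    rw [Fintype.card_sigma]
    exact sum_congr rfl fun c _ => ih _

theorem abs_lprod_le {co : Col → ℝ} {lam : ℝ} (h : ∀ c, |co c| ≤ lam) (d : ℕ)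
    (τ : Shape Col K d) : |lprod co d τ| ≤ lam ^ size d τ := by
  induction d with
  | zero => simpa [lprod, size] using h τ
  | succ d ih =>
    show |∏ c, lprod co d (τ.2 c)| ≤ lam ^ ∑ c, size d (τ.2 c)
    rw [abs_prod, ← prod_pow_eq_pow_sum]
    exact prod_le_prod (fun _ _ => abs_nonneg _) fun c _ => ih _

theorem lprod_const (a : ℝ) (d : ℕ) (τ : Shape Col K d) :
    lprod (fun _ => a) d τ = a ^ size d τ := by
  induction d with
  | zero => simp [lprod, size]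
  | succ d ih =>
    show ∏ c, lprod (fun _ => a) d (τ.2 c) = a ^ ∑ c, size d (τ.2 c)
    rw [← prod_pow_eq_pow_sum]
    exact prod_congr rfl fun c _ => ih _

/-- Sums over shapes of depth `d+1`. -/
theorem sum_succ [Fintype Col] (d : ℕ) (G : Shape Col K (d + 1) → ℝ) :
    ∑ τ, G τ = ∑ k : Fin K, ∑ f : Fin (k + 1) → Shape Col K d, G ⟨k, f⟩ := by
  exact Fintype.sum_sigma (α := fun k : Fin K => Fin (k + 1) → Shape Col K d) G

/-- Push a leafwise weight forward along a recolouring. -/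
theorem sum_map [Fintype Col] [Fintype Col'] [DecidableEq Col'] (φ : Col → Col') (co : Col → ℝ)
    (d : ℕ) (G : Shape Col' K d → ℝ) :
    ∑ τ : Shape Col K d, lprod co d τ * G (map φ d τ) =
      ∑ τ : Shape Col' K d, lprod (fun c' => ∑ c, if φ c = c' then co c else 0) d τ * G τ := by
  induction d with
  | zero =>
    show ∑ c : Col, co c * G (φ c) = ∑ c' : Col', (∑ c, if φ c = c' then co c else 0) * G c'
    simp only [sum_mul]
    rw [sum_comm]
    refine sum_congr rfl fun c _ => ?_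
    simp
  | succ d ih =>
    rw [sum_succ, sum_succ]
    refine sum_congr rfl fun k _ => ?_
    exact pi_push (Λ := Fin (k + 1)) (A := fun _ => Shape Col K d) (B := fun _ => Shape Col' K d)
      (fun _ => lprod co d) (fun _ => lprod (fun c' => ∑ c, if φ c = c' then co c else 0) d)
      (fun _ => map φ d) (fun _ g => ih g) (fun f => G ⟨k, f⟩)

end Shape

variable {X Y Col Col' : Type} {K : ℕ} {m : ℕ → ℝ}

private theorem tree_lprod_nonneg {co : Col → ℝ} (h0 : ∀ c, 0 ≤ co c) (d : ℕ)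
    (τ : Shape Col K d) : 0 ≤ Shape.lprod co d τ := by
  induction d with
  | zero => exact h0 τ
  | succ d ih =>
    show 0 ≤ ∏ c, Shape.lprod co d (τ.2 c)
    exact prod_nonneg fun c _ => ih _

private theorem tree_abs_avg_le {d : ℕ} {S : Sys X} (hS : Prob (d + 1) S) {g : S.ι → ℝ} {c : ℝ}
    (h : ∀ ω, |g ω| ≤ c) : |∑ ω, S.p ω * g ω| ≤ c := by
  calc _ ≤ ∑ ω, |S.p ω * g ω| := abs_sum_le_sum_abs _ _
    _ ≤ ∑ ω, S.p ω * c := by
        refine sum_le_sum fun ω _ => ?_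
        rw [abs_mul, abs_of_pos (hS.1 ω)]
        exact mul_le_mul_of_nonneg_left (h ω) (hS.1 ω).le
    _ = c := by rw [← sum_mul, hS.2.1, one_mul]

theorem wt_nonneg (hm : Exps m) (d : ℕ) (τ : Shape Col K d) : 0 ≤ wt m d τ := by
  induction d with
  | zero => exact zero_le_one
  | succ d ih =>
    show 0 ≤ sib (m (d + 1) / m d) τ.1 * ∏ c, wt m d (τ.2 c)
    exact mul_nonneg (sib_nonneg (hm.ratio_pos d).le (hm.ratio_le_one d) _)
      (prod_nonneg fun c _ => ih _)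

theorem wt_map (φ : Col → Col') (d : ℕ) (τ : Shape Col K d) :
    wt m d (Shape.map φ d τ) = wt m d τ := by
  induction d with
  | zero => rfl
  | succ d ih =>
    show sib (m (d + 1) / m d) τ.1 * ∏ c, wt m d (Shape.map φ d (τ.2 c)) =
      sib (m (d + 1) / m d) τ.1 * ∏ c, wt m d (τ.2 c)
    congr 1
    exact prod_congr rfl fun c _ => ih _

/-- The coloured Galton-Watson weights have total mass at most one. -/
theorem sum_wt_lprod_le_one [Fintype Col] (hm : Exps m) {co : Col → ℝ} (h0 : ∀ c, 0 ≤ co c)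
    (h1 : ∑ c, co c ≤ 1) (d : ℕ) :
    ∑ τ : Shape Col K d, wt m d τ * Shape.lprod co d τ ≤ 1 := by
  induction d with
  | zero =>
    show ∑ c : Col, 1 * co c ≤ 1
    simpa using h1
  | succ d ih =>
    have hA : 0 ≤ ∑ τ : Shape Col K d, wt m d τ * Shape.lprod co d τ :=
      sum_nonneg fun τ _ => mul_nonneg (wt_nonneg hm d τ) (tree_lprod_nonneg h0 d τ)
    rw [Shape.sum_succ]
    have e : ∀ k : Fin K, ∑ f : Fin (k + 1) → Shape Col K d,
        wt m (d + 1) (⟨k, f⟩ : Shape Col K (d + 1)) *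
          Shape.lprod co (d + 1) (⟨k, f⟩ : Shape Col K (d + 1)) =
        sib (m (d + 1) / m d) k *
          (∑ τ : Shape Col K d, wt m d τ * Shape.lprod co d τ) ^ ((k : ℕ) + 1) := by
      intro k
      rw [Fintype.sum_pow, mul_sum]
      refine sum_congr rfl fun f _ => ?_
      show (sib (m (d + 1) / m d) k * ∏ c, wt m d (f c)) * ∏ c, Shape.lprod co d (f c) = _
      rw [prod_mul_distrib, mul_assoc]
    simp only [e]
    calc _ ≤ ∑ k : Fin K, sib (m (d + 1) / m d) k := by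
          refine sum_le_sum fun k _ => ?_
          exact mul_le_of_le_one_right (sib_nonneg (hm.ratio_pos d).le (hm.ratio_le_one d) _)
            (pow_le_one₀ hA ih)
      _ = ∑ k ∈ range K, sib (m (d + 1) / m d) k :=
          Fin.sum_univ_eq_sum_range (fun k => sib (m (d + 1) / m d) k) K
      _ ≤ 1 := sum_sib_le_one (hm.ratio_pos d).le (hm.ratio_le_one d) K

/-! ### tree moments -/

theorem Mom_map (φ : Col → Col') (a : Col' → X → ℝ) (d : ℕ) (τ : Shape Col K d) (S : Sys X) :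
    Mom a d (Shape.map φ d τ) S = Mom (fun c => a (φ c)) d τ S := by
  induction d generalizing S with
  | zero => rfl
  | succ d ih =>
    show ∏ c, ∑ ω, S.p ω * Mom a d (Shape.map φ d (τ.2 c)) (S.ch ω) =
      ∏ c, ∑ ω, S.p ω * Mom (fun c => a (φ c)) d (τ.2 c) (S.ch ω)
    exact prod_congr rfl fun c _ => sum_congr rfl fun ω _ => by rw [ih]

theorem Mom_smul (co : Col → ℝ) (a : Col → X → ℝ) (d : ℕ) (τ : Shape Col K d) (S : Sys X) :
    Mom (fun c x => co c * a c x) d τ S = Shape.lprod co d τ * Mom a d τ S := by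
  induction d generalizing S with
  | zero => rfl
  | succ d ih =>
    show ∏ c, ∑ ω, S.p ω * Mom (fun c x => co c * a c x) d (τ.2 c) (S.ch ω) =
      (∏ c, Shape.lprod co d (τ.2 c)) * ∏ c, ∑ ω, S.p ω * Mom a d (τ.2 c) (S.ch ω)
    rw [← prod_mul_distrib]
    refine prod_congr rfl fun c _ => ?_
    rw [mul_sum]
    refine sum_congr rfl fun ω _ => ?_
    rw [ih]
    ring

theorem Mom_one {d : ℕ} (τ : Shape Col K d) {S : Sys X} (hS : Prob d S) :
    Mom (fun _ _ => (1 : ℝ)) d τ S = 1 := by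
  induction d generalizing S with
  | zero => rfl
  | succ d ih =>
    show ∏ c, ∑ ω, S.p ω * Mom (fun _ _ => (1 : ℝ)) d (τ.2 c) (S.ch ω) = 1
    refine prod_eq_one fun c _ => ?_
    exact (sum_congr rfl fun ω _ => by rw [ih _ (hS.2.2 ω), mul_one]).trans hS.2.1

theorem Mom_nonneg {a : Col → X → ℝ} (ha : ∀ c x, 0 ≤ a c x) {d : ℕ} (τ : Shape Col K d)
    {S : Sys X} (hS : Prob d S) : 0 ≤ Mom a d τ S := by
  induction d generalizing S with
  | zero => exact ha _ _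
  | succ d ih =>
    show 0 ≤ ∏ c, ∑ ω, S.p ω * Mom a d (τ.2 c) (S.ch ω)
    exact prod_nonneg fun c _ => sum_nonneg fun ω _ =>
      mul_nonneg (hS.1 ω).le (ih _ (hS.2.2 ω))

theorem abs_Mom_le {a : Col → X → ℝ} {lam : ℝ} (ha : ∀ c x, |a c x| ≤ lam) {d : ℕ}
    (τ : Shape Col K d) {S : Sys X} (hS : Prob d S) : |Mom a d τ S| ≤ lam ^ Shape.size d τ := by
  induction d generalizing S with
  | zero => simpa [Mom, Shape.size] using ha τ S.val
  | succ d ih =>
    show |∏ c, ∑ ω, S.p ω * Mom a d (τ.2 c) (S.ch ω)| ≤ lam ^ ∑ c, Shape.size d (τ.2 c)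
    rw [abs_prod, ← prod_pow_eq_pow_sum]
    exact prod_le_prod (fun _ _ => abs_nonneg _) fun c _ =>
      tree_abs_avg_le hS fun ω => ih _ (hS.2.2 ω)

theorem abs_Mom_le_one {a : Col → X → ℝ} (ha : ∀ c x, |a c x| ≤ 1) {d : ℕ}
    (τ : Shape Col K d) {S : Sys X} (hS : Prob d S) : |Mom a d τ S| ≤ 1 := by
  simpa using abs_Mom_le ha τ hS

theorem Mom_proj {φ : X → Y} {d : ℕ} {S : Sys X} {S' : Sys Y} (h : Proj φ d S S')
    (a : Col → Y → ℝ) (τ : Shape Col K d) :
    Mom (fun c x => a c (φ x)) d τ S = Mom a d τ S' := by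
  induction d generalizing S S' with
  | zero =>
    show a τ (φ S.val) = a τ S'.val
    rw [show φ S.val = S'.val from h]
  | succ d ih =>
    obtain ⟨f, hf, hch⟩ := h
    show ∏ c, ∑ ω, S.p ω * Mom (fun c x => a c (φ x)) d (τ.2 c) (S.ch ω) =
      ∏ c, ∑ ω, S'.p ω * Mom a d (τ.2 c) (S'.ch ω)
    refine prod_congr rfl fun c _ => ?_
    rw [← hf (fun j => Mom a d (τ.2 c) (S'.ch j))]
    exact sum_congr rfl fun ω _ => by rw [ih (hch ω)]

theorem inv_Mom (a : Col → X → ℝ) (d : ℕ) (τ : Shape Col K d) : Inv d (Mom a d τ) := by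
  intro S S' _ _ h
  exact Mom_proj h a τ

theorem Mom_prod (a : Col → X → ℝ) (a' : Col → Y → ℝ) (d : ℕ) (τ : Shape Col K d) (S : Sys X)
    (S' : Sys Y) :
    Mom (fun c (x : X × Y) => a c x.1 * a' c x.2) d τ (prod d S S') =
      Mom a d τ S * Mom a' d τ S' := by
  induction d generalizing S S' with
  | zero => rfl
  | succ d ih =>
    show ∏ c, ∑ ω : S.ι × S'.ι, (S.p ω.1 * S'.p ω.2) *
        Mom (fun c (x : X × Y) => a c x.1 * a' c x.2) d (τ.2 c) (prod d (S.ch ω.1) (S'.ch ω.2)) =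
      (∏ c, ∑ ω, S.p ω * Mom a d (τ.2 c) (S.ch ω)) *
        ∏ c, ∑ ω, S'.p ω * Mom a' d (τ.2 c) (S'.ch ω)
    rw [← prod_mul_distrib]
    refine prod_congr rfl fun c _ => ?_
    rw [sum_mul_sum, Fintype.sum_prod_type]
    refine sum_congr rfl fun ω _ => sum_congr rfl fun ω' _ => ?_
    rw [ih]
    ring

theorem Mom_piProd {Λ : Type} [Fintype Λ] [DecidableEq Λ] (a : Λ → Col → X → ℝ) (d : ℕ)
    (τ : Shape Col K d) (S : Λ → Sys X) :
    Mom (fun c (x : Λ → X) => ∏ l, a l c (x l)) d τ (piProd d S) = ∏ l, Mom (a l) d τ (S l) := by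
  induction d generalizing S with
  | zero => rfl
  | succ d ih =>
    show ∏ c, ∑ ω : (l : Λ) → (S l).ι, (∏ l, (S l).p (ω l)) *
        Mom (fun c (x : Λ → X) => ∏ l, a l c (x l)) d (τ.2 c)
          (piProd d (fun l => (S l).ch (ω l))) =
      ∏ l, ∏ c, ∑ ω, (S l).p ω * Mom (a l) d (τ.2 c) ((S l).ch ω)
    rw [prod_comm]
    refine prod_congr rfl fun c _ => ?_
    rw [Fintype.prod_sum]
    refine sum_congr rfl fun ω _ => ?_
    rw [ih, prod_mul_distrib]

private theorem tree_repr_step {d : ℕ} (τ : Shape Col K d) {S : Sys X} (hS : Prob (d + 1) S)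
    (h : ∀ ω : S.ι, ∃ (Ω : Type) (_ : Fintype Ω) (w : Ω → ℝ) (x : Ω → Shape.Leaf d τ → X),
      (∀ o, 0 ≤ w o) ∧ ∑ o, w o = 1 ∧
      ∀ a : Col → X → ℝ, Mom a d τ (S.ch ω) = ∑ o, w o * ∏ l, a (Shape.col d τ l) (x o l)) :
    ∃ (Ω : Type) (_ : Fintype Ω) (w : Ω → ℝ) (x : Ω → Shape.Leaf d τ → X),
      (∀ ω, 0 ≤ w ω) ∧ ∑ ω, w ω = 1 ∧
      ∀ a : Col → X → ℝ, Exp 1 S (Mom a d τ) = ∑ ω, w ω * ∏ l, a (Shape.col d τ l) (x ω l) := by
  choose Ω hF w x hw0 hw1 hM using h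
  refine ⟨Σ ω : S.ι, Ω ω, inferInstance, fun o => S.p o.1 * w o.1 o.2, fun o => x o.1 o.2,
    fun o => mul_nonneg (hS.1 _).le (hw0 _ _), ?_, fun a => ?_⟩
  · rw [Fintype.sum_sigma, ← hS.2.1]
    refine sum_congr rfl fun ω _ => ?_
    dsimp only
    rw [← mul_sum, hw1, mul_one]
  · rw [Exp_one, Fintype.sum_sigma]
    refine sum_congr rfl fun ω _ => ?_
    dsimp only
    rw [hM, mul_sum]
    exact sum_congr rfl fun o _ => by ring

/-- Tree moments are expectations over a finite sample space of leaf values. -/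
theorem Mom_repr {d : ℕ} (τ : Shape Col K d) {S : Sys X} (hS : Prob d S) :
    ∃ (Ω : Type) (_ : Fintype Ω) (w : Ω → ℝ) (x : Ω → Shape.Leaf d τ → X),
      (∀ ω, 0 ≤ w ω) ∧ ∑ ω, w ω = 1 ∧
      ∀ a : Col → X → ℝ, Mom a d τ S = ∑ ω, w ω * ∏ l, a (Shape.col d τ l) (x ω l) := by
  induction d generalizing S with
  | zero =>
    refine ⟨Unit, inferInstance, fun _ => 1, fun _ _ => S.val, fun _ => zero_le_one, by simp,
      fun a => ?_⟩
    show a τ S.val = ∑ _ω : Unit, 1 * ∏ _l : Unit, a τ S.val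
    simp
  | succ d ih =>
    have h := fun c => tree_repr_step (τ.2 c) hS (fun ω => ih (τ.2 c) (hS.2.2 ω))
    choose Ω hF w x hw0 hw1 hM using h
    refine ⟨∀ c, Ω c, inferInstance, fun o => ∏ c, w c (o c), fun o l => x l.1 (o l.1) l.2,
      fun o => prod_nonneg fun c _ => hw0 c _, ?_, fun a => ?_⟩
    · rw [← Fintype.prod_sum]
      exact prod_eq_one fun c _ => hw1 c
    · show ∏ c, Exp 1 S (Mom a d (τ.2 c)) = ∑ o : ∀ c, Ω c, (∏ c, w c (o c)) *
        ∏ l : Σ c : Fin (τ.1 + 1), Shape.Leaf d (τ.2 c),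
          a (Shape.col d (τ.2 l.1) l.2) (x l.1 (o l.1) l.2)
      simp only [hM]
      rw [Fintype.prod_sum]
      refine sum_congr rfl fun o _ => ?_
      rw [prod_mul_distrib, Fintype.prod_sigma]

/-- The same after one more step on top. -/
theorem Exp_one_Mom_repr {d : ℕ} (τ : Shape Col K d) {S : Sys X} (hS : Prob (d + 1) S) :
    ∃ (Ω : Type) (_ : Fintype Ω) (w : Ω → ℝ) (x : Ω → Shape.Leaf d τ → X),
      (∀ ω, 0 ≤ w ω) ∧ ∑ ω, w ω = 1 ∧
      ∀ a : Col → X → ℝ, Exp 1 S (Mom a d τ) = ∑ ω, w ω * ∏ l, a (Shape.col d τ l) (x ω l) := by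
  exact tree_repr_step τ hS (fun ω => Mom_repr τ (hS.2.2 ω))

/-! ### the expansion -/

theorem Uf_zero (hm : Exps m) (S : Sys X) (y : X → ℝ) : Uf m 0 S y = y S.val := by
  show 1 - (1 - y S.val) ^ m 0 = y S.val
  rw [hm.zero, Real.rpow_one]
  ring

/-- One step: `1 - T^(m d)` at a node of depth `d+1` is the average of `Uf` over the children. -/
theorem one_sub_T_rpow (hm : Exps m) {d : ℕ} {S : Sys X} (hS : Prob (d + 1) S) {y : X → ℝ}
    (hy : ∀ x, y x < 1) :
    1 - T m (d + 1) S (fun L => 1 - y L.val) ^ m d = ∑ ω, S.p ω * Uf m d (S.ch ω) y := by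
  rw [T_succ_rpow hm.pos hS (allAt_of_forall _ _ fun Z => sub_pos.2 (hy Z.val))]
  unfold Uf
  simp only [mul_sub, mul_one, sum_sub_distrib, hS.2.1]

theorem Uf_succ (hm : Exps m) {d : ℕ} {S : Sys X} (hS : Prob (d + 1) S) {y : X → ℝ}
    (hy : ∀ x, y x < 1) :
    Uf m (d + 1) S y = 1 - (1 - ∑ ω, S.p ω * Uf m d (S.ch ω) y) ^ (m (d + 1) / m d) := by
  rw [← one_sub_T_rpow hm hS hy, sub_sub_cancel]
  have hT : 0 < T m (d + 1) S (fun L => 1 - y L.val) :=
    T_pos hS (allAt_of_forall _ _ fun Z => sub_pos.2 (hy Z.val))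
  rw [← Real.rpow_mul hT.le, mul_div_cancel₀ _ (hm.pos d).ne']
  rfl

theorem abs_Uf_le (hm : Exps m) {d : ℕ} {S : Sys X} (hS : Prob d S) {y : X → ℝ} {lam : ℝ}
    (hlam : lam < 1) (hy : ∀ x, |y x| ≤ lam) : |Uf m d S y| ≤ lam := by
  induction d generalizing S with
  | zero => rw [Uf_zero hm]; exact hy _
  | succ d ih =>
    rw [Uf_succ hm hS fun x => lt_of_le_of_lt (le_abs_self _) ((hy x).trans_lt hlam)]
    have hu := tree_abs_avg_le hS fun ω => ih (hS.2.2 ω)
    exact (tree_abs_phi_le (hm.ratio_pos d).le (hm.ratio_le_one d) (hu.trans hlam.le)).trans hu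

theorem abs_UK_le (hm : Exps m) (K : ℕ) {d : ℕ} {S : Sys X} (hS : Prob d S) {y : X → ℝ} {lam : ℝ}
    (hlam : lam ≤ 1) (hy : ∀ x, |y x| ≤ lam) : |UK m K d S y| ≤ lam := by
  have h0 : 0 ≤ lam := (abs_nonneg _).trans (hy S.val)
  induction d generalizing S with
  | zero => exact hy _
  | succ d ih =>
    have hu := tree_abs_avg_le hS fun ω => ih (hS.2.2 ω)
    show |∑ k ∈ range K, sib (m (d + 1) / m d) k *
      (∑ ω, S.p ω * UK m K d (S.ch ω) y) ^ (k + 1)| ≤ lam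
    have hs := fun k => sib_nonneg (hm.ratio_pos d).le (hm.ratio_le_one d) k
    calc _ ≤ ∑ k ∈ range K, |sib (m (d + 1) / m d) k *
          (∑ ω, S.p ω * UK m K d (S.ch ω) y) ^ (k + 1)| := abs_sum_le_sum_abs _ _
      _ ≤ ∑ k ∈ range K, sib (m (d + 1) / m d) k * lam := by
          refine sum_le_sum fun k _ => ?_
          rw [abs_mul, abs_of_nonneg (hs k), abs_pow, pow_succ]
          refine mul_le_mul_of_nonneg_left ?_ (hs k)
          calc _ ≤ 1 * lam := mul_le_mul (pow_le_one₀ (abs_nonneg _) (hu.trans hlam)) hu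
                (abs_nonneg _) zero_le_one
            _ = lam := one_mul _
      _ = (∑ k ∈ range K, sib (m (d + 1) / m d) k) * lam := by rw [sum_mul]
      _ ≤ lam := mul_le_of_le_one_left h0
          (sum_sib_le_one (hm.ratio_pos d).le (hm.ratio_le_one d) K)

/-- The truncated expansion converges, uniformly in everything but `lam` and the depth. -/
theorem UK_approx {lam : ℝ} (hlam : lam < 1) (d : ℕ) {ε : ℝ} (hε : 0 < ε) :
    ∃ K₀ : ℕ, ∀ K, K₀ ≤ K → ∀ (m : ℕ → ℝ), Exps m → ∀ (X : Type) (S : Sys X) (y : X → ℝ),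
      Prob d S → (∀ x, |y x| ≤ lam) → |Uf m d S y - UK m K d S y| ≤ ε := by
  by_cases h0 : 0 ≤ lam
  swap
  · exact ⟨0, fun K _ m _ X S y _ hy => absurd ((abs_nonneg _).trans (hy S.val)) h0⟩
  have h1 : 0 < 1 - lam := sub_pos.2 hlam
  induction d generalizing ε with
  | zero =>
    refine ⟨0, fun K _ m hm X S y _ _ => ?_⟩
    rw [Uf_zero hm]
    show |y S.val - y S.val| ≤ ε
    simpa using hε.le
  | succ d ih =>
    have hε' : 0 < ε / 2 * (1 - lam) := by positivity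
    obtain ⟨K₁, hK₁⟩ := ih hε'
    obtain ⟨K₂, hK₂⟩ := exists_pow_lt_of_lt_one hε' hlam
    refine ⟨max K₁ K₂, fun K hK m hm X S y hS hy => ?_⟩
    have hρ0 := (hm.ratio_pos d).le
    have hρ1 := hm.ratio_le_one d
    rw [Uf_succ hm hS fun x => lt_of_le_of_lt (le_abs_self _) ((hy x).trans_lt hlam)]
    have hu := tree_abs_avg_le hS fun ω => abs_Uf_le hm (hS.2.2 ω) hlam hy
    have hv := tree_abs_avg_le hS fun ω => abs_UK_le hm K (hS.2.2 ω) hlam.le hy
    have huv := tree_abs_avg_le hS fun ω =>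
      hK₁ K (le_of_max_le_left hK) m hm X (S.ch ω) y (hS.2.2 ω) hy
    simp only [mul_sub, sum_sub_distrib] at huv
    show |1 - (1 - ∑ ω, S.p ω * Uf m d (S.ch ω) y) ^ (m (d + 1) / m d) -
      ∑ k ∈ range K, sib (m (d + 1) / m d) k *
        (∑ ω, S.p ω * UK m K d (S.ch ω) y) ^ (k + 1)| ≤ ε
    have t1 := tree_tail_le hρ0 hρ1 hlam hu K
    have t2 := tree_lip hρ0 hρ1 hlam hu hv K
    have t3 : lam ^ K ≤ ε / 2 * (1 - lam) :=
      (pow_le_pow_of_le_one h0 hlam.le (le_of_max_le_right hK)).trans hK₂.le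
    have t4 : lam ^ K / (1 - lam) ≤ ε / 2 := by rwa [div_le_iff₀ h1]
    have t5 : |∑ ω, S.p ω * Uf m d (S.ch ω) y - ∑ ω, S.p ω * UK m K d (S.ch ω) y| / (1 - lam) ≤
        ε / 2 := by
      rw [div_le_iff₀ h1]
      linarith
    calc _ ≤ _ := abs_sub_le _ (∑ k ∈ range K, sib (m (d + 1) / m d) k *
          (∑ ω, S.p ω * Uf m d (S.ch ω) y) ^ (k + 1)) _
      _ ≤ ε / 2 + ε / 2 := add_le_add (t1.trans t4) (t2.trans t5)
      _ = ε := by ring

/-- The tree expansion. -/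
theorem UK_eq_sum [Fintype Col] (a : Col → X → ℝ) (d : ℕ) (S : Sys X) :
    UK m K d S (fun x => ∑ c, a c x) = ∑ τ : Shape Col K d, wt m d τ * Mom a d τ S := by
  induction d generalizing S with
  | zero =>
    show ∑ c, a c S.val = ∑ c : Col, 1 * a c S.val
    simp
  | succ d ih =>
    rw [Shape.sum_succ]
    show ∑ k ∈ range K, sib (m (d + 1) / m d) k *
      (∑ ω, S.p ω * UK m K d (S.ch ω) (fun x => ∑ c, a c x)) ^ (k + 1) = _
    rw [← Fin.sum_univ_eq_sum_range (fun k => sib (m (d + 1) / m d) k *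
      (∑ ω, S.p ω * UK m K d (S.ch ω) (fun x => ∑ c, a c x)) ^ (k + 1)) K]
    refine sum_congr rfl fun k _ => ?_
    have e : ∑ ω, S.p ω * UK m K d (S.ch ω) (fun x => ∑ c, a c x) =
        ∑ τ : Shape Col K d, wt m d τ * ∑ ω, S.p ω * Mom a d τ (S.ch ω) := by
      simp only [ih, mul_sum]
      rw [sum_comm]
      exact sum_congr rfl fun τ _ => sum_congr rfl fun ω _ => by ring
    rw [e, Fintype.sum_pow, mul_sum]
    refine sum_congr rfl fun f _ => ?_
    show _ = (sib (m (d + 1) / m d) k * ∏ c, wt m d (f c)) *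
      ∏ c, ∑ ω, S.p ω * Mom a d (f c) (S.ch ω)
    rw [prod_mul_distrib, mul_assoc]

/-- `log T` versus `1 - T^μ`. -/
theorem abs_log_add_div_le {t μ c : ℝ} (ht : 0 < t) (hμ : 0 < μ) (hc : |Real.log t| ≤ c)
    (hμc : μ * c ≤ 1) : |Real.log t + (1 - t ^ μ) / μ| ≤ μ * c ^ 2 := by
  have hs : |Real.log t * μ| ≤ 1 := by
    rw [abs_mul, abs_of_pos hμ]
    nlinarith [abs_nonneg (Real.log t)]
  have h := Real.abs_exp_sub_one_sub_id_le hs
  rw [Real.rpow_def_of_pos ht]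
  have e : Real.log t + (1 - Real.exp (Real.log t * μ)) / μ =
      -(Real.exp (Real.log t * μ) - 1 - Real.log t * μ) / μ := by
    field_simp
    ring
  rw [e, abs_div, abs_neg, abs_of_pos hμ, div_le_iff₀ hμ]
  refine h.trans ?_
  have h2 : Real.log t ^ 2 ≤ c ^ 2 := by
    rw [← sq_abs]
    exact pow_le_pow_left₀ (abs_nonneg _) hc 2
  calc (Real.log t * μ) ^ 2 = Real.log t ^ 2 * μ ^ 2 := by ring
    _ ≤ c ^ 2 * μ ^ 2 := mul_le_mul_of_nonneg_right h2 (sq_nonneg _)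
    _ = μ * c ^ 2 * μ := by ring

end Crest.Agent.R141
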