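import Crest.Agent.R141.BasicAdd
import Crest.Agent.R141.Tree
import Crest.Agent.R141.IsoAux

/-! Row 141, module E: the isolating item picks out one tree moment to leading order. -/

set_option autoImplicit false

namespace Crest.Agent.R141

open Finset Sys

/-- the block of coordinates over `i` -/
def isoBlk {I : Type} (β : I → Type) [∀ i, Fintype (β i)] (i : I) : Finset (Σ i, β i) :=
  univ.map (Function.Embedding.sigmaMk i)

theorem isoBlk_prod {I : Type} (β : I → Type) [∀ i, Fintype (β i)] (i : I) (g : (Σ i, β i) → ℝ) :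
    ∏ x ∈ isoBlk β i, g x = ∏ k, g ⟨i, k⟩ := by
  rw [isoBlk, Finset.prod_map]; rfl

theorem isoBlk_card {I : Type} (β : I → Type) [∀ i, Fintype (β i)] (i : I) :
    (isoBlk β i).card = Fintype.card (β i) := by
  rw [isoBlk, Finset.card_map, Finset.card_univ]

theorem iso_card_le {Col : Type} {K n d : ℕ} {I : Type} [Fintype I] (f : I → Shape Col K d)
    (hf : ∑ i, Shape.size d (f i) ≤ n) : (Fintype.card I : ℝ) ≤ n := by
  have h : Fintype.card I ≤ ∑ i, Shape.size d (f i) := by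
    rw [← Finset.card_univ, Finset.card_eq_sum_ones]
    exact Finset.sum_le_sum fun i _ => Shape.one_le_size d (f i)
  exact_mod_cast h.trans hf

theorem iso_abs_sum_le {I : Type} [Fintype I] {ε g : I → ℝ} (hε : ∀ i, |ε i| ≤ 1)
    (hg : ∀ i, |g i| ≤ 1) : |∑ i, ε i * g i| ≤ Fintype.card I := by
  refine (Finset.abs_sum_le_sum_abs _ _).trans ?_
  have : (Fintype.card I : ℝ) = ∑ _i : I, (1 : ℝ) := by simp
  rw [this]
  refine Finset.sum_le_sum fun i _ => ?_
  rw [abs_mul]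
  exact mul_le_one₀ (hε i) (abs_nonneg _) (hg i)

theorem iso_abs_prod_sgn {J : Type} [Fintype J] (b : J → Bool) : |∏ k, sgn (b k)| ≤ 1 := by
  rw [Finset.abs_prod]
  simp [iso_abs_sgn]

theorem iso_size_children {Col : Type} {K d : ℕ} {I : Type} [Fintype I]
    (f : I → Shape Col K (d + 1)) :
    ∑ x : (Σ i : I, Fin ((f i).1 + 1)), Shape.size d ((f x.1).2 x.2) =
      ∑ i, Shape.size (d + 1) (f i) := by
  rw [Fintype.sum_sigma]; rfl

theorem iso_sum_chi {I : Type} [Fintype I] [DecidableEq I] (k : I → ℕ) (i : I) :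
    ∑ b : (Σ i : I, Fin (k i + 1)) → Bool, ∏ j, sgn (b ⟨i, j⟩) = 0 := by
  have h : (isoBlk (fun i => Fin (k i + 1)) i).Nonempty := by
    rw [← Finset.card_pos, isoBlk_card]; simp
  have := sum_prod_sgn_eq_zero h
  simpa only [isoBlk_prod] using this

theorem item_isoItem {X Col : Type} {K : ℕ} {n : ℕ} {t c : ℝ} (ht : 0 ≤ t) (htn : n * t ≤ 1 / 2)
    (hc : 0 ≤ c) (hcn : n * c ≤ 1 / 2) {a : Col → X → ℝ} (ha : ∀ k x, |a k x| ≤ 1) (d : ℕ)
    (I : Type) [Fintype I] [DecidableEq I] (f : I → Shape Col K d)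
    (hf : ∑ i, Shape.size d (f i) ≤ n) (ε : I → ℝ) (hε : ∀ i, |ε i| ≤ 1) :
    Item (d + 1) (1 - n * t) (1 + n * t) (isoItem t c a d I f ε) := by
  induction d generalizing I with
  | zero =>
    refine ⟨⟨fun _ => one_pos, ?_, fun _ => trivial⟩, fun _ x => ?_⟩
    · show ∑ _ω : Unit, (1 : ℝ) = 1
      simp
    · show 1 - n * t ≤ 1 - t * ∑ i : I, ε i * a (f i) x ∧ 1 - t * ∑ i : I, ε i * a (f i) x ≤ 1 + n * t
      have h1 := (iso_abs_sum_le hε (fun i => ha (f i) x)).trans (iso_card_le f hf)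
      have h2 := mul_le_mul_of_nonneg_left (abs_le.1 h1).1 ht
      have h3 := mul_le_mul_of_nonneg_left (abs_le.1 h1).2 ht
      constructor <;> linarith
  | succ d ih =>
    have hch : ∀ b : (Σ i : I, Fin ((f i).1 + 1)) → Bool,
        Item (d + 1) (1 - n * t) (1 + n * t) (isoItem t c a d (Σ i : I, Fin ((f i).1 + 1))
          (fun x => (f x.1).2 x.2) (fun x => sgn (b x))) := fun b =>
      ih _ _ ((iso_size_children f).trans_le hf) _ (fun x => (iso_abs_sgn _).le)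
    refine ⟨⟨fun b => ?_, ?_, fun b => (hch b).1⟩, fun b => (hch b).2⟩
    · show 0 < (1 + c * ∑ i : I, ε i * ∏ k, sgn (b ⟨i, k⟩)) /
        2 ^ Fintype.card (Σ i : I, Fin ((f i).1 + 1))
      have h1 := (iso_abs_sum_le hε (fun i => iso_abs_prod_sgn (fun k => b ⟨i, k⟩))).trans
        (iso_card_le f hf)
      have h2 := mul_le_mul_of_nonneg_left (abs_le.1 h1).1 hc
      apply div_pos _ (by positivity)
      linarith
    · show ∑ b : (Σ i : I, Fin ((f i).1 + 1)) → Bool,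
        (1 + c * ∑ i : I, ε i * ∏ k, sgn (b ⟨i, k⟩)) /
          2 ^ Fintype.card (Σ i : I, Fin ((f i).1 + 1)) = 1
      rw [← Finset.sum_div, Finset.sum_add_distrib, ← Finset.mul_sum, Finset.sum_comm]
      simp only [← Finset.mul_sum, iso_sum_chi (fun i => ((f i).1 : ℕ))]
      simp

theorem iso_step {n k : ℕ} {C t ρ : ℝ} {N : Type} [Fintype N] [DecidableEq N] (J : Finset N)
    (hJ : J.card = k + 1) (hk : k + 1 ≤ n) (hρ0 : 0 ≤ ρ) (hρ1 : ρ ≤ 1) (ht : 0 ≤ t)
    (htn : n * t ≤ 1 / 2) (hC : 0 ≤ C) (x0 : ℝ) (v z y : N → ℝ)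
    (hR : ∀ e : N → Bool, |x0 + ∑ x, sgn (e x) * v x| ≤ n * t) (hz : ∀ x, 0 ≤ z x)
    (hy : ∀ x, |y x| ≤ 1) (hv : ∀ x, |v x - z x * y x| ≤ C * t * z x) :
    |(∑ e : N → Bool, (∏ x ∈ J, sgn (e x)) * isoPhi ρ 0 (x0 + ∑ x, sgn (e x) * v x)) /
        2 ^ Fintype.card N - ((k + 1).factorial : ℝ) * sib ρ k * (∏ x ∈ J, z x) * ∏ x ∈ J, y x| ≤
      (1 + C) ^ n * (n * 2 ^ (n + 1) * n + n * C) * t *
        (((k + 1).factorial : ℝ) * sib ρ k * ∏ x ∈ J, z x) := by
  set F : ℝ := ((k + 1).factorial : ℝ) * sib ρ k with hF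
  have hF0 : 0 ≤ F := mul_nonneg (Nat.cast_nonneg _) (sib_nonneg hρ0 hρ1 k)
  have hn : (k : ℝ) + 1 ≤ n := by exact_mod_cast hk
  have hk0 : (0 : ℝ) ≤ k := Nat.cast_nonneg _
  have ht1 : t ≤ 1 := by nlinarith
  have h1 := iso_mixed J (isoPhi ρ) (n * t) x0 F (F * (n * 2 ^ (n + 1) * (n * t))) v
    (fun j x hx => isoPhi_deriv ρ j (hx.trans htn)) hR
    (by
      intro ξ hξ
      rw [hJ]
      have e : isoPhi ρ (k + 1) ξ - F = F * ((1 - ξ) ^ (-(k + 1 - ρ)) - 1) := by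
        rw [hF, factorial_mul_sib, neg_sub]
        simp only [isoPhi]
        ring
      rw [e, abs_mul, abs_of_nonneg hF0]
      apply mul_le_mul_of_nonneg_left _ hF0
      refine (iso_rpow_sub_one_le (n := n) (by linarith) (by linarith) (hξ.trans htn)).trans ?_
      exact mul_le_mul_of_nonneg_left hξ (by positivity))
  obtain ⟨h2, h3⟩ := iso_prod_approx J v z y (mul_nonneg hC ht) hz hy hv
  set P := ∏ x ∈ J, v x
  set Z := ∏ x ∈ J, z x with hZ
  set Y := ∏ x ∈ J, y x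
  set Sm := ∑ e : N → Bool, (∏ x ∈ J, sgn (e x)) * isoPhi ρ 0 (x0 + ∑ x, sgn (e x) * v x)
  have hZ0 : 0 ≤ Z := Finset.prod_nonneg fun x _ => hz x
  have hCt : C * t ≤ C := mul_le_of_le_one_right hC ht1
  have hCt0 : 0 ≤ C * t := mul_nonneg hC ht
  rw [hJ] at h2 h3
  have hpow : (1 + C) ^ (k + 1) ≤ (1 + C) ^ n := pow_le_pow_right₀ (by linarith) hk
  have h4 : (1 + C * t) ^ (k + 1) ≤ (1 + C) ^ n :=
    (pow_le_pow_left₀ (by linarith) (by linarith) _).trans hpow
  have h5 : (1 + C * t) ^ (k + 1) - 1 ≤ n * (C * t) * (1 + C) ^ n := by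
    refine (iso_pow_sub_one_le hCt0 hCt (k + 1)).trans ?_
    apply mul_le_mul _ hpow (by positivity) (by positivity)
    apply mul_le_mul_of_nonneg_right _ hCt0
    exact_mod_cast hk
  have h6 : |P| ≤ (1 + C) ^ n * Z := h3.trans (mul_le_mul_of_nonneg_right h4 hZ0)
  have h7 : |P - Z * Y| ≤ n * (C * t) * (1 + C) ^ n * Z :=
    h2.trans (mul_le_mul_of_nonneg_right h5 hZ0)
  have hp : (0 : ℝ) < 2 ^ Fintype.card N := by positivity
  have h8 : |Sm / 2 ^ Fintype.card N - P * F| ≤ |P| * (F * (n * 2 ^ (n + 1) * (n * t))) := by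
    have e : Sm / 2 ^ Fintype.card N - P * F =
        (Sm - 2 ^ Fintype.card N * (P * F)) / 2 ^ Fintype.card N := by field_simp
    rw [e, abs_div, abs_of_pos hp, div_le_iff₀ hp]
    linarith
  have e : Sm / 2 ^ Fintype.card N - F * Z * Y =
      (Sm / 2 ^ Fintype.card N - P * F) + F * (P - Z * Y) := by ring
  rw [e]
  refine (abs_add_le _ _).trans ?_
  rw [abs_mul F, abs_of_nonneg hF0]
  have b1 := mul_le_mul_of_nonneg_right h6
    (show 0 ≤ F * (n * 2 ^ (n + 1) * (n * t)) by positivity)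
  have b2 := mul_le_mul_of_nonneg_left h7 hF0
  calc _ ≤ _ := add_le_add (h8.trans b1) b2
    _ = _ := by ring

theorem iso_kap_nonneg {Col : Type} {K : ℕ} {m : ℕ → ℝ} (hm : Exps m) {c : ℝ} (hc : 0 ≤ c) (d : ℕ)
    (τ : Shape Col K d) : 0 ≤ kap m c d τ := by
  induction d with
  | zero => exact zero_le_one
  | succ d ih =>
    exact mul_nonneg (mul_nonneg (mul_nonneg hc (Nat.cast_nonneg _))
      (sib_nonneg (hm.ratio_pos d).le (hm.ratio_le_one d) _)) (Finset.prod_nonneg fun k _ => ih _)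

theorem iso_expand_d (n d : ℕ) : ∃ C : ℝ, 0 ≤ C ∧ ∀ (X Col : Type) (K : ℕ)
    (m : ℕ → ℝ), Exps m → ∀ (t c : ℝ), 0 ≤ t → n * t ≤ 1 / 2 → 0 ≤ c → n * c ≤ 1 / 2 →
    ∀ (a : Col → X → ℝ), (∀ k x, |a k x| ≤ 1) →
    ∀ (I : Type) [Fintype I] [DecidableEq I] (f : I → Shape Col K d),
      ∑ i, Shape.size d (f i) ≤ n → ∀ S : Sys X, Prob (d + 1) S →
      ∃ (u0 : ℝ) (u : I → ℝ),
        (∀ b : I → Bool, 1 - TA m (d + 1) S (isoItem t c a d I f (fun i => sgn (b i))) ^ m d =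
          u0 + ∑ i, sgn (b i) * u i) ∧
        ∀ i, |u i - kap m c d (f i) * t ^ Shape.size d (f i) * Exp 1 S (Mom a d (f i))| ≤
          C * t * (kap m c d (f i) * t ^ Shape.size d (f i)) := by
  induction d with
  | zero =>
    refine ⟨0, le_rfl, ?_⟩
    intro X Col K m hm t c ht htn hc hcn a ha I _ _ f hf S hS
    refine ⟨0, fun i => t * Exp 1 S (Mom a 0 (f i)), fun b => ?_, fun i => ?_⟩
    · have hI := item_isoItem ht htn hc hcn ha 0 I f hf (fun i => sgn (b i))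
        (fun i => (iso_abs_sgn _).le)
      rw [TA_succ_rpow hm.pos (by linarith) hS hI, hm.zero, Fintype.sum_prod_type]
      show 1 - ∑ ω : S.ι, ∑ _κ : Unit, S.p ω * 1 *
        (1 - t * ∑ i : I, sgn (b i) * a (f i) (S.ch ω).val) ^ (1 : ℝ) =
        0 + ∑ i, sgn (b i) * (t * ∑ ω : S.ι, S.p ω * a (f i) (S.ch ω).val)
      simp only [Real.rpow_one, Finset.univ_unique, Finset.sum_singleton, mul_one, zero_add,
        mul_sub, Finset.sum_sub_distrib, hS.2.1, sub_sub_cancel, Finset.mul_sum]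
      rw [Finset.sum_comm]
      exact Finset.sum_congr rfl fun i _ => Finset.sum_congr rfl fun ω _ => by ring
    · show |t * Exp 1 S (Mom a 0 (f i)) - 1 * t ^ 1 * Exp 1 S (Mom a 0 (f i))| ≤ 0 * t * (1 * t ^ 1)
      simp
  | succ d ih =>
    obtain ⟨C, hC, ih⟩ := ih
    refine ⟨(1 + C) ^ n * (n * 2 ^ (n + 1) * n + n * C), by positivity, ?_⟩
    intro X Col K m hm t c ht htn hc hcn a ha I _ _ f hf S hS
    have hf' := (iso_size_children f).trans_le hf
    choose u0 u hu hu' using fun ω : S.ι => ih X Col K m hm t c ht htn hc hcn a ha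
      (Σ i : I, Fin ((f i).1 + 1)) (fun x => (f x.1).2 x.2) hf' (S.ch ω) (hS.2.2 ω)
    set ρ := m (d + 1) / m d with hρ
    have hlo : 0 < 1 - n * t := by linarith
    have hit : ∀ e : (Σ i : I, Fin ((f i).1 + 1)) → Bool, _ := fun e =>
      item_isoItem ht htn hc hcn ha d (Σ i : I, Fin ((f i).1 + 1)) (fun x => (f x.1).2 x.2) hf'
        (fun x => sgn (e x)) (fun x => (iso_abs_sgn _).le)
    have hR : ∀ (ω : S.ι) (e : (Σ i : I, Fin ((f i).1 + 1)) → Bool),
        |u0 ω + ∑ x, sgn (e x) * u ω x| ≤ n * t := by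
      intro ω e
      rw [← hu]
      have hb := TA_bounds hm.pos hlo (hS.2.2 ω) (hit e)
      exact iso_abs_one_sub_rpow_le (hm.pos d).le (hm.le_one d) htn hb.1 hb.2
    have hT : ∀ (ω : S.ι) (e : (Σ i : I, Fin ((f i).1 + 1)) → Bool),
        TA m (d + 1) (S.ch ω) (isoItem t c a d (Σ i : I, Fin ((f i).1 + 1))
          (fun x => (f x.1).2 x.2) (fun x => sgn (e x))) ^ m (d + 1) =
        1 - isoPhi ρ 0 (u0 ω + ∑ x, sgn (e x) * u ω x) := by
      intro ω e
      rw [← hu]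
      simp only [isoPhi, sub_sub_cancel]
      rw [← Real.rpow_mul (TA_pos hm.pos hlo (hS.2.2 ω) (hit e)).le, hρ,
        mul_div_cancel₀ _ (hm.pos d).ne']
    refine ⟨∑ ω : S.ι, S.p ω * ((∑ e : (Σ i : I, Fin ((f i).1 + 1)) → Bool,
        isoPhi ρ 0 (u0 ω + ∑ x, sgn (e x) * u ω x)) /
          2 ^ Fintype.card (Σ i : I, Fin ((f i).1 + 1))),
      fun i => c * ∑ ω : S.ι, S.p ω * ((∑ e : (Σ i : I, Fin ((f i).1 + 1)) → Bool,
        (∏ k, sgn (e ⟨i, k⟩)) * isoPhi ρ 0 (u0 ω + ∑ x, sgn (e x) * u ω x)) /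
          2 ^ Fintype.card (Σ i : I, Fin ((f i).1 + 1))), fun b => ?_, fun i => ?_⟩
    · have hI := item_isoItem ht htn hc hcn ha (d + 1) I f hf (fun i => sgn (b i))
        (fun i => (iso_abs_sgn _).le)
      have hsum : ∑ e : (Σ i : I, Fin ((f i).1 + 1)) → Bool,
          (1 + c * ∑ i : I, sgn (b i) * ∏ k, sgn (e ⟨i, k⟩)) /
            2 ^ Fintype.card (Σ i : I, Fin ((f i).1 + 1)) = 1 := hI.1.2.1
      rw [TA_succ_rpow hm.pos hlo hS hI, Fintype.sum_prod_type]
      have e1 : ∀ ω : S.ι, (∑ e : (isoItem t c a (d + 1) I f (fun i => sgn (b i))).ι,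
          S.p ω * (isoItem t c a (d + 1) I f (fun i => sgn (b i))).p e *
            TA m (d + 1) (S.ch ω) ((isoItem t c a (d + 1) I f (fun i => sgn (b i))).ch e) ^
              m (d + 1)) =
          S.p ω - S.p ω * ∑ e : (Σ i : I, Fin ((f i).1 + 1)) → Bool,
            (1 + c * ∑ i : I, sgn (b i) * ∏ k, sgn (e ⟨i, k⟩)) /
              2 ^ Fintype.card (Σ i : I, Fin ((f i).1 + 1)) *
              isoPhi ρ 0 (u0 ω + ∑ x, sgn (e x) * u ω x) := by
        intro ω
        show ∑ e : (Σ i : I, Fin ((f i).1 + 1)) → Bool,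
          S.p ω * ((1 + c * ∑ i : I, sgn (b i) * ∏ k, sgn (e ⟨i, k⟩)) /
            2 ^ Fintype.card (Σ i : I, Fin ((f i).1 + 1))) *
            TA m (d + 1) (S.ch ω) (isoItem t c a d (Σ i : I, Fin ((f i).1 + 1))
              (fun x => (f x.1).2 x.2) (fun x => sgn (e x))) ^ m (d + 1) = _
        simp only [hT, mul_sub, mul_one, Finset.sum_sub_distrib, mul_assoc]
        rw [← Finset.mul_sum, ← Finset.mul_sum, hsum, mul_one]
      simp only [e1]
      rw [Finset.sum_sub_distrib, hS.2.1, sub_sub_cancel]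
      simp only [Finset.mul_sum (s := (univ : Finset S.ι))]
      rw [Finset.sum_comm (s := (univ : Finset I)), ← Finset.sum_add_distrib]
      refine Finset.sum_congr rfl fun ω _ => ?_
      simp only [Finset.sum_div, Finset.mul_sum (s := (univ : Finset
        ((Σ i : I, Fin ((f i).1 + 1)) → Bool)))]
      rw [Finset.sum_comm (s := (univ : Finset I)), ← Finset.sum_add_distrib]
      refine Finset.sum_congr rfl fun e _ => ?_
      rw [add_div, add_mul, mul_add, Finset.mul_sum, Finset.sum_div, Finset.sum_mul, Finset.mul_sum]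
      congr 1
      · ring
      · exact Finset.sum_congr rfl fun i _ => by ring
    · set F : ℝ := (((f i).1 + 1 : ℕ).factorial : ℝ) * sib ρ (f i).1 with hF
      set Z : ℝ := ∏ k, kap m c d ((f i).2 k) * t ^ Shape.size d ((f i).2 k) with hZ
      have e1 : kap m c (d + 1) (f i) * t ^ Shape.size (d + 1) (f i) = c * (F * Z) := by
        show c * (((f i).1 + 1 : ℕ).factorial : ℝ) * sib ρ (f i).1 * (∏ k, kap m c d ((f i).2 k)) *
          t ^ (∑ k, Shape.size d ((f i).2 k)) = _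
        rw [hZ, Finset.prod_mul_distrib, Finset.prod_pow_eq_pow_sum, hF]
        ring
      have e2 : Exp 1 S (Mom a (d + 1) (f i)) =
          ∑ ω : S.ι, S.p ω * ∏ k, Exp 1 (S.ch ω) (Mom a d ((f i).2 k)) := rfl
      have hk : ((f i).1 : ℕ) + 1 ≤ n :=
        (Shape.succ_le_size (f i)).trans ((Finset.single_le_sum
          (f := fun i => Shape.size (d + 1) (f i)) (fun _ _ => Nat.zero_le _) (mem_univ i)).trans hf)
      have key : ∀ ω : S.ι, |(∑ e : (Σ i : I, Fin ((f i).1 + 1)) → Bool,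
          (∏ k, sgn (e ⟨i, k⟩)) * isoPhi ρ 0 (u0 ω + ∑ x, sgn (e x) * u ω x)) /
            2 ^ Fintype.card (Σ i : I, Fin ((f i).1 + 1)) -
            F * Z * ∏ k, Exp 1 (S.ch ω) (Mom a d ((f i).2 k))| ≤
          (1 + C) ^ n * (n * 2 ^ (n + 1) * n + n * C) * t * (F * Z) := by
        intro ω
        have := iso_step (isoBlk (fun i => Fin ((f i).1 + 1)) i) (k := (f i).1)
          (by rw [isoBlk_card, Fintype.card_fin]) hk (hm.ratio_pos d).le (hm.ratio_le_one d) ht htn hC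
          (u0 ω) (u ω) (fun x => kap m c d ((f x.1).2 x.2) * t ^ Shape.size d ((f x.1).2 x.2))
          (fun x => Exp 1 (S.ch ω) (Mom a d ((f x.1).2 x.2))) (hR ω)
          (fun x => mul_nonneg (iso_kap_nonneg hm hc _ _) (pow_nonneg ht _))
          (fun x => abs_Exp_le_of_le (j := 1) (Prob.mono (b := d) (hS.2.2 ω))
            (fun ω' => abs_Mom_le_one ha _ ((hS.2.2 ω).2.2 ω')))
          (hu' ω)
        simpa only [isoBlk_prod] using this
      rw [e1, e2, mul_assoc c, ← mul_sub, abs_mul, abs_of_nonneg hc, Finset.mul_sum,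
        ← Finset.sum_sub_distrib, mul_left_comm _ c]
      apply mul_le_mul_of_nonneg_left _ hc
      refine (Finset.abs_sum_le_sum_abs _ _).trans ?_
      generalize (1 + C) ^ n * (n * 2 ^ (n + 1) * n + n * C) * t * (F * Z) = B at key ⊢
      rw [← one_mul B, ← hS.2.1, Finset.sum_mul]
      refine Finset.sum_le_sum fun ω _ => ?_
      rw [mul_left_comm (F * Z), ← mul_sub, abs_mul, abs_of_pos (hS.1 ω)]
      exact mul_le_mul_of_nonneg_left (key ω) (hS.1 ω).le

/-- The tilt of the isolating item is affine in the signs, with slopes `kap * t^size * moment`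
up to a relative error `O(t)`. -/
theorem iso_expand (n D : ℕ) : ∃ C : ℝ, 0 ≤ C ∧ ∀ (d : ℕ), d ≤ D → ∀ (X Col : Type) (K : ℕ)
    (m : ℕ → ℝ), Exps m → ∀ (t c : ℝ), 0 ≤ t → n * t ≤ 1 / 2 → 0 ≤ c → n * c ≤ 1 / 2 →
    ∀ (a : Col → X → ℝ), (∀ k x, |a k x| ≤ 1) →
    ∀ (I : Type) [Fintype I] [DecidableEq I] (f : I → Shape Col K d),
      ∑ i, Shape.size d (f i) ≤ n → ∀ S : Sys X, Prob (d + 1) S →
      ∃ (u0 : ℝ) (u : I → ℝ),
        (∀ b : I → Bool, 1 - TA m (d + 1) S (isoItem t c a d I f (fun i => sgn (b i))) ^ m d =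
          u0 + ∑ i, sgn (b i) * u i) ∧
        ∀ i, |u i - kap m c d (f i) * t ^ Shape.size d (f i) * Exp 1 S (Mom a d (f i))| ≤
          C * t * (kap m c d (f i) * t ^ Shape.size d (f i)) := by
  choose C hC h using iso_expand_d n
  refine ⟨∑ d ∈ range (D + 1), C d, Finset.sum_nonneg fun d _ => hC d, ?_⟩
  intro d hd X Col K m hm t c ht htn hc hcn a ha I _ _ f hf S hS
  obtain ⟨u0, u, h1, h2⟩ := h d X Col K m hm t c ht htn hc hcn a ha I f hf S hS
  refine ⟨u0, u, h1, fun i => (h2 i).trans ?_⟩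
  apply mul_le_mul_of_nonneg_right _ (mul_nonneg (iso_kap_nonneg hm hc _ _) (pow_nonneg ht _))
  apply mul_le_mul_of_nonneg_right _ ht
  exact Finset.single_le_sum (f := C) (fun d _ => hC d) (Finset.mem_range.2 (by omega))

theorem kap_nonneg {Col : Type} {K : ℕ} {m : ℕ → ℝ} (hm : Exps m) {c : ℝ} (hc : 0 ≤ c) (d : ℕ)
    (τ : Shape Col K d) : 0 ≤ kap m c d τ := by
  exact iso_kap_nonneg hm hc d τ

end Crest.Agent.R141
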