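import Crest.Agent.R141.CoreB
import Crest.Agent.R141.Iso

/-! Row 141, module F5c: the branch probes. -/

set_option autoImplicit false

namespace Crest.Agent.R141

open Finset Sys

/-- The branch probe. -/
noncomputable def brItem {X I Col : Type} {K : ℕ} (t c a : ℝ) (obs : I → Col → X → ℝ) (d : ℕ)
    (τ : Shape Col K d) (z : Bool) (i : I) : Sys (X → ℝ) :=
  mix d a (isoItem t c (obs i) d Unit (fun _ => τ) (fun _ => sgn z))

theorem item_iso_half {X I Col : Type} {K n : ℕ} {t c : ℝ} (ht : 0 ≤ t) (htn : n * t ≤ 1 / 2)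
    (hc : 0 ≤ c) (hcn : n * c ≤ 1 / 2) {obs : I → Col → X → ℝ} (ho : ∀ i k x, |obs i k x| ≤ 1)
    {d : ℕ} {τ : Shape Col K d} (hτ : Shape.size d τ ≤ n) (z : Bool) (i : I) :
    Item (d + 1) (1 / 2) (3 / 2) (isoItem t c (obs i) d Unit (fun _ => τ) (fun _ => sgn z)) :=
  (item_isoItem ht htn hc hcn (ho i) d Unit (fun _ => τ) (by simpa using hτ) (fun _ => sgn z)
    (fun _ => (abs_sgn z).le)).mono (by linarith) (by linarith)

theorem item_brItem {X I Col : Type} {K n : ℕ} {t c a : ℝ} (ht : 0 ≤ t) (htn : n * t ≤ 1 / 2)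
    (hc : 0 ≤ c) (hcn : n * c ≤ 1 / 2) (ha : 0 < a) (ha1 : a < 1) {obs : I → Col → X → ℝ}
    (ho : ∀ i k x, |obs i k x| ≤ 1) {d : ℕ} {τ : Shape Col K d} (hτ : Shape.size d τ ≤ n)
    (z : Bool) (i : I) : Item (d + 1) (1 / 2) (3 / 2) (brItem t c a obs d τ z i) :=
  (item_iso_half ht htn hc hcn ho hτ z i).mix (by norm_num) (by norm_num) ha ha1

theorem abs_one_sub_rpow_le {x μ : ℝ} (h1 : 1 / 2 ≤ x) (h2 : x ≤ 3 / 2) (hμ : 0 ≤ μ) (hμ1 : μ ≤ 1) :
    |1 - x ^ μ| ≤ 1 / 2 := by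
  have hx : 0 < x := by linarith
  have a1 : x ^ μ ≤ (3 / 2 : ℝ) ^ μ := Real.rpow_le_rpow hx.le h2 hμ
  have a2 : (3 / 2 : ℝ) ^ μ ≤ (3 / 2 : ℝ) ^ (1 : ℝ) :=
    Real.rpow_le_rpow_of_exponent_le (by norm_num) hμ1
  have a3 : (1 / 2 : ℝ) ^ μ ≤ x ^ μ := Real.rpow_le_rpow (by norm_num) h1 hμ
  have a4 : (1 / 2 : ℝ) ^ (1 : ℝ) ≤ (1 / 2 : ℝ) ^ μ :=
    Real.rpow_le_rpow_of_exponent_ge (by norm_num) (by norm_num) hμ1
  rw [Real.rpow_one] at a2 a4
  rw [abs_le]
  constructor <;> linarith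

/-- The tilt of the branch probe. -/
theorem br_tilt (n D : ℕ) : ∃ C : ℝ, 0 ≤ C ∧ ∀ (d : ℕ), d ≤ D → ∀ (X I Col : Type) (K : ℕ)
    (m : ℕ → ℝ), Exps m → ∀ (t c a : ℝ), 0 ≤ t → n * t ≤ 1 / 2 → 0 ≤ c → n * c ≤ 1 / 2 →
    0 < a → a < 1 → ∀ (obs : I → Col → X → ℝ), (∀ i k x, |obs i k x| ≤ 1) →
    ∀ (τ : Shape Col K d), Shape.size d τ ≤ n → ∀ (i : I) (Q : Sys X), Prob (d + 1) Q →
      ∃ w : Bool → ℝ, (∀ z, TA m (d + 1) Q (brItem t c a obs d τ z i) ^ m d = 1 - a * w z) ∧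
        (∀ z, |w z| ≤ 1 / 2) ∧
        |w true - w false - 2 * (kap m c d τ * t ^ Shape.size d τ) * Ybar obs d τ i Q| ≤
          2 * (C * t * (kap m c d τ * t ^ Shape.size d τ)) := by
  obtain ⟨C, hC0, hC⟩ := iso_expand n D
  refine ⟨C, hC0, fun d hd X I Col K m hm t c a ht htn hc hcn ha ha1 obs ho τ hτ i Q hQ => ?_⟩
  obtain ⟨u0, u, h1, h2⟩ := hC d hd X Col K m hm t c ht htn hc hcn (obs i) (ho i) Unit (fun _ => τ)
    (by simpa using hτ) Q hQ
  have hI := fun z => item_iso_half ht htn hc hcn ho hτ z i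
  refine ⟨fun z => 1 - TA m (d + 1) Q (isoItem t c (obs i) d Unit (fun _ => τ) (fun _ => sgn z)) ^ m d,
    fun z => ?_, fun z => ?_, ?_⟩
  · exact TA_mix_rpow hm.pos (by norm_num) (by norm_num) (by norm_num) ha ha1 hQ (hI z)
  · have := TA_bounds hm.pos (by norm_num) hQ (hI z)
    exact abs_one_sub_rpow_le this.1 this.2 (hm.pos d).le (hm.le_one d)
  · have e1 := h1 (fun _ => true)
    have e2 := h1 (fun _ => false)
    have h3 := h2 ()
    simp only [univ_unique, sum_singleton] at e1 e2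
    simp only [e1, e2]
    have : u0 + sgn true * u default - (u0 + sgn false * u default) -
        2 * (kap m c d τ * t ^ Shape.size d τ) * Ybar obs d τ i Q =
        2 * (u () - kap m c d τ * t ^ Shape.size d τ * Exp 1 Q (Mom (obs i) d τ)) := by
      simp only [sgn, Ybar]
      simp
      ring
    rw [this, abs_mul, abs_two]
    linarith

theorem abs_Ybar_le {X I Col : Type} {K : ℕ} {obs : I → Col → X → ℝ}
    (ho : ∀ i k x, |obs i k x| ≤ 1) {d : ℕ} (τ : Shape Col K d) (i : I) {Q : Sys X}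
    (hQ : Prob (d + 1) Q) : |Ybar obs d τ i Q| ≤ 1 :=
  abs_Exp_le_of_le (Prob.mono (b := d) hQ)
    ((Prob.allAt (b := d) hQ).imp (fun _ hZ => abs_Mom_le_one (ho i) τ hZ))

theorem inv_Ybar {X I Col : Type} {K : ℕ} (obs : I → Col → X → ℝ) {d : ℕ} (τ : Shape Col K d)
    (i : I) : Inv (d + 1) (Ybar obs d τ i) := (inv_Mom (obs i) d τ).exp 1

theorem br_cov (n D : ℕ) : ∃ C : ℝ, 0 ≤ C ∧ ∀ (X I Col : Type) [Fintype I] [Nonempty I] (K : ℕ)
    (m : ℕ → ℝ), Exps m → ∀ (R : Sys X), Prob D R → ∀ (obs : I → Col → X → ℝ),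
    (∀ i k x, |obs i k x| ≤ 1) → ∀ (t c a η0 ξ δ κ : ℝ), 0 ≤ t → n * t ≤ 1 / 2 → 0 ≤ c →
      n * c ≤ 1 / 2 → 0 < a → a < 1 → a ≤ η0 → (∀ d, η0 ≤ m d) → 0 < κ →
      (∀ d, d + 2 ≤ D → Odd d → 1 - m (d + 1) / m d ≤ δ) →
      ∀ (d : ℕ) (τ : Shape Col K d), Odd d → Shape.size d τ ≤ n →
      κ ≤ kap m c d τ * t ^ Shape.size d τ →
      (∀ z, Probed m D R (d + 1) (brItem t c a obs d τ z) ξ) →
      ∀ j, Even j → d + 1 + j + 1 ≤ D →
        (η0 * Exp (D - (d + 1) - j) R (fun S => avg (fun i => avg (fun i' =>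
          |covF j S (Ybar obs d τ i) (Ybar obs d τ i')|)))) ^ 2 ≤
          C * (Real.sqrt (8 * ξ + 8 * δ) / (a * κ) + a / (η0 ^ 2 * κ) + t + a / κ) := by
  obtain ⟨C, hC0, hC⟩ := stem D
  obtain ⟨C', hC0', hC'⟩ := br_tilt n D
  refine ⟨C * (1 + C'), by positivity, fun X I Col _ _ K m hm R hR obs ho t c a η0 ξ δ κ ht htn hc
    hcn ha ha1 haη hηm hκ hthin d τ hd hτ hκτ hP j hj hjD => ?_⟩
  have hη0 : 0 < η0 := ha.trans_le haη
  set κ' := kap m c d τ * t ^ Shape.size d τ with hκ'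
  have hκ'0 : 0 < κ' := hκ.trans_le hκτ
  have hmd := hm.pos d
  have hmd1 := hm.le_one d
  obtain ⟨e, he⟩ : ∃ e, D - (d + 1) - j = e + 1 := ⟨D - (d + 1) - j - 1, by omega⟩
  have hR' : Prob (d + 1 + j + (e + 1)) R := by
    rwa [show d + 1 + j + (e + 1) = D by omega]
  have hitem := fun z i => item_brItem ht htn hc hcn ha ha1 ho hτ z i
  have hlog : ∀ z i Q, Prob (d + 1) Q → ∀ w : ℝ,
      TA m (d + 1) Q (brItem t c a obs d τ z i) ^ m d = 1 - a * w →
      Real.log (TA m (d + 1) Q (brItem t c a obs d τ z i)) = Real.log (1 - a * w) / m d := by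
    intro z i Q hQ w hw
    rw [← hw, Real.log_rpow (TA_pos hm.pos (by norm_num) hQ (hitem z i))]
    field_simp
  have haw : ∀ w : ℝ, |w| ≤ 1 / 2 → |a * w| ≤ a / 2 := fun w hw => by
    rw [abs_mul, abs_of_pos ha]; nlinarith
  have key := hC (d + 1) j (e + 1) (by omega) X I m hm R hR' (Ybar obs d τ) (brItem t c a obs d τ)
    (a * κ' / m d) (a / η0) (C' * t + a / κ) (8 * ξ + 8 * δ) η0 (by positivity)
    ((div_le_one hη0).2 haη) (by positivity) hη0.le (hηm _)
    (fun i Q hQ => abs_Ybar_le ho τ i hQ) hitem ?_ ?_ ?_ ?_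
  · rw [he]
    refine key.trans ?_
    rw [mul_assoc]
    refine mul_le_mul_of_nonneg_left ?_ hC0
    have hγ : a * κ ≤ a * κ' / m d := by
      rw [le_div_iff₀ hmd]
      have : a * κ * m d ≤ a * κ := mul_le_of_le_one_right (by positivity) hmd1
      nlinarith
    have b1 : Real.sqrt (8 * ξ + 8 * δ) / (a * κ' / m d) ≤ Real.sqrt (8 * ξ + 8 * δ) / (a * κ) :=
      div_le_div_of_nonneg_left (Real.sqrt_nonneg _) (by positivity) hγ
    have b2 : (a / η0) ^ 2 / (a * κ' / m d) ≤ a / (η0 ^ 2 * κ) := by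
      refine (div_le_div_of_nonneg_left (sq_nonneg _) (by positivity) hγ).trans (le_of_eq ?_)
      field_simp
    have b3 : 0 ≤ Real.sqrt (8 * ξ + 8 * δ) / (a * κ) := by positivity
    have b4 : 0 ≤ a / (η0 ^ 2 * κ) := by positivity
    have b5 : 0 ≤ a / κ := by positivity
    nlinarith [mul_nonneg hC0' b3, mul_nonneg hC0' b4, mul_nonneg hC0' b5]
  · intro z i Q hQ
    obtain ⟨w, h1, h2, -⟩ := hC' d (by omega) X I Col K m hm t c a ht htn hc hcn ha ha1 obs ho τ hτ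
      i Q hQ
    rw [hlog z i Q hQ _ (h1 z), abs_div, abs_of_pos hmd]
    have h3 := haw _ (h2 z)
    have h4 := abs_log_one_sub_le (h3.trans (by linarith))
    calc |Real.log (1 - a * w z)| / m d ≤ a / m d := by
          gcongr; linarith
      _ ≤ a / η0 := div_le_div_of_nonneg_left ha.le hη0 (hηm d)
  · intro i Q hQ
    obtain ⟨w, h1, h2, h3⟩ := hC' d (by omega) X I Col K m hm t c a ht htn hc hcn ha ha1 obs ho τ hτ
      i Q hQ
    rw [hlog false i Q hQ _ (h1 false), hlog true i Q hQ _ (h1 true)]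
    have h4 := haw _ (h2 false)
    have h4' := haw _ (h2 true)
    have h5 := abs_log_one_sub_add_le (h4.trans (by linarith))
    have h5' := abs_log_one_sub_add_le (h4'.trans (by linarith))
    have h6 : (a * w false) ^ 2 ≤ (a / 2) ^ 2 := by
      rw [← sq_abs]; exact pow_le_pow_left₀ (abs_nonneg _) h4 2
    have h6' : (a * w true) ^ 2 ≤ (a / 2) ^ 2 := by
      rw [← sq_abs]; exact pow_le_pow_left₀ (abs_nonneg _) h4' 2
    have e1 : Real.log (1 - a * w false) / m d - Real.log (1 - a * w true) / m d -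
        2 * (a * κ' / m d) * Ybar obs d τ i Q =
        ((Real.log (1 - a * w false) + a * w false) - (Real.log (1 - a * w true) + a * w true) +
          a * (w true - w false - 2 * κ' * Ybar obs d τ i Q)) / m d := by
      field_simp
      ring
    have e2 : 2 * (a * κ' / m d) * (C' * t + a / κ) = (a * (2 * (C' * t * κ')) + 2 * a ^ 2 * (κ' / κ)) / m d := by
      field_simp
    rw [e1, e2, abs_div, abs_of_pos hmd]
    refine div_le_div_of_nonneg_right ?_ hmd.le
    have h7 : |a * (w true - w false - 2 * κ' * Ybar obs d τ i Q)| ≤ a * (2 * (C' * t * κ')) := by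
      rw [abs_mul, abs_of_pos ha]
      exact mul_le_mul_of_nonneg_left h3 ha.le
    have h8 : 1 ≤ κ' / κ := (one_le_div hκ).2 hκτ
    have h9 : 2 * a ^ 2 ≤ 2 * a ^ 2 * (κ' / κ) := le_mul_of_one_le_right (by positivity) h8
    rw [abs_le] at h5 h5' h7 ⊢
    constructor <;> nlinarith [h5.1, h5.2, h5'.1, h5'.2, h7.1, h7.2, sq_nonneg a]
  · intro z
    have hodd : Odd (d + j) := hd.add_even hj
    have := loc_of_probed (I' := I) hm hR (hitem z) (hP z) (jj := j) (l := d + j) (e := e)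
      (by omega) (by omega) (F := fun i' Q => Exp j Q (Mom (obs i') d τ))
      (fun i' => (inv_Mom (obs i') d τ).exp j)
      (fun i' Q hQ => abs_Exp_le_of_le (Prob.mono (b := d) hQ)
        ((Prob.allAt (b := d) hQ).imp (fun _ hZ => abs_Mom_le_one (ho i') τ hZ)))
      (hthin (d + j) (by omega) hodd)
    have e1 : ∀ (S : Sys X) i', Exp j S (Ybar obs d τ i') =
        Exp 1 S (fun Q => Exp j Q (Mom (obs i') d τ)) := by
      intro S i'
      rw [← Exp_comp j 1 S, Nat.add_comm j 1, Exp_comp 1 j S]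
      rfl
    simp only [e1]
    rw [show d + 1 + j = d + j + 1 by omega]
    exact this
  · intro z
    have := loc_of_probed (I' := I) hm hR (hitem z) (hP z) (jj := 0) (l := d) (e := j + e)
      (by omega) (by omega) (F := fun i' => Mom (obs i') d τ)
      (fun i' => inv_Mom (obs i') d τ) (fun i' Q hQ => abs_Mom_le_one (ho i') τ hQ)
      (hthin d (by omega) hd)
    exact this

theorem br_var (n D : ℕ) : ∃ C : ℝ, 0 ≤ C ∧ ∀ (X I Col : Type) [Fintype I] [Nonempty I] (K : ℕ)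
    (m : ℕ → ℝ), Exps m → ∀ (R : Sys X), Prob D R → ∀ (obs : I → Col → X → ℝ),
    (∀ i k x, |obs i k x| ≤ 1) → ∀ (t c a ξ κ : ℝ), 0 ≤ t → n * t ≤ 1 / 2 → 0 ≤ c →
      n * c ≤ 1 / 2 → 0 < a → a < 1 → 0 ≤ ξ → 0 < κ →
      ∀ (d : ℕ) (τ : Shape Col K d), Shape.size d τ ≤ n → d + 1 ≤ D →
      κ ≤ kap m c d τ * t ^ Shape.size d τ →
      (∀ z, Probed m D R (d + 1) (brItem t c a obs d τ z) ξ) →
        avg (fun i => avg (fun i' => covF (D - (d + 1)) R (Ybar obs d τ i) (Ybar obs d τ i'))) ≤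
          ξ / (a * κ) + C * t := by
  obtain ⟨C', hC0', hC'⟩ := br_tilt n D
  refine ⟨2 * C', by positivity, fun X I Col _ _ K m hm R hR obs ho t c a ξ κ ht htn hc
    hcn ha ha1 hξ hκ d τ hτ hdD hκτ hP => ?_⟩
  set κ' := kap m c d τ * t ^ Shape.size d τ with hκ'
  have hκ'0 : 0 < κ' := hκ.trans_le hκτ
  obtain ⟨e, rfl⟩ : ∃ e, D = d + 1 + e := ⟨D - (d + 1), by omega⟩
  rw [Nat.add_sub_cancel_left]
  have hitem := fun z i => item_brItem ht htn hc hcn ha ha1 ho hτ z i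
  simp only [covF]
  rw [avg_avg_cov e R (Ybar obs d τ)]
  set f : Sys X → ℝ := fun Q => avg (fun i => Ybar obs d τ i Q) with hf
  have hf1 : ∀ Q, Prob (d + 1) Q → |f Q| ≤ 1 := fun Q hQ =>
    (abs_avg_le _).trans ((avg_mono (fun i => abs_Ybar_le ho τ i hQ)).trans (avg_const 1).le)
  have hfi : Inv (d + 1) f := fun S S' h1 h2 h3 => by
    simp only [hf]
    congr 1
    funext i
    exact inv_Ybar obs τ i S S' h1 h2 h3
  set G : Bool → Sys X → ℝ := fun z S =>
    avg (fun i => TA m (d + 1) S (brItem t c a obs d τ z i) ^ m d) with hG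
  have key : ∀ z, |Exp e R (fun S => f S * G z S) - Exp e R f * Exp e R (G z)| ≤ ξ := fun z =>
    cov_menuB hm d e hR (hitem z) hfi hf1 ((hP z).2 0 d e rfl rfl)
  set E : Sys X → ℝ := fun S => G false S - G true S - 2 * a * κ' * f S with hE
  have hE1 : ∀ Q, Prob (d + 1) Q → |E Q| ≤ a * (2 * (C' * t * κ')) := by
    intro Q hQ
    have : E Q = avg (fun i => TA m (d + 1) Q (brItem t c a obs d τ false i) ^ m d -
        TA m (d + 1) Q (brItem t c a obs d τ true i) ^ m d - 2 * a * κ' * Ybar obs d τ i Q) := by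
      rw [avg_sub, avg_sub, avg_const_mul]
    rw [this]
    refine (abs_avg_le _).trans ((avg_mono (fun i => ?_)).trans (avg_const _).le)
    obtain ⟨w, h1, -, h3⟩ := hC' d (by omega) X I Col K m hm t c a ht htn hc hcn ha ha1 obs ho τ hτ
      i Q hQ
    rw [h1 false, h1 true]
    have : 1 - a * w false - (1 - a * w true) - 2 * a * κ' * Ybar obs d τ i Q =
        a * (w true - w false - 2 * κ' * Ybar obs d τ i Q) := by ring
    rw [this, abs_mul, abs_of_pos ha]
    exact mul_le_mul_of_nonneg_left h3 ha.le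
  have hRe : Prob e R := Prob.mono (b := d + 1) hR
  have hall : AllAt e R (Prob (d + 1)) := Prob.allAt (b := d + 1) hR
  have b1 : |Exp e R (fun S => f S * E S)| ≤ a * (2 * (C' * t * κ')) :=
    abs_Exp_le_of_le hRe (hall.imp (fun Q hQ => by
      rw [abs_mul]
      exact (mul_le_of_le_one_left (abs_nonneg _) (hf1 Q hQ)).trans (hE1 Q hQ)))
  have b2 : |Exp e R f * Exp e R E| ≤ a * (2 * (C' * t * κ')) := by
    rw [abs_mul]
    exact (mul_le_of_le_one_left (abs_nonneg _) (abs_Exp_le_of_le hRe (hall.imp hf1))).trans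
      (abs_Exp_le_of_le hRe (hall.imp hE1))
  have e1 : Exp e R (fun S => f S * E S) = Exp e R (fun S => f S * G false S) -
      Exp e R (fun S => f S * G true S) - 2 * a * κ' * Exp e R (fun S => f S * f S) := by
    rw [← Exp_const_mul, ← Exp_sub, ← Exp_sub]
    congr 1
    funext S
    simp only [hE]
    ring
  have e2 : Exp e R E = Exp e R (G false) - Exp e R (G true) - 2 * a * κ' * Exp e R f := by
    rw [← Exp_const_mul, ← Exp_sub, ← Exp_sub]
  rw [e1] at b1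
  rw [e2] at b2
  have k1 := abs_le.1 (key false)
  have k2 := abs_le.1 (key true)
  have b1' := abs_le.1 b1
  have b2' := abs_le.1 b2
  have main : a * κ' * (Exp e R (fun S => f S * f S) - Exp e R f * Exp e R f) ≤
      ξ + a * κ' * (2 * C' * t) := by
    nlinarith [k1.1, k1.2, k2.1, k2.2, b1'.1, b1'.2, b2'.1, b2'.2]
  have h2 : Exp e R (fun S => f S * f S) - Exp e R f * Exp e R f ≤ ξ / (a * κ') + 2 * C' * t := by
    have : ξ / (a * κ') + 2 * C' * t = (ξ + a * κ' * (2 * C' * t)) / (a * κ') := by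
      field_simp
    rw [this, le_div_iff₀ (by positivity)]
    linarith
  have h3 : ξ / (a * κ') ≤ ξ / (a * κ) :=
    div_le_div_of_nonneg_left hξ (by positivity) (mul_le_mul_of_nonneg_left hκτ ha.le)
  exact h2.trans (by linarith)

/-- Lower bound on the leading coefficient for shapes that only branch at thick levels. -/
theorem kap_lower {Col : Type} {K : ℕ} {m : ℕ → ℝ} (hm : Exps m) {c η0 η1 : ℝ} (hc : 0 ≤ c)
    (hc1 : c ≤ 1) (hη0 : 0 ≤ η0) (hηm : ∀ d, η0 ≤ m d) (hη1 : 0 ≤ η1) (hη11 : η1 ≤ 1) {D : ℕ}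
    (hthick : ∀ d, d < D → Even d → η1 ≤ 1 - m (d + 1) / m d) :
    ∀ (d : ℕ), d ≤ D → ∀ τ : Shape Col K d, Good d τ →
      (c * η0 * η1) ^ (d * Shape.size d τ) ≤ kap m c d τ := by
  have hη01 : η0 ≤ 1 := (hηm 0).trans (hm.le_one 0)
  have hβ0 : 0 ≤ c * η0 * η1 := by positivity
  have hβ1 : c * η0 * η1 ≤ 1 := mul_le_one₀ (mul_le_one₀ hc1 hη0 hη01) hη1 hη11
  intro d
  induction d with
  | zero => intro _ τ _; simp [kap]
  | succ d ih =>
    intro hd τ hτ
    have hρ : η0 ≤ m (d + 1) / m d := by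
      rw [le_div_iff₀ (hm.pos d)]
      exact (mul_le_of_le_one_right hη0 (hm.le_one d)).trans (hηm _)
    have hρ1 := hm.ratio_le_one d
    have h1 : η1 ≤ ∏ j ∈ range τ.1, ((j : ℝ) + 1 - m (d + 1) / m d) := by
      rcases Nat.eq_zero_or_pos (τ.1 : ℕ) with h0 | h0
      · rw [h0]; simpa using hη11
      · have hev : Even d := by
          by_contra hne
          have : Even (d + 1) := by simpa [Nat.even_add_one] using hne
          have := hτ.1 this
          omega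
        obtain ⟨k, hk⟩ : ∃ k, (τ.1 : ℕ) = k + 1 := ⟨τ.1 - 1, by omega⟩
        rw [hk, prod_range_succ']
        have h2 : (1 : ℝ) ≤ ∏ j ∈ range k, (((j + 1 : ℕ) : ℝ) + 1 - m (d + 1) / m d) := by
          refine Finset.one_le_prod (fun j _ => ?_)
          push_cast
          have : (0 : ℝ) ≤ j := Nat.cast_nonneg j
          linarith
        have h3 := hthick d (by omega) hev
        have h4 : ((0 : ℕ) : ℝ) + 1 - m (d + 1) / m d = 1 - m (d + 1) / m d := by simp
        rw [h4]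
        nlinarith
    have h2 : c * η0 * η1 ≤ c * ((τ.1 + 1 : ℕ).factorial : ℝ) * sib (m (d + 1) / m d) τ.1 := by
      rw [mul_assoc c (_ : ℝ) (sib _ _), factorial_mul_sib, mul_assoc]
      exact mul_le_mul_of_nonneg_left (mul_le_mul hρ h1 hη1 (hη0.trans hρ)) hc
    have h3 : (c * η0 * η1) ^ (d * Shape.size (d + 1) τ) ≤ ∏ k, kap m c d (τ.2 k) := by
      have : d * Shape.size (d + 1) τ = ∑ k, d * Shape.size d (τ.2 k) := by
        rw [← mul_sum]; rfl
      rw [this, ← prod_pow_eq_pow_sum]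
      exact prod_le_prod (fun _ _ => by positivity) (fun k _ => ih (by omega) _ (hτ.2 k))
    have h4 : (c * η0 * η1) ^ ((d + 1) * Shape.size (d + 1) τ) ≤
        (c * η0 * η1) * (c * η0 * η1) ^ (d * Shape.size (d + 1) τ) := by
      rw [← pow_succ']
      refine pow_le_pow_of_le_one hβ0 hβ1 ?_
      have := Shape.one_le_size (d + 1) τ
      nlinarith
    refine h4.trans ?_
    exact mul_le_mul h2 h3 (by positivity) (hβ0.trans h2)

end Crest.Agent.R141
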