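import Crest.Agent.R141.CoreC

/-! Row 141, module F5d: the probes give the hypotheses `Tiny`. -/

set_option autoImplicit false

namespace Crest.Agent.R141

open Finset Sys Filter Topology

theorem ev_mul_le (A : ℝ) {B : ℝ} (hB : 0 < B) : ∀ᶠ x in 𝓝[>] (0 : ℝ), A * x ≤ B := by
  have h : Tendsto (fun x : ℝ => A * x) (𝓝 0) (𝓝 (A * 0)) :=
    (continuous_const.mul continuous_id).tendsto 0
  rw [mul_zero] at h
  exact (h.mono_left nhdsWithin_le_nhds).eventually (eventually_le_nhds hB)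

theorem ev_mul_sqrt_le (A A' : ℝ) {B : ℝ} (hB : 0 < B) :
    ∀ᶠ x in 𝓝[>] (0 : ℝ), A * Real.sqrt (A' * x) ≤ B := by
  have h : Tendsto (fun x : ℝ => A * Real.sqrt (A' * x)) (𝓝 0) (𝓝 (A * Real.sqrt (A' * 0))) :=
    (continuous_const.mul ((continuous_const.mul continuous_id).sqrt)).tendsto 0
  rw [mul_zero, Real.sqrt_zero, mul_zero] at h
  exact (h.mono_left nhdsWithin_le_nhds).eventually (eventually_le_nhds hB)

theorem ev_pos : ∀ᶠ x in 𝓝[>] (0 : ℝ), 0 < x := self_mem_nhdsWithin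

theorem le_of_mul_sq_le {η P y : ℝ} (hη : 0 < η) (hy : 0 ≤ y) (h : (η * P) ^ 2 ≤ (η * y) ^ 2) :
    P ≤ y :=
  le_of_mul_le_mul_left ((le_abs_self _).trans (abs_le_of_sq_le_sq h (by positivity))) hη

theorem tiny_of_probed (D n : ℕ) (hD : 1 ≤ D) {η0 η1 tiny : ℝ} (hη0 : 0 < η0) (hη1 : 0 < η1)
    (hη11 : η1 ≤ 1) (htiny : 0 < tiny) :
    ∃ t c a x0 : ℝ, 0 < t ∧ n * t ≤ 1 / 2 ∧ 0 < c ∧ n * c ≤ 1 / 2 ∧ 0 < a ∧ a ≤ 1 / 2 ∧ 0 < x0 ∧
      ∀ (X I Col : Type) [Fintype I] [Nonempty I] (K : ℕ) (m : ℕ → ℝ), Exps m →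
        (∀ d, η0 ≤ m d) → ∀ (ξ δ : ℝ), 0 ≤ ξ → ξ ≤ x0 → 0 ≤ δ → δ ≤ x0 →
        (∀ d, d + 2 ≤ D → Even d → η1 ≤ 1 - m (d + 1) / m d) →
        (∀ d, d + 2 ≤ D → Odd d → 1 - m (d + 1) / m d ≤ δ) →
        ∀ (R : Sys X), Prob D R → ∀ (obs : I → Col → X → ℝ), (∀ i k x, |obs i k x| ≤ 1) →
        (∀ k z, Probed m D R 0 (leafItem a (fun i => obs i k) z) ξ) →
        (∀ d, d < D → ∀ τ : Shape Col K d, Shape.size d τ ≤ n → ∀ z,
          Probed m D R (d + 1) (brItem t c a obs d τ z) ξ) →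
        Tiny obs K D n R tiny := by
  obtain ⟨C1, hC1, H1⟩ := leaf_cov D
  obtain ⟨C3, hC3, H3⟩ := br_cov n D
  obtain ⟨C4, hC4, H4⟩ := br_var n D
  set c : ℝ := 1 / (2 * (n + 1)) with hc
  have hn0 : (0 : ℝ) ≤ n := Nat.cast_nonneg n
  have hc0 : 0 < c := by positivity
  have hcn : n * c ≤ 1 / 2 := by
    rw [hc, mul_one_div, div_le_div_iff₀ (by positivity) (by positivity)]; linarith
  have hc1 : c ≤ 1 := by
    rw [hc, div_le_one (by positivity)]; linarith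
  have hy : 0 < (η0 * tiny) ^ 2 := by positivity
  obtain ⟨t, ht0, htn, ht1, ht3, ht4⟩ := (ev_pos.and ((ev_mul_le (n : ℝ) (B := 1 / 2) (by norm_num)).and
    ((ev_mul_le 1 (B := 1) (by norm_num)).and ((ev_mul_le C3 (B := (η0 * tiny) ^ 2 / 4)
      (by positivity)).and (ev_mul_le C4 (B := tiny / 2) (by positivity)))))).exists
  rw [one_mul] at ht1
  set κ : ℝ := (c * η0 * η1) ^ (D * n) * t ^ n with hκ
  have hκ0 : 0 < κ := by positivity
  obtain ⟨a, ha0, ha1, ha2, ha3, ha4⟩ := (ev_pos.and ((ev_mul_le 1 (B := 1 / 2) (by norm_num)).and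
    ((ev_mul_le 1 hη0).and ((ev_mul_le (C1 * 6) (B := (η0 * tiny) ^ 2 / 2) (by positivity)).and
      (ev_mul_le (C3 * (1 / (η0 ^ 2 * κ) + 1 / κ)) (B := (η0 * tiny) ^ 2 / 4)
        (by positivity)))))).exists
  rw [one_mul] at ha1 ha2
  obtain ⟨x0, hx0, hx1, hx2, hx3, hx4⟩ := (ev_pos.and
    ((ev_mul_sqrt_le (C1 / a) 16 (B := (η0 * tiny) ^ 2 / 2) (by positivity)).and
    ((ev_mul_le (1 / a) htiny).and
    ((ev_mul_sqrt_le (C3 / (a * κ)) 16 (B := (η0 * tiny) ^ 2 / 2) (by positivity)).and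
      (ev_mul_le (1 / (a * κ)) (B := tiny / 2) (by positivity)))))).exists
  refine ⟨t, c, a, x0, ht0, htn, hc0, hcn, ha0, ha1, hx0, fun X I Col _ _ K m hm hηm ξ δ hξ hξ1 hδ hδ1
    hthick hthin R hR obs ho hP0 hP1 => ?_⟩
  have hη01 : η0 ≤ 1 := (hηm 0).trans (hm.le_one 0)
  have hsq : Real.sqrt (8 * ξ + 8 * δ) ≤ Real.sqrt (16 * x0) := Real.sqrt_le_sqrt (by linarith)
  have hκle : ∀ d, d + 1 ≤ D → ∀ τ : Shape Col K d, Good d τ → Shape.size d τ ≤ n →
      κ ≤ kap m c d τ * t ^ Shape.size d τ := by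
    intro d hd τ hτ hn
    have h1 := kap_lower hm hc0.le hc1 hη0.le hηm hη1.le hη11 (D := D - 1)
      (fun d' hd' he => hthick d' (by omega) he) d (by omega) τ hτ
    have hβ1 : c * η0 * η1 ≤ 1 := mul_le_one₀ (mul_le_one₀ hc1 hη0.le hη01) hη1.le hη11
    have h2 : (c * η0 * η1) ^ (D * n) ≤ (c * η0 * η1) ^ (d * Shape.size d τ) :=
      pow_le_pow_of_le_one (by positivity) hβ1 (Nat.mul_le_mul (by omega) hn)
    have h3 : t ^ n ≤ t ^ Shape.size d τ := pow_le_pow_of_le_one ht0.le ht1 hn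
    exact mul_le_mul (h2.trans h1) h3 (by positivity) (kap_nonneg hm hc0.le d τ)
  refine ⟨fun k j hj hjD => ?_, fun k => ?_, fun d τ j hd hg hn hj hjD => ?_,
    fun d τ hd hg hn hdD => ?_⟩
  · have key := H1 X I m hm R hR (fun i => obs i k) (fun i x => ho i k x) a η0 ξ δ ha0 ha1 hη0.le hηm
      hξ hδ hthin (hP0 k) j hj hjD
    refine le_of_mul_sq_le hη0 htiny.le (le_trans key ?_)
    have : C1 * (Real.sqrt (8 * ξ + 8 * δ) / a) ≤ C1 / a * Real.sqrt (16 * x0) := by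
      rw [div_mul_eq_mul_div, mul_div_assoc]
      gcongr
    nlinarith
  · have key := leaf_var hm hD hR (g := fun i => obs i k) (fun i x => ho i k x) ha0 (hP0 k true)
    refine le_trans key (le_trans ?_ hx2)
    rw [div_mul_eq_mul_div, one_mul]
    gcongr
  · have key := H3 X I Col K m hm R hR obs ho t c a η0 ξ δ κ ht0.le htn hc0.le hcn ha0 (by linarith)
      ha2 hηm hκ0 hthin d τ hd hn (hκle d (by omega) τ hg hn) (hP1 d (by omega) τ hn) j hj hjD
    refine le_of_mul_sq_le hη0 htiny.le (le_trans key ?_)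
    have h1 : C3 * (Real.sqrt (8 * ξ + 8 * δ) / (a * κ)) ≤ C3 / (a * κ) * Real.sqrt (16 * x0) := by
      rw [div_mul_eq_mul_div, mul_div_assoc]
      gcongr
    have h2 : C3 * (a / (η0 ^ 2 * κ)) + C3 * (a / κ) = C3 * (1 / (η0 ^ 2 * κ) + 1 / κ) * a := by
      ring
    nlinarith
  · have key := H4 X I Col K m hm R hR obs ho t c a ξ κ ht0.le htn hc0.le hcn ha0 (by linarith) hξ hκ0
      d τ hn (by omega) (hκle d (by omega) τ hg hn) (hP1 d (by omega) τ hn)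
    have h1 : ξ / (a * κ) ≤ 1 / (a * κ) * x0 := by
      rw [div_mul_eq_mul_div, one_mul]
      gcongr
    linarith

/-- The exponents: alternately thick and thin gaps down to `η0`. -/
noncomputable def mexp (R : ℕ) (η δ : ℝ) (d : ℕ) : ℝ :=
  1 - (((min d (2 * R) + 1) / 2 : ℕ) : ℝ) * η - ((min d (2 * R) / 2 : ℕ) : ℝ) * δ

theorem mexp_even {R : ℕ} (η δ : ℝ) {d : ℕ} (hd : d < 2 * R) (he : Even d) :
    mexp R η δ (d + 1) = mexp R η δ d - η := by
  obtain ⟨k, rfl⟩ := he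
  simp only [mexp]
  rw [min_eq_left (by omega), min_eq_left (by omega),
    show (k + k + 1 + 1) / 2 = k + 1 by omega, show (k + k + 1) / 2 = k by omega,
    show (k + k) / 2 = k by omega]
  push_cast
  ring

theorem mexp_odd {R : ℕ} (η δ : ℝ) {d : ℕ} (hd : d < 2 * R) (he : Odd d) :
    mexp R η δ (d + 1) = mexp R η δ d - δ := by
  obtain ⟨k, rfl⟩ := he
  simp only [mexp]
  rw [min_eq_left (by omega), min_eq_left (by omega),
    show (2 * k + 1 + 1 + 1) / 2 = k + 1 by omega, show (2 * k + 1 + 1) / 2 = k + 1 by omega,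
    show (2 * k + 1) / 2 = k by omega]
  push_cast
  ring

theorem mexp_ge {R : ℕ} (η δ : ℝ) {d : ℕ} (hd : 2 * R ≤ d) :
    mexp R η δ d = 1 - R * (η + δ) := by
  simp only [mexp]
  rw [min_eq_right hd, show (2 * R + 1) / 2 = R by omega, show 2 * R / 2 = R by omega]
  ring

theorem mexp_anti (R : ℕ) {η δ : ℝ} (hη : 0 ≤ η) (hδ : 0 ≤ δ) : Antitone (mexp R η δ) := by
  refine antitone_nat_of_succ_le (fun d => ?_)
  rcases lt_or_ge d (2 * R) with h | h
  · rcases Nat.even_or_odd d with h' | h'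
    · rw [mexp_even _ _ h h']; linarith
    · rw [mexp_odd _ _ h h']; linarith
  · rw [mexp_ge _ _ h, mexp_ge _ _ (by omega)]

/-- The exponent sequences used by `core`. -/
theorem exists_exps {η0 : ℝ} (hη0 : 0 < η0) (hη0' : η0 ≤ 1 / 2) {R : ℕ} (hR : 0 < R) {δ : ℝ}
    (hδ : 0 < δ) (hδ' : 4 * R * δ ≤ 1) :
    ∃ m : ℕ → ℝ, Exps m ∧ (∀ d, d < 2 * R → m (d + 1) < m d) ∧ (∀ d, η0 ≤ m d) ∧
      (∀ d, 2 * R ≤ d → m d = η0) ∧
      (∀ d, d < 2 * R → Even d → 1 / (4 * R) ≤ 1 - m (d + 1) / m d) ∧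
      (∀ d, d < 2 * R → Odd d → 1 - m (d + 1) / m d ≤ δ / η0) ∧
      (∀ d, d < 2 * R → 1 - m (d + 1) / m d ≤ 1 / R / η0) ∧
      ∑ d ∈ range (2 * R), (1 - m (d + 1) / m d) ≤ 1 / η0 := by
  have hR0 : (0 : ℝ) < R := Nat.cast_pos.2 hR
  set η : ℝ := (1 - η0) / R - δ with hη
  have hsum : R * (η + δ) = 1 - η0 := by rw [hη]; field_simp; ring
  have hηlo : 1 / (4 * R) ≤ η := by
    rw [div_le_iff₀ (by positivity)]; nlinarith
  have hηpos : 0 < η := lt_of_lt_of_le (by positivity) hηlo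
  have hηhi : η ≤ 1 / R := by
    rw [le_div_iff₀ hR0]; nlinarith
  have hδhi : δ ≤ 1 / R := by
    rw [le_div_iff₀ hR0]; nlinarith
  have hend : ∀ d, 2 * R ≤ d → mexp R η δ d = η0 := fun d hd => by
    rw [mexp_ge _ _ hd, hsum]; ring
  have hanti := mexp_anti R hηpos.le hδ.le
  have hlo : ∀ d, η0 ≤ mexp R η δ d := fun d => by
    rw [← hend (max d (2 * R)) (le_max_right _ _)]
    exact hanti (le_max_left _ _)
  have hpos : ∀ d, 0 < mexp R η δ d := fun d => hη0.trans_le (hlo d)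
  have hE : Exps (mexp R η δ) := ⟨hpos, hanti, by simp [mexp]⟩
  have hx : ∀ d, 1 - mexp R η δ (d + 1) / mexp R η δ d =
      (mexp R η δ d - mexp R η δ (d + 1)) / mexp R η δ d := fun d => by
    have := (hpos d).ne'
    field_simp
  have hx' : ∀ d, 1 - mexp R η δ (d + 1) / mexp R η δ d ≤
      (mexp R η δ d - mexp R η δ (d + 1)) / η0 := fun d => by
    rw [hx]
    exact div_le_div_of_nonneg_left (sub_nonneg.2 (hanti (Nat.le_succ d))) hη0 (hlo d)
  refine ⟨mexp R η δ, hE, fun d hd => ?_, hlo, hend, fun d hd he => ?_, fun d hd he => ?_,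
    fun d hd => ?_, ?_⟩
  · rcases Nat.even_or_odd d with h' | h'
    · rw [mexp_even _ _ hd h']; linarith
    · rw [mexp_odd _ _ hd h']; linarith
  · rw [hx, mexp_even _ _ hd he, sub_sub_cancel]
    refine hηlo.trans ?_
    rw [le_div_iff₀ (hpos d)]
    exact mul_le_of_le_one_right hηpos.le (hE.le_one d)
  · refine (hx' d).trans (le_of_eq ?_)
    rw [mexp_odd _ _ hd he, sub_sub_cancel]
  · refine (hx' d).trans (div_le_div_of_nonneg_right ?_ hη0.le)
    rcases Nat.even_or_odd d with h' | h'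
    · rw [mexp_even _ _ hd h']; linarith
    · rw [mexp_odd _ _ hd h']; linarith
  · refine (sum_le_sum (fun d _ => hx' d)).trans ?_
    rw [← sum_div, sum_range_sub' (mexp R η δ), hE.zero, hend _ le_rfl]
    gcongr
    linarith

end Crest.Agent.R141
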