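import Mathlib
import Crest.Prelude.Def_DilutedSpinGlass

/-!
Row 141 (S0192). Definitions: finite trees of probability kernels (`Sys`), nested power means,
tilting, products, perturbation items, tree shapes and tree moments, the finite cavity functional.

Conventions. Levels are counted by REMAINING depth: a node of remaining depth `d+1` picks a child of
remaining depth `d` with the weights `p`, and the power mean of this step has exponent `m d`.
All recursions are on the depth; nothing below depth `0` is ever looked at.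
-/

set_option autoImplicit false

namespace Crest.Agent.R141

open Finset

/-- A node: a value, a finite set of children with weights. -/
inductive Sys (X : Type) : Type 1
  | mk (val : X) (ι : Type) (fin : Fintype ι) (p : ι → ℝ) (ch : ι → Sys X) : Sys X

namespace Sys

variable {X Y Z : Type}

/-- The value carried by a node (only read at the leaves). -/
def val : Sys X → X
  | mk v _ _ _ _ => v

/-- The index type of the children. -/
def ι : Sys X → Type
  | mk _ i _ _ _ => i

instance instFintypeι : (S : Sys X) → Fintype S.ι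
  | mk _ _ f _ _ => f

/-- The weights of the children. -/
def p : (S : Sys X) → S.ι → ℝ
  | mk _ _ _ q _ => q

/-- The children. -/
def ch : (S : Sys X) → S.ι → Sys X
  | mk _ _ _ _ c => c

/-- A node without children. -/
def leaf (x : X) : Sys X := mk x Empty inferInstance (fun _ => 0) (fun e => e.elim)

/-- A node with explicit finite children. -/
def node (x : X) (ι : Type) [f : Fintype ι] (p : ι → ℝ) (ch : ι → Sys X) : Sys X := mk x ι f p ch

/-- The first `d` levels below `S` are strictly positive probability kernels. -/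
def Prob : ℕ → Sys X → Prop
  | 0, _ => True
  | d + 1, S => (∀ ω, 0 < S.p ω) ∧ (∑ ω, S.p ω = 1) ∧ ∀ ω, Prob d (S.ch ω)

/-- Every node `j` levels below `S` satisfies `P`. -/
def AllAt : ℕ → Sys X → (Sys X → Prop) → Prop
  | 0, S, P => P S
  | j + 1, S, P => ∀ ω, AllAt j (S.ch ω) P

/-- Expectation of a functional of the node reached after `j` steps. -/
noncomputable def Exp : ℕ → Sys X → (Sys X → ℝ) → ℝ
  | 0, S, F => F S
  | j + 1, S, F => ∑ ω, S.p ω * Exp j (S.ch ω) F

/-- Nested power means over `j` steps of the terminal functional `Φ`. -/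
noncomputable def T (m : ℕ → ℝ) : ℕ → Sys X → (Sys X → ℝ) → ℝ
  | 0, S, Φ => Φ S
  | j + 1, S, Φ => (∑ ω, S.p ω * T m j (S.ch ω) Φ ^ m j) ^ (m j)⁻¹

/-- The kernels of the first `j` steps tilted by the terminal functional `Φ`. -/
noncomputable def tilt (m : ℕ → ℝ) : ℕ → Sys X → (Sys X → ℝ) → Sys X
  | 0, S, _ => S
  | j + 1, S, Φ => node S.val S.ι
      (fun ω => S.p ω * (T m j (S.ch ω) Φ / T m (j + 1) S Φ) ^ m j)
      (fun ω => tilt m j (S.ch ω) Φ)

/-- Independent product of two systems (cut at depth `d`). -/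
def prod : ℕ → Sys X → Sys Y → Sys (X × Y)
  | 0, S, S' => leaf (S.val, S'.val)
  | d + 1, S, S' => node (S.val, S'.val) (S.ι × S'.ι) (fun ω => S.p ω.1 * S'.p ω.2)
      (fun ω => prod d (S.ch ω.1) (S'.ch ω.2))

/-- Independent product of a finite family of systems (cut at depth `d`). -/
def piProd {Λ : Type} [Fintype Λ] [DecidableEq Λ] : ℕ → (Λ → Sys X) → Sys (Λ → X)
  | 0, S => leaf (fun l => (S l).val)
  | d + 1, S => node (fun l => (S l).val) ((l : Λ) → (S l).ι) (fun ω => ∏ l, (S l).p (ω l))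
      (fun ω => piProd d (fun l => (S l).ch (ω l)))

/-- Relabel the values (cut at depth `d`). -/
def map (φ : X → Y) : ℕ → Sys X → Sys Y
  | 0, S => leaf (φ S.val)
  | d + 1, S => node (φ S.val) S.ι S.p (fun ω => map φ d (S.ch ω))

/-- `j` trivial levels on top of `S`. -/
def lift : ℕ → Sys X → Sys X
  | 0, S => S
  | j + 1, S => node S.val Unit (fun _ => 1) (fun _ => lift j S)

/-- The trivial system of depth `d` with leaf value `x`. -/
def triv (d : ℕ) (x : X) : Sys X := lift d (leaf x)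

/-- `S` projects onto `S'` along `φ` (levelwise measure-preserving maps of the children). -/
def Proj (φ : X → Y) : ℕ → Sys X → Sys Y → Prop
  | 0, S, S' => φ S.val = S'.val
  | d + 1, S, S' => ∃ f : S.ι → S'.ι,
      (∀ g : S'.ι → ℝ, ∑ i, S.p i * g (f i) = ∑ j, S'.p j * g j) ∧
      ∀ i, Proj φ d (S.ch i) (S'.ch (f i))

/-- A functional of depth-`d` probability systems that only depends on the nested law. -/
def Inv (d : ℕ) (F : Sys X → ℝ) : Prop :=
  ∀ S S', Prob d S → Prob d S' → Proj id d S S' → F S = F S'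

/-- The same for a functional of a parent (depth `d+1`) and a child (depth `d`). -/
def Inv2 (d : ℕ) (F : Sys X → Sys X → ℝ) : Prop :=
  ∀ P P' S S', Prob (d + 1) P → Prob (d + 1) P' → Prob d S → Prob d S' →
    Proj id (d + 1) P P' → Proj id d S S' → F P S = F P' S'

/-! ### Items: random positive factors on the leaf values -/

/-- The leaf factor of `S ⊗ A`. -/
def fac (P : Sys (X × (X → ℝ))) : ℝ := P.val.2 P.val.1

/-- The nested power mean of the factor of the item `A` over `S`. -/
noncomputable def TA (m : ℕ → ℝ) (d : ℕ) (S : Sys X) (A : Sys (X → ℝ)) : ℝ :=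
  T m d (prod d S A) fac

/-- The system `S` perturbed by the item `A`. -/
noncomputable def add (m : ℕ → ℝ) (d : ℕ) (S : Sys X) (A : Sys (X → ℝ)) : Sys X :=
  map Prod.fst d (tilt m d (prod d S A) fac)

/-- An item of depth `d` whose factors lie in `[lo, hi]`. -/
def Item (d : ℕ) (lo hi : ℝ) (A : Sys (X → ℝ)) : Prop :=
  Prob d A ∧ AllAt d A (fun L => ∀ x, lo ≤ L.val x ∧ L.val x ≤ hi)

/-- Product of two items. -/
def imul (d : ℕ) (A B : Sys (X → ℝ)) : Sys (X → ℝ) :=
  map (fun g x => g.1 x * g.2 x) d (prod d A B)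

/-- Product of a finite family of items. -/
def iprod {Λ : Type} [Fintype Λ] [DecidableEq Λ] (d : ℕ) (A : Λ → Sys (X → ℝ)) : Sys (X → ℝ) :=
  map (fun g x => ∏ l, g l x) d (piProd d A)

/-- With probability `a` the first step of the item `A` (depth `d+1`), otherwise nothing. -/
def mix (d : ℕ) (a : ℝ) (A : Sys (X → ℝ)) : Sys (X → ℝ) :=
  node (fun _ => 1) (Option A.ι) (fun o => o.elim (1 - a) (fun ω => a * A.p ω))
    (fun o => o.elim (triv d (fun _ => 1)) (fun ω => A.ch ω))

/-- Menu "A": the index `i` is drawn uniformly, then the item `A i` follows. -/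
noncomputable def menuA {I : Type} [Fintype I] (A : I → Sys (X → ℝ)) : Sys (X → ℝ) :=
  node (fun _ => 1) I (fun _ => (Fintype.card I : ℝ)⁻¹) A

/-- Menu "B": the index `i` and the first step of `A i` are drawn together. -/
noncomputable def menuB {I : Type} [Fintype I] (A : I → Sys (X → ℝ)) : Sys (X → ℝ) :=
  node (fun _ => 1) (Σ i : I, (A i).ι) (fun ω => (Fintype.card I : ℝ)⁻¹ * (A ω.1).p ω.2)
    (fun ω => (A ω.1).ch ω.2)

/-- A binomial number of independent draws from the menu `Mn` (depth `d+1`). -/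
noncomputable def slot (d : ℕ) (Mn : Sys (X → ℝ)) (s : ℕ) (θ : ℝ) : Sys (X → ℝ) :=
  node (fun _ => 1) (Σ k : Fin (s + 1), (Fin k → Mn.ι))
    (fun ω => (s.choose ω.1 : ℝ) * θ ^ (ω.1 : ℕ) / (1 + θ) ^ s * ∏ j, Mn.p (ω.2 j))
    (fun ω => iprod d (fun j => Mn.ch (ω.2 j)))

/-- Expectation of a functional of (node after `e` steps, its child). -/
noncomputable def E1 (e : ℕ) (S : Sys X) (F : Sys X → Sys X → ℝ) : ℝ :=
  Exp e S (fun P => ∑ ω, P.p ω * F P (P.ch ω))

/-- Add one more draw from the menu to the child, with its tilt. -/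
noncomputable def plus (m : ℕ → ℝ) (d : ℕ) (Mn : Sys (X → ℝ)) (F : Sys X → Sys X → ℝ)
    (P S : Sys X) : ℝ :=
  ∑ κ, Mn.p κ * TA m d S (Mn.ch κ) ^ m d * F P (add m d S (Mn.ch κ))

/-- The approximate Ghirlanda-Guerra type identity for the menu `Mn` (depth `d+1`) in the system
`S` of depth `d + 1 + e`. -/
def GG (m : ℕ → ℝ) (d e : ℕ) (S : Sys X) (Mn : Sys (X → ℝ)) (η : ℝ) : Prop :=
  ∀ F : Sys X → Sys X → ℝ, Inv2 d F → (∀ P Q, Prob (d + 1) P → Prob d Q → |F P Q| ≤ 1) →
    |E1 e S (plus m d Mn F) - E1 e S F * E1 e S (plus m d Mn (fun _ _ => 1))| ≤ η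

/-- The bilinear response form. -/
noncomputable def Lin (m : ℕ → ℝ) : ℕ → Sys X → (Sys X → ℝ) → (Sys X → ℝ) → ℝ
  | 0, _, _, _ => 0
  | j + 1, S, F, G => ∑ ω, S.p ω *
      (m j * ((Exp j (S.ch ω) F - Exp (j + 1) S F) * (Exp j (S.ch ω) G - Exp (j + 1) S G)) +
        Lin m j (S.ch ω) F G)

end Sys

/-- Uniform average over a finite type. -/
noncomputable def avg {I : Type} [Fintype I] (f : I → ℝ) : ℝ :=
  (Fintype.card I : ℝ)⁻¹ * ∑ i, f i

/-- Exponents: positive, decreasing with the remaining depth, last step linear. -/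
structure Exps (m : ℕ → ℝ) : Prop where
  pos : ∀ d, 0 < m d
  anti : Antitone m
  zero : m 0 = 1

/-! ### Tree shapes -/

/-- Ordered trees of depth `d`, at most `K` children per node, leaves coloured by `Col`. -/
def Shape (Col : Type) (K : ℕ) : ℕ → Type
  | 0 => Col
  | d + 1 => Σ k : Fin K, (Fin (k + 1) → Shape Col K d)

namespace Shape

variable {Col : Type} {K : ℕ}

instance instFintype [Fintype Col] : (d : ℕ) → Fintype (Shape Col K d)
  | 0 => inferInstanceAs (Fintype Col)
  | d + 1 =>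
    letI := instFintype d
    inferInstanceAs (Fintype (Σ k : Fin K, (Fin (k + 1) → Shape Col K d)))

/-- Number of leaves. -/
def size : (d : ℕ) → Shape Col K d → ℕ
  | 0, _ => 1
  | d + 1, τ => ∑ c, size d (τ.2 c)

/-- The leaves. -/
def Leaf : (d : ℕ) → Shape Col K d → Type
  | 0, _ => Unit
  | d + 1, τ => Σ c : Fin (τ.1 + 1), Leaf d (τ.2 c)

instance instFintypeLeaf : (d : ℕ) → (τ : Shape Col K d) → Fintype (Leaf d τ)
  | 0, _ => inferInstanceAs (Fintype Unit)
  | d + 1, τ =>
    letI := fun c => instFintypeLeaf d (τ.2 c)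
    inferInstanceAs (Fintype (Σ c : Fin (τ.1 + 1), Leaf d (τ.2 c)))

/-- The colour of a leaf. -/
def col : (d : ℕ) → (τ : Shape Col K d) → Leaf d τ → Col
  | 0, τ, _ => τ
  | d + 1, τ, l => col d (τ.2 l.1) l.2

/-- Product of a coefficient over the leaves. -/
def lprod (co : Col → ℝ) : (d : ℕ) → Shape Col K d → ℝ
  | 0, τ => co τ
  | d + 1, τ => ∏ c, lprod co d (τ.2 c)

end Shape

/-- Sibuya weights: `1 - (1 - x)^ρ = ∑ k, sib ρ k * x^(k+1)` for `|x| < 1`. -/
noncomputable def sib (ρ : ℝ) (k : ℕ) : ℝ :=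
  ρ / (k + 1) * ∏ j ∈ range k, (1 - ρ / (j + 1))

/-- The Galton-Watson weight of a shape (colours not weighted). -/
noncomputable def wt {Col : Type} {K : ℕ} (m : ℕ → ℝ) : (d : ℕ) → Shape Col K d → ℝ
  | 0, _ => 1
  | d + 1, τ => sib (m (d + 1) / m d) τ.1 * ∏ c, wt m d (τ.2 c)

/-- Tree moment: independent children along the shape, leaf functions `a` by colour. -/
noncomputable def Mom {X Col : Type} {K : ℕ} (a : Col → X → ℝ) :
    (d : ℕ) → Shape Col K d → Sys X → ℝ
  | 0, τ, S => a τ S.val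
  | d + 1, τ, S => ∏ c, ∑ ω, S.p ω * Mom a d (τ.2 c) (S.ch ω)

/-- `1 - T(1 - y)^(m d)`. -/
noncomputable def Uf {X : Type} (m : ℕ → ℝ) (d : ℕ) (S : Sys X) (y : X → ℝ) : ℝ :=
  1 - Sys.T m d S (fun L => 1 - y L.val) ^ m d

/-- The same with the Sibuya series cut after `K` terms at every node. -/
noncomputable def UK {X : Type} (m : ℕ → ℝ) (K : ℕ) : ℕ → Sys X → (X → ℝ) → ℝ
  | 0, S, y => y S.val
  | d + 1, S, y => ∑ k ∈ range K, sib (m (d + 1) / m d) k * (∑ ω, S.p ω * UK m K d (S.ch ω) y) ^ (k + 1)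

/-- `±1`. -/
def sgn (b : Bool) : ℝ := if b then 1 else -1

/-- The isolating item (depth `d+1`) of a forest `f` with signs `ε`. -/
noncomputable def isoItem {X Col : Type} {K : ℕ} (t c : ℝ) (a : Col → X → ℝ) :
    (d : ℕ) → (I : Type) → [Fintype I] → [DecidableEq I] → (I → Shape Col K d) → (I → ℝ) →
      Sys (X → ℝ)
  | 0, I, _, _, f, ε => Sys.node (fun _ => 1) Unit (fun _ => 1)
      (fun _ => Sys.leaf (fun x => 1 - t * ∑ i : I, ε i * a (f i) x))
  | d + 1, I, _, _, f, ε => Sys.node (fun _ => 1) ((Σ i : I, Fin ((f i).1 + 1)) → Bool)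
      (fun b => (1 + c * ∑ i : I, ε i * ∏ k, sgn (b ⟨i, k⟩)) /
        2 ^ Fintype.card (Σ i : I, Fin ((f i).1 + 1)))
      (fun b => isoItem t c a d (Σ i : I, Fin ((f i).1 + 1)) (fun x => (f x.1).2 x.2)
        (fun x => sgn (b x)))

/-- The leading coefficient of the isolating item. -/
noncomputable def kap {Col : Type} {K : ℕ} (m : ℕ → ℝ) (c : ℝ) : (d : ℕ) → Shape Col K d → ℝ
  | 0, _ => 1
  | d + 1, τ => c * ((τ.1 + 1 : ℕ).factorial : ℝ) * sib (m (d + 1) / m d) τ.1 *
      ∏ k, kap m c d (τ.2 k)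

/-! ### The finite cavity functional -/

open Crest.ProbabilityR.Diluted MeasureTheory

/-- Put `ε` in the last coordinate. -/
def ext {p : ℕ} (s : Fin (p - 1) → Bool) (ε : Bool) : Fin p → Bool :=
  fun l => if h : l.val < p - 1 then s ⟨l.val, h⟩ else ε

/-- The site factor as a function of the spins of the `k (p-1)` labels. -/
noncomputable def siteV {p k : ℕ} (h : ℝ) (θs : Fin k → Inter p)
    (s : Fin k × Fin (p - 1) → Bool) : ℝ :=
  (1 / 2) * ∑ ε : Bool, Real.exp (h * spinVal ε + ∑ j : Fin k, θs j (ext (fun l => s (j, l)) ε))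

/-- `E log T V` for independent copies of the label system `Lab` (depth `r+2`, first step is the
level-zero average). -/
noncomputable def labLog {Λ : Type} [Fintype Λ] [DecidableEq Λ] (m : ℕ → ℝ) (r : ℕ)
    (Lab : Sys Bool) (V : (Λ → Bool) → ℝ) : ℝ :=
  ∑ u : Λ → Lab.ι, (∏ l, Lab.p (u l)) *
    Real.log (Sys.T m (r + 1) (Sys.piProd (r + 1) (fun l => Lab.ch (u l))) (fun L => V L.val))

/-- The cavity functional of a finite label system. -/
noncomputable def Pfin (p : ℕ) (α : ℝ) (μ : Measure (Inter p)) (ν : Measure ℝ)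
    (m : ℕ → ℝ) (r : ℕ) (Lab : Sys Bool) : ℝ :=
  Real.log 2 +
    (∑' k : ℕ, poissonWeight (α * p) k *
      ∫ θs, ∫ h, labLog m r Lab (siteV (k := k) h θs) ∂ν ∂(Measure.pi fun _ : Fin k => μ)) -
    α * (p - 1 : ℝ) * ∫ θ, labLog m r Lab (fun s : Fin p → Bool => Real.exp (θ s)) ∂μ

/-- Both spin values occur below every node of the last-but-one level. -/
def Full (d : ℕ) (S : Sys Bool) : Prop :=
  Sys.AllAt d S (fun Q => ∀ b : Bool, ∃ ω, (Q.ch ω).val = b)

end Crest.Agent.R141
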