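import Crest.Agent.R141.GGslot

/-! Row 141, module C2: the identity `GG` for finitely many menus at once. -/

set_option autoImplicit false

namespace Crest.Agent.R141

open Finset Sys

/-- Split one coordinate off a uniform average over a function space. -/
theorem ggm_avg_split {Λ I : Type} [Fintype Λ] [DecidableEq Λ] [Fintype I] (t : Λ)
    (G : ({l // l ≠ t} → I) → I → ℝ) :
    avg (fun j : Λ → I => G (fun l => j l.1) (j t)) = avg (fun j' => avg (fun i => G j' i)) := by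
  unfold avg
  rw [Fintype.sum_equiv (Equiv.funSplitAt t I) (fun j : Λ → I => G (fun l => j l.1) (j t))
    (fun x => G x.2 x.1) (fun j => rfl), Fintype.card_congr (Equiv.funSplitAt t I),
    Fintype.sum_prod_type_right, Fintype.card_prod, ← Finset.mul_sum, Nat.cast_mul, mul_inv,
    mul_comm ((Fintype.card I : ℝ)⁻¹), mul_assoc]

theorem gg_multi {X : Type} {m : ℕ → ℝ} (hm : Exps m) (D : ℕ) {𝓣 : Type} [Fintype 𝓣]
    [DecidableEq 𝓣] (dd : 𝓣 → ℕ) (hdd : ∀ t, dd t < D) (Mn : 𝓣 → Sys (X → ℝ))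
    (hMn : ∀ t, Item (dd t + 1) (1 / 2) (3 / 2) (Mn t)) {s J : ℕ} (hs : 0 < s) (hJ : 0 < J) :
    ∃ 𝒜 : (𝓣 → Fin J) → Sys (X → ℝ),
      (∀ j, Item D (((1 / 2) ^ s) ^ Fintype.card 𝓣) (((3 / 2) ^ s) ^ Fintype.card 𝓣) (𝒜 j)) ∧
      ∀ S : Sys X, Prob D S → ∃ ξ : (𝓣 → Fin J) → ℝ, (∀ j, 0 ≤ ξ j) ∧
        avg ξ ≤ Fintype.card 𝓣 * (1000 * (1 / (J : ℝ) + J / (m D * s))) ∧
        ∀ j t, GG m (dd t) (D - 1 - dd t) (add m D S (𝒜 j)) (Mn t) (ξ j) := by
  have hD : ∀ t, dd t + 1 + (D - 1 - dd t) = D := fun t => by have := hdd t; omega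
  let B : 𝓣 → Fin J → Sys (X → ℝ) := fun t i =>
    lift (D - 1 - dd t) (slot (dd t) (Mn t) s (theta m (dd t) J i))
  have hB : ∀ t i, Item D ((1 / 2) ^ s) ((3 / 2) ^ s) (B t i) := by
    intro t i
    have h := (item_slot (by norm_num) (by norm_num) (by norm_num) (hMn t) s
      (theta_pos m (dd t) J i)).lift (D - 1 - dd t)
    rwa [hD t] at h
  have hlo : (0 : ℝ) < (1 / 2) ^ s := by positivity
  refine ⟨fun j => iprod D (fun t => B t (j t)), fun j => item_iprod hlo.le (fun t => hB t (j t)),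
    fun S hS => ?_⟩
  -- the other slots
  let A' : (t : 𝓣) → ({l // l ≠ t} → Fin J) → Sys (X → ℝ) := fun t j' =>
    iprod D (fun l : {l // l ≠ t} => B l.1 (j' l))
  have hA' : ∀ t j', Item D (((1 / 2) ^ s) ^ Fintype.card {l // l ≠ t})
      (((3 / 2) ^ s) ^ Fintype.card {l // l ≠ t}) (A' t j') := fun t j' =>
    item_iprod hlo.le (fun l => hB l.1 (j' l))
  have hS' : ∀ t j', Prob D (add m D S (A' t j')) := fun t j' =>
    prob_add hm.pos (pow_pos hlo _) hS (hA' t j')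
  have key : ∀ t j', ∃ ξ : Fin J → ℝ, (∀ i, 0 ≤ ξ i) ∧
      avg ξ ≤ 1000 * (1 / (J : ℝ) + J / (m D * s)) ∧
      ∀ i, GG m (dd t) (D - 1 - dd t) (add m D (add m D S (A' t j')) (B t i)) (Mn t) (ξ i) := by
    intro t j'
    have hS'' : Prob (dd t + 1 + (D - 1 - dd t)) (add m D S (A' t j')) := by
      rw [hD t]; exact hS' t j'
    obtain ⟨ξ, h0, h1, h2⟩ := gg_slot hm (dd t) (D - 1 - dd t) (hMn t) hs hJ hS''
    refine ⟨ξ, h0, h1.trans ?_, fun i => ?_⟩
    · have hmm : m D ≤ m (dd t + (D - 1 - dd t)) := hm.anti (by have := hdd t; omega)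
      have hs' : (0 : ℝ) < s := by exact_mod_cast hs
      have hmD := hm.pos D
      gcongr
    · have h3 := h2 i
      rwa [hD t] at h3
  choose ξ hξ0 hξ1 hξ2 using key
  refine ⟨fun j => ∑ t, ξ t (fun l => j l.1) (j t), fun j => Finset.sum_nonneg
    (fun t _ => hξ0 _ _ _), ?_, fun j t => ?_⟩
  · rw [avg_sum, ← Finset.card_univ, ← nsmul_eq_mul, ← Finset.sum_const]
    refine Finset.sum_le_sum (fun t _ => ?_)
    have : Nonempty (Fin J) := ⟨⟨0, hJ⟩⟩
    rw [ggm_avg_split t (ξ t)]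
    exact (avg_mono (fun j' => hξ1 t j')).trans (avg_const _).le
  · have hle : ξ t (fun l => j l.1) (j t) ≤ ∑ t, ξ t (fun l => j l.1) (j t) :=
      Finset.single_le_sum (f := fun t => ξ t (fun l => j l.1) (j t)) (fun t _ => hξ0 _ _ _)
        (Finset.mem_univ t)
    refine GG.mono ?_ hle
    have hp1 : Proj id D (iprod D (fun t => B t (j t)))
        (imul D (A' t (fun l => j l.1)) (B t (j t))) :=
      proj_iprod_split_one (Subtype.val : {l // l ≠ t} → 𝓣) Subtype.val_injective t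
        (fun l => l.2) (fun l => by
          by_cases h : l = t
          · exact Or.inl h
          · exact Or.inr ⟨⟨l, h⟩, rfl⟩) (A := fun t => B t (j t)) (fun l => (hB l (j l)).1)
    have hp2 := ((Proj.refl D S).add (m := m) hp1).trans_id
      (proj_add_add hm.pos (pow_pos hlo _) hlo hS (hA' t (fun l => j l.1)) (hB t (j t)))
    have hP1 : Prob D (add m D S (iprod D (fun t => B t (j t)))) :=
      prob_add hm.pos (pow_pos hlo _) hS (item_iprod hlo.le (fun t => hB t (j t)))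
    have hP2 := prob_add hm.pos hlo (hS' t (fun l => j l.1)) (hB t (j t))
    refine GG.of_proj hm.pos (by norm_num) (hMn t) ?_ ?_ ?_ (hξ2 t _ (j t))
    · rw [hD t]; exact hp2
    · rw [hD t]; exact hP1
    · rw [hD t]; exact hP2

end Crest.Agent.R141
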