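import Mathlib

/-! Row 141, module C1 (auxiliary): positive normalised functionals, the algebra of the
Mecke identity and the concentration estimate. -/

set_option autoImplicit false

namespace Crest.Agent.R141

/-- A positive normalised linear functional (positivity only on the `good` points). -/
structure GGPos {Ω : Type*} (good : Ω → Prop) (E : (Ω → ℝ) → ℝ) : Prop where
  add : ∀ f g, E (fun x => f x + g x) = E f + E g
  smul : ∀ (c : ℝ) f, E (fun x => c * f x) = c * E f
  mono : ∀ f g, (∀ x, good x → f x ≤ g x) → E f ≤ E g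
  one : E (fun _ => 1) = 1

namespace GGPos

variable {Ω : Type*} {good : Ω → Prop} {E : (Ω → ℝ) → ℝ}

theorem const (h : GGPos good E) (c : ℝ) : E (fun _ => c) = c := by
  have := h.smul c (fun _ => 1)
  simpa [h.one] using this

theorem affine (h : GGPos good E) (a b : ℝ) (f : Ω → ℝ) :
    E (fun x => a + b * f x) = a + b * E f := by
  rw [h.add (fun _ => a) (fun x => b * f x), h.const, h.smul]

theorem lin (h : GGPos good E) (a b : ℝ) (f g : Ω → ℝ) :
    E (fun x => a * f x + b * g x) = a * E f + b * E g := by
  rw [h.add (fun x => a * f x) (fun x => b * g x), h.smul, h.smul]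

theorem abs_le (h : GGPos good E) {c : ℝ} {f g : Ω → ℝ} (hf : ∀ x, good x → |f x| ≤ c * g x) :
    |E f| ≤ c * E g := by
  rw [_root_.abs_le]
  constructor
  · have h1 := h.mono (fun x => (-c) * g x) f (fun x hx => by
      have := (_root_.abs_le.1 (hf x hx)).1
      linarith)
    rw [h.smul] at h1
    linarith
  · have h1 := h.mono f (fun x => c * g x) (fun x hx => (_root_.abs_le.1 (hf x hx)).2)
    rwa [h.smul] at h1

theorem nonneg (h : GGPos good E) {f : Ω → ℝ} (hf : ∀ x, good x → 0 ≤ f x) : 0 ≤ E f := by
  have := h.mono (fun _ => 0) f hf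
  rwa [h.const] at this

/-- The algebra behind the approximate identity. -/
theorem algebra (h : GGPos good E) {K F Fp L : Ω → ℝ} {s θ : ℝ} (hs : 0 < s) (hθ1 : 1 ≤ θ)
    (hθ3 : θ ≤ 3) (hK : ∀ x, good x → K x ≤ s) (hF : ∀ x, good x → |F x| ≤ 1)
    (hFp : ∀ x, good x → |Fp x| ≤ 3 / 2) (hL : ∀ x, good x → |L x| ≤ 3 / 2)
    (hM : E (fun x => K x * F x) = θ * E (fun x => (s - K x) * Fp x))
    (hM1 : E (fun x => K x * 1) = θ * E (fun x => (s - K x) * L x)) :
    |E Fp - E F * E L| ≤ 22 * E (fun x => |K x - E K|) / s := by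
  set kb := E K with hkb
  set eps := E (fun x => |K x - kb|) with heps
  have heps0 : 0 ≤ eps := h.nonneg (fun x _ => abs_nonneg _)
  have key : ∀ (G : Ω → ℝ) (c : ℝ), (∀ x, good x → |G x| ≤ c) →
      |E (fun x => (K x - kb) * G x)| ≤ c * eps := fun G c hG =>
    h.abs_le (fun x hx => by
      rw [abs_mul, mul_comm]
      exact mul_le_mul_of_nonneg_right (hG x hx) (abs_nonneg _))
  have r1 := key F 1 hF
  have r2 := key Fp (3 / 2) hFp
  have r3 := key L (3 / 2) hL
  have e1 : E (fun x => K x * F x) = kb * E F + 1 * E (fun x => (K x - kb) * F x) := by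
    rw [← h.lin]; congr 1; funext x; ring
  have e2 : ∀ G : Ω → ℝ, E (fun x => (s - K x) * G x) =
      (s - kb) * E G + (-1) * E (fun x => (K x - kb) * G x) := fun G => by
    rw [← h.lin]; congr 1; funext x; ring
  have e3 : E (fun x => K x * 1) = kb := by simp [hkb]
  have hEF : |E F| ≤ 1 := by
    have := h.abs_le (c := 1) (f := F) (g := fun _ => 1) (fun x hx => by simpa using hF x hx)
    simpa [h.one] using this
  have hlow : kb ≤ θ * (3 / 2 * (s - kb)) := by
    have h1 : E (fun x => (s - K x) * L x) ≤ E (fun x => 3 / 2 * s + (-(3 / 2)) * K x) :=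
      h.mono _ _ (fun x hx => by
        have h1 := hK x hx
        have h2 := (_root_.abs_le.1 (hL x hx)).2
        nlinarith)
    rw [h.affine, ← hkb] at h1
    calc kb = θ * E (fun x => (s - K x) * L x) := by rw [← hM1, e3]
      _ ≤ _ := mul_le_mul_of_nonneg_left (by linarith) (by linarith)
  have hsk0 : 0 ≤ s - kb := by
    have h1 := h.mono K (fun _ => s) hK
    rw [h.const] at h1
    linarith
  have hsk : s ≤ 11 / 2 * (s - kb) := by nlinarith
  rw [e1, e2] at hM
  rw [e3, e2] at hM1
  set R1 := E (fun x => (K x - kb) * F x)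
  set R2 := E (fun x => (K x - kb) * Fp x)
  set R3 := E (fun x => (K x - kb) * L x)
  have hmain : θ * (s - kb) * (E Fp - E F * E L) = R1 + θ * R2 - θ * (E F * R3) := by
    linear_combination (-1 : ℝ) * hM + E F * hM1
  have hb : |R1 + θ * R2 - θ * (E F * R3)| ≤ θ * (4 * eps) := by
    have h3 : |E F * R3| ≤ 3 / 2 * eps := by
      rw [abs_mul]
      calc |E F| * |R3| ≤ 1 * |R3| := mul_le_mul_of_nonneg_right hEF (abs_nonneg _)
        _ ≤ 3 / 2 * eps := by simpa using r3
    obtain ⟨a1, a2⟩ := _root_.abs_le.1 r1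
    obtain ⟨b1, b2⟩ := _root_.abs_le.1 r2
    obtain ⟨c1, c2⟩ := _root_.abs_le.1 h3
    rw [_root_.abs_le]
    constructor <;> nlinarith
  rw [← hmain, abs_mul, abs_of_nonneg (mul_nonneg (by linarith) hsk0), mul_assoc] at hb
  have hb' : (s - kb) * |E Fp - E F * E L| ≤ 4 * eps :=
    le_of_mul_le_mul_left hb (by linarith)
  rw [le_div_iff₀ hs]
  have := abs_nonneg (E Fp - E F * E L)
  nlinarith

/-- Two exponential moments control the mean absolute deviation. -/
theorem conc (h : GGPos good E) {K : Ω → ℝ} {a u v : ℝ}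
    (hu : E (fun x => Real.exp (a * K x)) ≤ Real.exp u)
    (hv : E (fun x => Real.exp (-a * K x)) ≤ Real.exp v) :
    a * E (fun x => |K x - E K|) ≤ Real.log 2 + (u + v) := by
  set kb := E K with hkb
  set eps := E (fun x => |K x - kb|) with heps
  set Ap := E (fun x => Real.exp (a * (K x - kb))) with hAp
  set Am := E (fun x => Real.exp (-a * (K x - kb))) with hAm
  have hAp1 : 1 ≤ Ap := by
    have h1 := h.mono (fun x => (1 - a * kb) + a * K x) (fun x => Real.exp (a * (K x - kb)))
      (fun x _ => by have := Real.add_one_le_exp (a * (K x - kb)); linarith)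
    rw [h.affine, ← hkb] at h1
    linarith
  have hAm1 : 1 ≤ Am := by
    have h1 := h.mono (fun x => (1 + a * kb) + (-a) * K x) (fun x => Real.exp (-a * (K x - kb)))
      (fun x _ => by have := Real.add_one_le_exp (-a * (K x - kb)); linarith)
    rw [h.affine, ← hkb] at h1
    linarith
  have hApu : Ap ≤ Real.exp (-(a * kb)) * Real.exp u := by
    have : Ap = Real.exp (-(a * kb)) * E (fun x => Real.exp (a * K x)) := by
      rw [← h.smul, hAp]; congr 1; funext x; rw [← Real.exp_add]; congr 1; ring
    rw [this]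
    exact mul_le_mul_of_nonneg_left hu (Real.exp_pos _).le
  have hAmv : Am ≤ Real.exp (a * kb) * Real.exp v := by
    have : Am = Real.exp (a * kb) * E (fun x => Real.exp (-a * K x)) := by
      rw [← h.smul, hAm]; congr 1; funext x; rw [← Real.exp_add]; congr 1; ring
    rw [this]
    exact mul_le_mul_of_nonneg_left hv (Real.exp_pos _).le
  have hsum : Real.exp (a * eps) ≤ Ap + Am := by
    have h1 := h.mono (fun x => Real.exp (a * eps) * (1 - a * eps) +
        (Real.exp (a * eps) * a) * |K x - kb|)
      (fun x => Real.exp (a * (K x - kb)) + Real.exp (-a * (K x - kb))) (fun x _ => by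
        have h2 := Real.add_one_le_exp (a * |K x - kb| - a * eps)
        have h3 : Real.exp (a * eps) * (a * |K x - kb| - a * eps + 1) ≤
            Real.exp (a * |K x - kb|) := by
          calc _ ≤ Real.exp (a * eps) * Real.exp (a * |K x - kb| - a * eps) :=
                mul_le_mul_of_nonneg_left h2 (Real.exp_pos _).le
            _ = _ := by rw [← Real.exp_add]; congr 1; ring
        have h4 : Real.exp (a * |K x - kb|) ≤
            Real.exp (a * (K x - kb)) + Real.exp (-a * (K x - kb)) := by
          rcases abs_cases (K x - kb) with h5 | h5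
          · rw [h5.1]; have := Real.exp_pos (-a * (K x - kb)); linarith
          · rw [h5.1, show a * -(K x - kb) = -a * (K x - kb) by ring]
            have := Real.exp_pos (a * (K x - kb)); linarith
        linarith)
    rw [h.affine, h.add, ← heps, ← hAp, ← hAm] at h1
    linarith
  have hprod : Ap * Am ≤ Real.exp (u + v) := by
    calc Ap * Am ≤ (Real.exp (-(a * kb)) * Real.exp u) * (Real.exp (a * kb) * Real.exp v) :=
          mul_le_mul hApu hAmv (by linarith) (by positivity)
      _ = Real.exp (u + v) := by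
          simp only [← Real.exp_add]; congr 1; ring
  have hfin : Real.exp (a * eps) ≤ Real.exp (Real.log 2 + (u + v)) := by
    rw [Real.exp_add, Real.exp_log (by norm_num)]
    nlinarith
  exact Real.exp_le_exp.1 hfin

end GGPos

end Crest.Agent.R141
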