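import Crest.Agent.R141.BasicAdd
import Crest.Agent.R141.GGslotAux

/-! Row 141, module C1: the identity `GG` for one binomial slot, on average over its intensity. -/

set_option autoImplicit false

namespace Crest.Agent.R141

open Finset Sys

/-- The grid of intensities. -/
noncomputable def theta (m : ℕ → ℝ) (d J : ℕ) (j : Fin J) : ℝ :=
  Real.exp (m d * (((j : ℕ) : ℝ) + 1) / J)

theorem theta_pos (m : ℕ → ℝ) (d J : ℕ) (j : Fin J) : 0 < theta m d J j := Real.exp_pos _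

section aux

variable {X : Type} {m : ℕ → ℝ} {d : ℕ} {Mn : Sys (X → ℝ)}

/-- The product of the drawn items. -/
def ggIt (d : ℕ) (Mn : Sys (X → ℝ)) {k : ℕ} (κ : Fin k → Mn.ι) : Sys (X → ℝ) :=
  iprod d (fun j => Mn.ch (κ j))

/-- Unnormalised sum over the child and `k` draws from the menu. -/
noncomputable def ggC (m : ℕ → ℝ) (d : ℕ) (Mn : Sys (X → ℝ)) (P0 : Sys X) (k : ℕ)
    (G : Sys X → ℝ) : ℝ :=
  ∑ w : P0.ι, ∑ κ : Fin k → Mn.ι, P0.p w * (∏ j, Mn.p (κ j)) *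
    TA m d (P0.ch w) (ggIt d Mn κ) ^ m d * G (add m d (P0.ch w) (ggIt d Mn κ))

theorem ggIt_item (hMn : Item (d + 1) (1 / 2) (3 / 2) Mn) {k : ℕ} (κ : Fin k → Mn.ι) :
    Item d ((1 / 2) ^ Fintype.card (Fin k)) ((3 / 2) ^ Fintype.card (Fin k)) (ggIt d Mn κ) :=
  item_iprod (by norm_num) (fun j => hMn.ch (κ j))

theorem ggW_pos (hm : Exps m) (hMn : Item (d + 1) (1 / 2) (3 / 2) Mn) {P0 : Sys X}
    (hP : Prob (d + 1) P0) (w : P0.ι) {k : ℕ} (κ : Fin k → Mn.ι) :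
    0 < P0.p w * (∏ j, Mn.p (κ j)) * TA m d (P0.ch w) (ggIt d Mn κ) ^ m d := by
  have h1 : 0 < P0.p w := hP.1 w
  have h2 : 0 < ∏ j, Mn.p (κ j) := Finset.prod_pos (fun j _ => hMn.1.1 (κ j))
  have h3 : 0 < TA m d (P0.ch w) (ggIt d Mn κ) :=
    TA_pos hm.pos (by positivity) (hP.2.2 w) (ggIt_item hMn κ)
  have h4 := Real.rpow_pos_of_pos h3 (m d)
  positivity

theorem ggC_add (P0 : Sys X) (k : ℕ) (G G' : Sys X → ℝ) :
    ggC m d Mn P0 k (fun Q => G Q + G' Q) = ggC m d Mn P0 k G + ggC m d Mn P0 k G' := by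
  simp only [ggC, mul_add, Finset.sum_add_distrib]

theorem ggC_smul (P0 : Sys X) (k : ℕ) (c : ℝ) (G : Sys X → ℝ) :
    ggC m d Mn P0 k (fun Q => c * G Q) = c * ggC m d Mn P0 k G := by
  simp only [ggC, Finset.mul_sum]
  refine Finset.sum_congr rfl (fun w _ => Finset.sum_congr rfl (fun κ _ => by ring))

theorem ggC_const (P0 : Sys X) (k : ℕ) (c : ℝ) :
    ggC m d Mn P0 k (fun _ => c) = c * ggC m d Mn P0 k (fun _ => 1) := by
  rw [← ggC_smul]; simp

theorem ggC_mono (hm : Exps m) (hMn : Item (d + 1) (1 / 2) (3 / 2) Mn) {P0 : Sys X}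
    (hP : Prob (d + 1) P0) (k : ℕ) {G G' : Sys X → ℝ} (h : ∀ Q, Prob d Q → G Q ≤ G' Q) :
    ggC m d Mn P0 k G ≤ ggC m d Mn P0 k G' := by
  refine Finset.sum_le_sum (fun w _ => Finset.sum_le_sum (fun κ _ => ?_))
  refine mul_le_mul_of_nonneg_left (h _ ?_) (ggW_pos hm hMn hP w κ).le
  exact prob_add hm.pos (by positivity) (hP.2.2 w) (ggIt_item hMn κ)

theorem ggC_one_pos (hm : Exps m) (hMn : Item (d + 1) (1 / 2) (3 / 2) Mn) {P0 : Sys X}
    (hP : Prob (d + 1) P0) (k : ℕ) : 0 < ggC m d Mn P0 k (fun _ => 1) := by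
  have := hP.nonempty
  have := hMn.1.nonempty
  refine Finset.sum_pos (fun w _ => Finset.sum_pos (fun κ _ => ?_) Finset.univ_nonempty)
    Finset.univ_nonempty
  simpa using ggW_pos hm hMn hP w κ

/-- One more draw. -/
theorem ggC_succ (hm : Exps m) (hMn : Item (d + 1) (1 / 2) (3 / 2) Mn) {P0 : Sys X}
    (hP : Prob (d + 1) P0) (k : ℕ) {G : Sys X → ℝ} (hG : Inv d G) :
    ggC m d Mn P0 (k + 1) G = ggC m d Mn P0 k
      (fun Q => ∑ x, Mn.p x * TA m d Q (Mn.ch x) ^ m d * G (add m d Q (Mn.ch x))) := by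
  unfold ggC
  refine Finset.sum_congr rfl (fun w _ => ?_)
  rw [← (Fin.consEquiv (fun _ : Fin (k + 1) => Mn.ι)).sum_comp, Fintype.sum_prod_type,
    Finset.sum_comm]
  refine Finset.sum_congr rfl (fun κ _ => ?_)
  rw [Finset.mul_sum]
  refine Finset.sum_congr rfl (fun x _ => ?_)
  have hS := hP.2.2 w
  have hκ := ggIt_item hMn κ
  have hx := hMn.ch x
  have hκ' := ggIt_item hMn ((Fin.consEquiv (fun _ : Fin (k + 1) => Mn.ι)) (x, κ))
  have hproj : Proj id d (ggIt d Mn ((Fin.consEquiv (fun _ : Fin (k + 1) => Mn.ι)) (x, κ)))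
      (imul d (ggIt d Mn κ) (Mn.ch x)) :=
    proj_iprod_split_one (Λ := Fin (k + 1)) (Λ₁ := Fin k) Fin.succ (Fin.succ_injective k) 0
      (fun l => Fin.succ_ne_zero l) (fun l => by
        rcases Fin.eq_zero_or_eq_succ l with h | ⟨l', h⟩
        · exact Or.inl h
        · exact Or.inr ⟨l', h.symm⟩)
      (A := fun j => Mn.ch ((Fin.consEquiv (fun _ : Fin (k + 1) => Mn.ι)) (x, κ) j))
      (fun l => (hMn.ch _).1)
  have h1 : TA m d (P0.ch w) (ggIt d Mn ((Fin.consEquiv (fun _ : Fin (k + 1) => Mn.ι)) (x, κ))) =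
      TA m d (P0.ch w) (ggIt d Mn κ) * TA m d (add m d (P0.ch w) (ggIt d Mn κ)) (Mn.ch x) := by
    rw [Proj.TA_eq (Proj.refl d _) hproj,
      TA_imul hm.pos (by positivity) (by norm_num) hS hκ hx]
  have hQ : Prob d (add m d (P0.ch w) (ggIt d Mn κ)) := prob_add hm.pos (by positivity) hS hκ
  have h2 : G (add m d (P0.ch w)
      (ggIt d Mn ((Fin.consEquiv (fun _ : Fin (k + 1) => Mn.ι)) (x, κ)))) =
      G (add m d (add m d (P0.ch w) (ggIt d Mn κ)) (Mn.ch x)) :=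
    hG _ _ (prob_add hm.pos (by positivity) hS hκ') (prob_add hm.pos (by norm_num) hQ hx)
      ((Proj.add (Proj.refl d _) hproj).trans_id
        (proj_add_add hm.pos (by positivity) (by norm_num) hS hκ hx))
  have h3 : (∏ j, Mn.p ((Fin.consEquiv (fun _ : Fin (k + 1) => Mn.ι)) (x, κ) j)) =
      Mn.p x * ∏ j, Mn.p (κ j) := by
    rw [Fin.prod_univ_succ]; rfl
  rw [h1, h2, h3, Real.mul_rpow (TA_pos hm.pos (by positivity) hS hκ).le
    (TA_pos hm.pos (by norm_num) hQ hx).le]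
  ring

/-- The unnormalised sum over the number of draws. -/
noncomputable def ggN (m : ℕ → ℝ) (d : ℕ) (Mn : Sys (X → ℝ)) (s : ℕ) (θ : ℝ) (P0 : Sys X)
    (G : ℕ → Sys X → ℝ) : ℝ :=
  ∑ k ∈ range (s + 1), (s.choose k : ℝ) * θ ^ k * ggC m d Mn P0 k (G k)

/-- The partition function. -/
noncomputable def ggZ (m : ℕ → ℝ) (d : ℕ) (Mn : Sys (X → ℝ)) (s : ℕ) (θ : ℝ) (P0 : Sys X) : ℝ :=
  ggN m d Mn s θ P0 (fun _ _ => 1)

/-- The unnormalised power mean. -/
noncomputable def ggPsi (m : ℕ → ℝ) (d : ℕ) (Mn : Sys (X → ℝ)) (s : ℕ) (θ : ℝ) (P0 : Sys X) : ℝ :=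
  ggZ m d Mn s θ P0 ^ (m d)⁻¹

variable {s : ℕ} {θ : ℝ}

theorem ggN_add (P0 : Sys X) (G G' : ℕ → Sys X → ℝ) :
    ggN m d Mn s θ P0 (fun k Q => G k Q + G' k Q) = ggN m d Mn s θ P0 G + ggN m d Mn s θ P0 G' := by
  simp only [ggN, ggC_add, mul_add, Finset.sum_add_distrib]

theorem ggN_smul (P0 : Sys X) (c : ℝ) (G : ℕ → Sys X → ℝ) :
    ggN m d Mn s θ P0 (fun k Q => c * G k Q) = c * ggN m d Mn s θ P0 G := by
  simp only [ggN, ggC_smul, Finset.mul_sum]
  refine Finset.sum_congr rfl (fun w _ => by ring)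

theorem ggN_mono (hm : Exps m) (hMn : Item (d + 1) (1 / 2) (3 / 2) Mn) (hθ : 0 < θ) {P0 : Sys X}
    (hP : Prob (d + 1) P0) {G G' : ℕ → Sys X → ℝ}
    (h : ∀ k, k ≤ s → ∀ Q, Prob d Q → G k Q ≤ G' k Q) :
    ggN m d Mn s θ P0 G ≤ ggN m d Mn s θ P0 G' := by
  refine Finset.sum_le_sum (fun k hk => ?_)
  exact mul_le_mul_of_nonneg_left
    (ggC_mono hm hMn hP k (h k (Nat.lt_succ_iff.1 (Finset.mem_range.1 hk)))) (by positivity)

theorem ggZ_pos (hm : Exps m) (hMn : Item (d + 1) (1 / 2) (3 / 2) Mn) (hθ : 0 < θ) {P0 : Sys X}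
    (hP : Prob (d + 1) P0) : 0 < ggZ m d Mn s θ P0 := by
  refine Finset.sum_pos (fun k hk => ?_) ⟨0, Finset.mem_range.2 (Nat.succ_pos s)⟩
  have h1 : 0 < (s.choose k : ℝ) :=
    Nat.cast_pos.2 (Nat.choose_pos (Nat.lt_succ_iff.1 (Finset.mem_range.1 hk)))
  have h2 := ggC_one_pos hm hMn hP k
  positivity

theorem ggPsi_pos (hm : Exps m) (hMn : Item (d + 1) (1 / 2) (3 / 2) Mn) (hθ : 0 < θ) {P0 : Sys X}
    (hP : Prob (d + 1) P0) : 0 < ggPsi m d Mn s θ P0 :=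
  Real.rpow_pos_of_pos (ggZ_pos hm hMn hθ hP) _

/-- The Mecke identity. -/
theorem ggN_mecke (hm : Exps m) (hMn : Item (d + 1) (1 / 2) (3 / 2) Mn) {P0 : Sys X}
    (hP : Prob (d + 1) P0) {G : Sys X → ℝ} (hG : Inv d G) :
    ggN m d Mn s θ P0 (fun k Q => (k : ℝ) * G Q) =
      θ * ggN m d Mn s θ P0 (fun k Q => ((s : ℝ) - k) *
        ∑ x, Mn.p x * TA m d Q (Mn.ch x) ^ m d * G (add m d Q (Mn.ch x))) := by
  unfold ggN
  rw [Finset.sum_range_succ', Finset.sum_range_succ]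
  simp only [ggC_smul]
  simp only [Nat.cast_zero, zero_mul, mul_zero, add_zero, sub_self]
  rw [Finset.mul_sum]
  refine Finset.sum_congr rfl (fun k hk => ?_)
  rw [ggC_succ hm hMn hP k hG]
  have hk' : k ≤ s := (Finset.mem_range.1 hk).le
  have h1 : (s.choose (k + 1) : ℝ) * ((k + 1 : ℕ) : ℝ) = (s.choose k : ℝ) * ((s : ℝ) - k) := by
    rw [← Nat.cast_sub hk', ← Nat.cast_mul, ← Nat.cast_mul, Nat.choose_succ_right_eq]
  set c := ggC m d Mn P0 k
      (fun Q => ∑ x, Mn.p x * TA m d Q (Mn.ch x) ^ m d * G (add m d Q (Mn.ch x)))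
  calc (s.choose (k + 1) : ℝ) * θ ^ (k + 1) * (((k + 1 : ℕ) : ℝ) * c)
      = ((s.choose (k + 1) : ℝ) * ((k + 1 : ℕ) : ℝ)) * (θ ^ (k + 1) * c) := by ring
    _ = _ := by rw [h1]; ring

/-- Sums over the children of a node perturbed by the slot. -/
theorem gg_sum_slot (P0 : Sys X) (c : ℝ) (G : Sys X → ℝ) :
    (∑ ω : P0.ι × (slot d Mn s θ).ι, P0.p ω.1 * (slot d Mn s θ).p ω.2 *
      (TA m d (P0.ch ω.1) ((slot d Mn s θ).ch ω.2) ^ m d * c) *
        G (add m d (P0.ch ω.1) ((slot d Mn s θ).ch ω.2))) =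
      ggN m d Mn s θ P0 (fun _ => G) * (c / (1 + θ) ^ s) := by
  change (∑ ω : P0.ι × (Σ k : Fin (s + 1), (Fin k → Mn.ι)), P0.p ω.1 *
      ((s.choose ω.2.1 : ℝ) * θ ^ (ω.2.1 : ℕ) / (1 + θ) ^ s * ∏ j, Mn.p (ω.2.2 j)) *
      (TA m d (P0.ch ω.1) (ggIt d Mn ω.2.2) ^ m d * c) *
        G (add m d (P0.ch ω.1) (ggIt d Mn ω.2.2))) = _
  rw [Fintype.sum_prod_type_right, Fintype.sum_sigma, ggN, Finset.sum_range, Finset.sum_mul]
  refine Finset.sum_congr rfl (fun k _ => ?_)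
  rw [ggC, Finset.sum_comm, Finset.mul_sum, Finset.sum_mul]
  refine Finset.sum_congr rfl (fun w _ => ?_)
  rw [Finset.mul_sum, Finset.sum_mul]
  refine Finset.sum_congr rfl (fun κ _ => ?_)
  ring

theorem gg_TA_rpow (hm : Exps m) (hMn : Item (d + 1) (1 / 2) (3 / 2) Mn) (hθ : 0 < θ)
    {P0 : Sys X} (hP : Prob (d + 1) P0) :
    TA m (d + 1) P0 (slot d Mn s θ) ^ m d = ggZ m d Mn s θ P0 / (1 + θ) ^ s := by
  rw [TA_succ_rpow hm.pos (by positivity) hP
    (item_slot (by norm_num) (by norm_num) (by norm_num) hMn s hθ)]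
  have := gg_sum_slot (m := m) (d := d) (Mn := Mn) (s := s) (θ := θ) P0 1 (fun _ => 1)
  simp only [mul_one] at this
  rw [this, ggZ]; ring

theorem gg_TA (hm : Exps m) (hMn : Item (d + 1) (1 / 2) (3 / 2) Mn) (hθ : 0 < θ)
    {P0 : Sys X} (hP : Prob (d + 1) P0) :
    TA m (d + 1) P0 (slot d Mn s θ) = (((1 + θ) ^ s)⁻¹) ^ (m d)⁻¹ * ggPsi m d Mn s θ P0 := by
  have h1 := TA_pos hm.pos (by positivity) hP
    (item_slot (by norm_num) (by norm_num) (by norm_num) hMn s hθ)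
  rw [ggPsi, ← Real.mul_rpow (by positivity) (ggZ_pos hm hMn hθ hP).le, mul_comm,
    ← div_eq_mul_inv, ← gg_TA_rpow hm hMn hθ hP, Real.rpow_rpow_inv h1.le (hm.pos d).ne']

theorem gg_step (hm : Exps m) (hMn : Item (d + 1) (1 / 2) (3 / 2) Mn) (hθ : 0 < θ)
    {P0 : Sys X} (hP : Prob (d + 1) P0) (G : Sys X → ℝ) :
    (∑ ω, (add m (d + 1) P0 (slot d Mn s θ)).p ω * G ((add m (d + 1) P0 (slot d Mn s θ)).ch ω)) =
      ggN m d Mn s θ P0 (fun _ => G) / ggZ m d Mn s θ P0 := by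
  have hA := item_slot (by norm_num) (by norm_num) (by norm_num) hMn s hθ
  have h1 := TA_pos hm.pos (by positivity) hP hA
  have h2 := gg_sum_slot (m := m) (d := d) (Mn := Mn) (s := s) (θ := θ) P0
    (TA m (d + 1) P0 (slot d Mn s θ) ^ m d)⁻¹ G
  have h3 := ggZ_pos (s := s) hm hMn hθ hP
  have h4 : (TA m (d + 1) P0 (slot d Mn s θ) ^ m d)⁻¹ / (1 + θ) ^ s = (ggZ m d Mn s θ P0)⁻¹ := by
    rw [gg_TA_rpow hm hMn hθ hP]
    field_simp
  rw [h4, ← div_eq_mul_inv] at h2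
  rw [← h2]
  change (∑ ω : P0.ι × (slot d Mn s θ).ι, P0.p ω.1 * (slot d Mn s θ).p ω.2 *
      (TA m d (P0.ch ω.1) ((slot d Mn s θ).ch ω.2) / TA m (d + 1) P0 (slot d Mn s θ)) ^ m d *
        G (add m d (P0.ch ω.1) ((slot d Mn s θ).ch ω.2))) = _
  refine Finset.sum_congr rfl (fun ω _ => ?_)
  rw [Real.div_rpow (TA_pos hm.pos (by positivity) (hP.2.2 ω.1) (hA.ch ω.2)).le h1.le,
    div_eq_mul_inv]

/-- The joint expectation over (number of draws, parent, child). -/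
noncomputable def ggE (m : ℕ → ℝ) (d e : ℕ) (Mn : Sys (X → ℝ)) (s : ℕ) (θ : ℝ) (S : Sys X)
    (G : ℕ × Sys X × Sys X → ℝ) : ℝ :=
  Exp e (tilt (fun k => m (d + 1 + k)) e S (ggPsi m d Mn s θ)) (fun P0 =>
    ggN m d Mn s θ P0 (fun k Q => G (k, add m (d + 1) P0 (slot d Mn s θ), Q)) /
      ggZ m d Mn s θ P0)

variable {e : ℕ} {S : Sys X}

theorem gg_psi_allAt (hm : Exps m) (hMn : Item (d + 1) (1 / 2) (3 / 2) Mn) (hθ : 0 < θ)
    (hS : Prob (d + 1 + e) S) : AllAt e S (fun Q => 0 < ggPsi m d Mn s θ Q) :=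
  hS.allAt.imp (fun _ hP => ggPsi_pos hm hMn hθ hP)

theorem gg_tilt_prob (hm : Exps m) (hMn : Item (d + 1) (1 / 2) (3 / 2) Mn) (hθ : 0 < θ)
    (hS : Prob (d + 1 + e) S) :
    Prob (d + 1 + e) (tilt (fun k => m (d + 1 + k)) e S (ggPsi m d Mn s θ)) :=
  prob_tilt (fun _ => hm.pos _) hS (gg_psi_allAt hm hMn hθ hS)

theorem ggE_eq (hm : Exps m) (hMn : Item (d + 1) (1 / 2) (3 / 2) Mn) (hθ : 0 < θ)
    (hS : Prob (d + 1 + e) S) (F : Sys X → Sys X → ℝ) :
    E1 e (add m (d + 1 + e) S (lift e (slot d Mn s θ))) F =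
      ggE m d e Mn s θ S (fun x => F x.2.1 x.2.2) := by
  rw [E1, Exp_add_lift, ggE]
  have h1 : tilt (fun k => m (d + 1 + k)) e S (fun Q => TA m (d + 1) Q (slot d Mn s θ)) =
      tilt (fun k => m (d + 1 + k)) e S (ggPsi m d Mn s θ) := by
    rw [tilt_congr (hS.allAt.imp (fun _ hP => gg_TA hm hMn hθ hP)),
      tilt_const_mul (fun _ => hm.pos _) hS.mono (gg_psi_allAt hm hMn hθ hS) (by positivity)]
  rw [h1]
  exact Exp_congr ((gg_tilt_prob hm hMn hθ hS).allAt.imp (fun _ hP => gg_step hm hMn hθ hP _))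

/-- The points on which `ggE` lives. -/
def ggGood (d s : ℕ) (x : ℕ × Sys X × Sys X) : Prop :=
  x.1 ≤ s ∧ Prob (d + 1) x.2.1 ∧ Prob d x.2.2

theorem ggE_pos (hm : Exps m) (hMn : Item (d + 1) (1 / 2) (3 / 2) Mn) (hθ : 0 < θ)
    (hS : Prob (d + 1 + e) S) : GGPos (ggGood d s) (ggE m d e Mn s θ S) where
  add f g := by
    simp only [ggE]
    rw [← Exp_add]
    congr 1; funext P0
    rw [ggN_add, add_div]
  smul c f := by
    simp only [ggE]
    rw [← Exp_const_mul]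
    congr 1; funext P0
    rw [ggN_smul, mul_div_assoc]
  mono f g h := by
    have hT := gg_tilt_prob (s := s) hm hMn hθ hS
    refine Exp_mono hT.mono (hT.allAt.imp (fun P0 hP => ?_))
    refine div_le_div_of_nonneg_right (ggN_mono hm hMn hθ hP (fun k hk Q hQ => h _ ⟨hk, ?_, hQ⟩))
      (ggZ_pos hm hMn hθ hP).le
    exact prob_add hm.pos (by positivity) hP
      (item_slot (by norm_num) (by norm_num) (by norm_num) hMn s hθ)
  one := by
    have hT := gg_tilt_prob (s := s) hm hMn hθ hS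
    exact (Exp_congr (G := fun _ => 1) (hT.allAt.imp (fun P0 hP =>
      div_self (ggZ_pos (s := s) hm hMn hθ hP).ne'))).trans (Exp_const hT.mono 1)

theorem ggE_mecke (hm : Exps m) (hMn : Item (d + 1) (1 / 2) (3 / 2) Mn) (hθ : 0 < θ)
    (hS : Prob (d + 1 + e) S) {F : Sys X → Sys X → ℝ} (hF : Inv2 d F) :
    ggE m d e Mn s θ S (fun x => (x.1 : ℝ) * F x.2.1 x.2.2) =
      θ * ggE m d e Mn s θ S (fun x => ((s : ℝ) - x.1) * plus m d Mn F x.2.1 x.2.2) := by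
  have hT := gg_tilt_prob (s := s) hm hMn hθ hS
  simp only [ggE]
  rw [← Exp_const_mul]
  refine Exp_congr (hT.allAt.imp (fun P0 hP => ?_))
  have hP' : Prob (d + 1) (add m (d + 1) P0 (slot d Mn s θ)) := prob_add hm.pos (by positivity) hP
    (item_slot (by norm_num) (by norm_num) (by norm_num) hMn s hθ)
  rw [ggN_mecke hm hMn hP (G := F (add m (d + 1) P0 (slot d Mn s θ)))
    (fun Q Q' hQ hQ' h => hF _ _ _ _ hP' hP' hQ hQ' (Proj.refl _ _) h), mul_div_assoc]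
  rfl

theorem gg_plus_le (hm : Exps m) (hMn : Item (d + 1) (1 / 2) (3 / 2) Mn)
    {F : Sys X → Sys X → ℝ} (hF : ∀ P Q, Prob (d + 1) P → Prob d Q → |F P Q| ≤ 1)
    {P Q : Sys X} (hP : Prob (d + 1) P) (hQ : Prob d Q) : |plus m d Mn F P Q| ≤ 3 / 2 := by
  unfold plus
  refine (Finset.abs_sum_le_sum_abs _ _).trans ?_
  calc ∑ κ, |Mn.p κ * TA m d Q (Mn.ch κ) ^ m d * F P (add m d Q (Mn.ch κ))|
      ≤ ∑ κ, Mn.p κ * (3 / 2) := by
        refine Finset.sum_le_sum (fun κ _ => ?_)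
        have hb := TA_bounds hm.pos (by norm_num) hQ (hMn.ch κ)
        have h0 : 0 ≤ TA m d Q (Mn.ch κ) := by linarith [hb.1]
        have h1 : TA m d Q (Mn.ch κ) ^ m d ≤ 3 / 2 := by
          calc TA m d Q (Mn.ch κ) ^ m d ≤ (3 / 2 : ℝ) ^ m d :=
                Real.rpow_le_rpow h0 hb.2 (hm.pos d).le
            _ ≤ (3 / 2 : ℝ) ^ (1 : ℝ) :=
                Real.rpow_le_rpow_of_exponent_le (by norm_num) (hm.le_one d)
            _ = 3 / 2 := Real.rpow_one _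
        have h2 := hF P _ hP (prob_add hm.pos (by norm_num) hQ (hMn.ch κ))
        have h3 := hMn.1.1 κ
        have h4 := Real.rpow_nonneg h0 (m d)
        rw [abs_mul, abs_of_nonneg (mul_nonneg h3.le h4), mul_assoc]
        refine mul_le_mul_of_nonneg_left ?_ h3.le
        calc _ ≤ TA m d Q (Mn.ch κ) ^ m d * 1 := mul_le_mul_of_nonneg_left h2 h4
          _ ≤ 3 / 2 := by simpa using h1
    _ = 3 / 2 := by rw [← Finset.sum_mul, hMn.1.2.1, one_mul]

/-- The identity `GG` with an error given by the fluctuation of the number of draws. -/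
theorem gg_of_eps (hm : Exps m) (hMn : Item (d + 1) (1 / 2) (3 / 2) Mn) (hs : 0 < s)
    (hθ1 : 1 ≤ θ) (hθ3 : θ ≤ 3) (hS : Prob (d + 1 + e) S) :
    GG m d e (add m (d + 1 + e) S (lift e (slot d Mn s θ))) Mn
      (22 * ggE m d e Mn s θ S (fun x => |(x.1 : ℝ) - ggE m d e Mn s θ S (fun x => (x.1 : ℝ))|) /
        s) := by
  intro F hF hF1
  have hθ : 0 < θ := by linarith
  rw [ggE_eq hm hMn hθ hS, ggE_eq hm hMn hθ hS, ggE_eq hm hMn hθ hS]
  refine (ggE_pos hm hMn hθ hS).algebra (K := fun x => (x.1 : ℝ)) (Nat.cast_pos.2 hs) hθ1 hθ3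
    (fun x hx => Nat.cast_le.2 hx.1) (fun x hx => hF1 _ _ hx.2.1 hx.2.2)
    (fun x hx => gg_plus_le hm hMn hF1 hx.2.1 hx.2.2)
    (fun x hx => gg_plus_le hm hMn (fun _ _ _ _ => by simp) hx.2.1 hx.2.2)
    (ggE_mecke hm hMn hθ hS hF)
    (ggE_mecke (F := fun _ _ => 1) hm hMn hθ hS (fun _ _ _ _ _ _ _ _ _ _ => rfl))

/-- The free energy as a function of the intensity. -/
noncomputable def ggFree (m : ℕ → ℝ) (d e : ℕ) (Mn : Sys (X → ℝ)) (s : ℕ) (S : Sys X) (θ : ℝ) :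
    ℝ :=
  Real.log (T (fun k => m (d + 1 + k)) e S (ggPsi m d Mn s θ))

theorem ggN_fun (P0 : Sys X) (g : ℕ → ℝ) :
    ggN m d Mn s θ P0 (fun k _ => g k) =
      ∑ k ∈ range (s + 1), (s.choose k : ℝ) * θ ^ k * ggC m d Mn P0 k (fun _ => 1) * g k := by
  unfold ggN
  refine Finset.sum_congr rfl (fun k _ => ?_)
  rw [ggC_const]; ring

theorem ggZ_shift (P0 : Sys X) (t : ℝ) :
    ggZ m d Mn s (θ * Real.exp t) P0 = ggN m d Mn s θ P0 (fun k _ => Real.exp (t * k)) := by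
  rw [ggN_fun, ggZ, ggN]
  refine Finset.sum_congr rfl (fun k _ => ?_)
  rw [mul_pow, ← Real.exp_nat_mul, mul_comm t]; ring

/-- Power mean inequality for the law of the number of draws. -/
theorem ggN_rpow_le (hm : Exps m) (hMn : Item (d + 1) (1 / 2) (3 / 2) Mn) (hθ : 0 < θ)
    {P0 : Sys X} (hP : Prob (d + 1) P0) {r : ℝ} (hr : 1 ≤ r) (t : ℝ) :
    (ggN m d Mn s θ P0 (fun k _ => Real.exp (t * k)) / ggZ m d Mn s θ P0) ^ r ≤
      ggN m d Mn s θ P0 (fun k _ => Real.exp (r * t * k)) / ggZ m d Mn s θ P0 := by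
  have hZ := ggZ_pos (s := s) hm hMn hθ hP
  have h := Real.rpow_arith_mean_le_arith_mean_rpow (range (s + 1))
    (fun k => (s.choose k : ℝ) * θ ^ k * ggC m d Mn P0 k (fun _ => 1) / ggZ m d Mn s θ P0)
    (fun k => Real.exp (t * k))
    (fun k _ => by have := ggC_one_pos hm hMn hP k; positivity)
    (by rw [← Finset.sum_div]; exact div_self hZ.ne')
    (fun k _ => (Real.exp_pos _).le) hr
  rw [ggN_fun, ggN_fun, Finset.sum_div, Finset.sum_div]
  convert h using 2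
  · refine Finset.sum_congr rfl (fun k _ => by ring)
  · rw [← Real.exp_mul]; ring_nf

theorem ggE_exp_le (hm : Exps m) (hMn : Item (d + 1) (1 / 2) (3 / 2) Mn) (hθ : 0 < θ)
    (hS : Prob (d + 1 + e) S) (h : ℝ) :
    ggE m d e Mn s θ S (fun x => Real.exp (m (d + e) * h * x.1)) ≤
      Real.exp (m (d + e) *
        (ggFree m d e Mn s S (θ * Real.exp (m d * h)) - ggFree m d e Mn s S θ)) := by
  have hT := gg_tilt_prob (s := s) hm hMn hθ hS
  have hθ' : 0 < θ * Real.exp (m d * h) := by positivity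
  have hμ := hm.pos (d + e)
  have hd := hm.pos d
  have hm' : ∀ k, 0 < m (d + 1 + k) := fun _ => hm.pos _
  set R : Sys X → ℝ := fun P0 =>
    (ggZ m d Mn s (θ * Real.exp (m d * h)) P0 / ggZ m d Mn s θ P0) ^ (m d)⁻¹ with hR
  have hRpos : ∀ P0, Prob (d + 1) P0 → 0 < R P0 := fun P0 hP =>
    Real.rpow_pos_of_pos (div_pos (ggZ_pos hm hMn hθ' hP) (ggZ_pos hm hMn hθ hP)) _
  have h1 : T (fun k => m (d + 1 + k)) e S (ggPsi m d Mn s (θ * Real.exp (m d * h))) =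
      T (fun k => m (d + 1 + k)) e S (ggPsi m d Mn s θ) *
        T (fun k => m (d + 1 + k)) e (tilt (fun k => m (d + 1 + k)) e S (ggPsi m d Mn s θ)) R := by
    rw [← T_mul hm' hS.mono (gg_psi_allAt hm hMn hθ hS) (hS.allAt.imp hRpos)]
    refine T_congr (hS.allAt.imp (fun P0 hP => ?_))
    have hZ := ggZ_pos (s := s) hm hMn hθ hP
    have hZ' := ggZ_pos (s := s) hm hMn hθ' hP
    simp only [ggPsi, hR]
    rw [← Real.mul_rpow hZ.le (div_pos hZ' hZ).le, mul_div_cancel₀ _ hZ.ne']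
  have hT0 : 0 < T (fun k => m (d + 1 + k)) e S (ggPsi m d Mn s θ) :=
    T_pos hS.mono (gg_psi_allAt hm hMn hθ hS)
  have hTR : 0 < T (fun k => m (d + 1 + k)) e
      (tilt (fun k => m (d + 1 + k)) e S (ggPsi m d Mn s θ)) R :=
    T_pos hT.mono (hT.allAt.imp hRpos)
  have h2 := Exp_rpow_le_T (m := fun k => m (d + 1 + k)) hT.mono (hT.allAt.imp hRpos) hμ
    (fun k hk => hm.anti (by omega))
  have h3 : Real.exp (m (d + e) *
        (ggFree m d e Mn s S (θ * Real.exp (m d * h)) - ggFree m d e Mn s S θ)) =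
      T (fun k => m (d + 1 + k)) e
        (tilt (fun k => m (d + 1 + k)) e S (ggPsi m d Mn s θ)) R ^ m (d + e) := by
    rw [ggFree, ggFree, h1, Real.log_mul hT0.ne' hTR.ne', Real.rpow_def_of_pos hTR]
    congr 1; ring
  rw [h3]
  refine le_trans (Exp_mono hT.mono (hT.allAt.imp (fun P0 hP => ?_))) h2
  have hZ := ggZ_pos (s := s) hm hMn hθ hP
  have hr : 1 ≤ m d / m (d + e) := by
    rw [le_div_iff₀ hμ, one_mul]; exact hm.anti (by omega)
  have h4 := ggN_rpow_le (s := s) hm hMn hθ hP hr (m (d + e) * h)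
  have h5 : m d / m (d + e) * (m (d + e) * h) = m d * h := by field_simp
  rw [h5, ← ggZ_shift P0 (m d * h)] at h4
  have h6 : 0 ≤ ggN m d Mn s θ P0 (fun k _ => Real.exp (m (d + e) * h * k)) /
      ggZ m d Mn s θ P0 := by
    rw [← ggZ_shift]
    exact (div_pos (ggZ_pos hm hMn (by positivity) hP) hZ).le
  have h7 := Real.rpow_le_rpow (Real.rpow_nonneg h6 _) h4
    (show 0 ≤ (m d)⁻¹ * m (d + e) by positivity)
  rw [← Real.rpow_mul h6, show m d / m (d + e) * ((m d)⁻¹ * m (d + e)) = 1 by field_simp,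
    Real.rpow_one, Real.rpow_mul (div_pos (ggZ_pos hm hMn hθ' hP) hZ).le] at h7
  exact h7

theorem ggFree_step (hm : Exps m) (hMn : Item (d + 1) (1 / 2) (3 / 2) Mn) (hθ : 0 < θ)
    (hS : Prob (d + 1 + e) S) {h : ℝ} (hh : 0 ≤ h) :
    0 ≤ ggFree m d e Mn s S (θ * Real.exp (m d * h)) - ggFree m d e Mn s S θ ∧
      ggFree m d e Mn s S (θ * Real.exp (m d * h)) - ggFree m d e Mn s S θ ≤ h * s := by
  have hθ' : 0 < θ * Real.exp (m d * h) := by positivity
  have hd := hm.pos d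
  have hm' : ∀ k, 0 < m (d + 1 + k) := fun _ => hm.pos _
  have hT0 : 0 < T (fun k => m (d + 1 + k)) e S (ggPsi m d Mn s θ) :=
    T_pos hS.mono (gg_psi_allAt hm hMn hθ hS)
  have hT1 : 0 < T (fun k => m (d + 1 + k)) e S (ggPsi m d Mn s (θ * Real.exp (m d * h))) :=
    T_pos hS.mono (gg_psi_allAt hm hMn hθ' hS)
  constructor
  · rw [sub_nonneg]
    refine Real.log_le_log hT0 (T_mono hm' hS.mono (hS.allAt.imp (fun P0 hP =>
      ⟨ggPsi_pos hm hMn hθ hP, ?_⟩)))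
    refine Real.rpow_le_rpow (ggZ_pos hm hMn hθ hP).le ?_ (by positivity)
    rw [ggZ_shift]
    exact ggN_mono hm hMn hθ hP (fun k _ _ _ => Real.one_le_exp (by positivity))
  · have h1 : T (fun k => m (d + 1 + k)) e S (ggPsi m d Mn s (θ * Real.exp (m d * h))) ≤
        Real.exp (h * s) * T (fun k => m (d + 1 + k)) e S (ggPsi m d Mn s θ) := by
      rw [← T_const_mul hm' hS.mono (gg_psi_allAt hm hMn hθ hS) (Real.exp_pos _)]
      refine T_mono hm' hS.mono (hS.allAt.imp (fun P0 hP => ⟨ggPsi_pos hm hMn hθ' hP, ?_⟩))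
      have h2 : ggZ m d Mn s (θ * Real.exp (m d * h)) P0 ≤
          Real.exp (m d * h * s) * ggZ m d Mn s θ P0 := by
        rw [ggZ_shift, ggZ, ← ggN_smul]
        refine ggN_mono hm hMn hθ hP (fun k hk _ _ => ?_)
        rw [mul_one]
        exact Real.exp_le_exp.2 (mul_le_mul_of_nonneg_left (Nat.cast_le.2 hk) (by positivity))
      have h3 := Real.rpow_le_rpow (ggZ_pos hm hMn hθ' hP).le h2 (show 0 ≤ (m d)⁻¹ by positivity)
      rw [Real.mul_rpow (Real.exp_pos _).le (ggZ_pos hm hMn hθ hP).le, ← Real.exp_mul,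
        show m d * h * s * (m d)⁻¹ = h * s by field_simp] at h3
      exact h3
    have h4 := Real.log_le_log hT1 h1
    rw [Real.log_mul (Real.exp_pos _).ne' hT0.ne', Real.log_exp] at h4
    simp only [ggFree]
    linarith

end aux

theorem gg_slot {X : Type} {m : ℕ → ℝ} (hm : Exps m) (d e : ℕ) {Mn : Sys (X → ℝ)}
    (hMn : Item (d + 1) (1 / 2) (3 / 2) Mn) {s J : ℕ} (hs : 0 < s) (hJ : 0 < J) {S : Sys X}
    (hS : Prob (d + 1 + e) S) :
    ∃ ξ : Fin J → ℝ, (∀ j, 0 ≤ ξ j) ∧ avg ξ ≤ 1000 * (1 / (J : ℝ) + J / (m (d + e) * s)) ∧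
      ∀ j, GG m d e (add m (d + 1 + e) S (lift e (slot d Mn s (theta m d J j)))) Mn (ξ j) := by
  have hJ' : (0 : ℝ) < J := Nat.cast_pos.2 hJ
  have hs' : (0 : ℝ) < s := Nat.cast_pos.2 hs
  have hμ := hm.pos (d + e)
  have hd := hm.pos d
  set g : ℕ → ℝ := fun i => Real.exp (m d * (i : ℝ) / J) with hg
  have hgpos : ∀ i, 0 < g i := fun i => Real.exp_pos _
  have hgs : ∀ i, g (i + 1) = g i * Real.exp (m d * (1 / J)) := fun i => by
    simp only [hg]; rw [← Real.exp_add]; congr 1; push_cast; ring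
  have hgs' : ∀ i, g i = g (i + 1) * Real.exp (m d * (-(1 / J))) := fun i => by
    simp only [hg]; rw [← Real.exp_add]; congr 1; push_cast; ring
  have hth : ∀ j : Fin J, theta m d J j = g (j + 1) := fun j => by
    simp only [hg, theta]; push_cast; rfl
  set ψ : ℕ → ℝ := fun i => ggFree m d e Mn s S (g i) with hψ
  set eps : ℕ → ℝ := fun i => ggE m d e Mn s (g (i + 1)) S
    (fun x => |(x.1 : ℝ) - ggE m d e Mn s (g (i + 1)) S (fun x => (x.1 : ℝ))|) with heps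
  have heps0 : ∀ i, 0 ≤ eps i := fun i =>
    (ggE_pos hm hMn (hgpos _) hS).nonneg (fun _ _ => abs_nonneg _)
  have hconc : ∀ i, m (d + e) * (1 / J) * eps i ≤
      Real.log 2 + m (d + e) * ((ψ (i + 1 + 1) - ψ (i + 1)) - (ψ (i + 1) - ψ i)) := fun i => by
    have h1 := ggE_exp_le (s := s) hm hMn (hgpos (i + 1)) hS (1 / J)
    have h2 := ggE_exp_le (s := s) hm hMn (hgpos (i + 1)) hS (-(1 / J))
    rw [← hgs] at h1
    rw [← hgs', mul_neg] at h2
    have h3 := (ggE_pos hm hMn (hgpos (i + 1)) hS).conc h1 h2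
    simp only [hψ, heps]
    linarith
  have hsum : m (d + e) * (1 / J) * ∑ i ∈ range J, eps i ≤
      J * Real.log 2 + m (d + e) * (1 / J * s) := by
    have h1 := Finset.sum_le_sum (fun i (_ : i ∈ range J) => hconc i)
    rw [← Finset.mul_sum, Finset.sum_add_distrib, ← Finset.mul_sum,
      Finset.sum_range_sub (fun i => ψ (i + 1) - ψ i), Finset.sum_const, Finset.card_range,
      nsmul_eq_mul] at h1
    have h2 := (ggFree_step (s := s) hm hMn (hgpos J) hS (h := 1 / J) (by positivity)).2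
    have h3 := (ggFree_step (s := s) hm hMn (hgpos 0) hS (h := 1 / J) (by positivity)).1
    rw [← hgs] at h2 h3
    have h4 : ψ (J + 1) - ψ J - (ψ (0 + 1) - ψ 0) ≤ 1 / J * s := by
      simp only [hψ]; linarith
    nlinarith
  refine ⟨fun j => 22 * eps j / s, fun j => by have := heps0 j; positivity, ?_, fun j => ?_⟩
  · have hlog : Real.log 2 ≤ 1 := by
      have := Real.log_le_sub_one_of_pos (show (0 : ℝ) < 2 by norm_num); linarith
    have h1 : avg (fun j : Fin J => 22 * eps j / s) =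
        22 * ((m (d + e) * (1 / J) * ∑ i ∈ range J, eps i) / (m (d + e) * s)) := by
      rw [avg, Fintype.card_fin, Finset.sum_range, ← Finset.sum_div, ← Finset.mul_sum]
      field_simp
    have h2 : (m (d + e) * (1 / J) * ∑ i ∈ range J, eps i) / (m (d + e) * s) ≤
        1 / (J : ℝ) + J / (m (d + e) * s) := by
      rw [div_le_iff₀ (by positivity)]
      have h3 : (1 / (J : ℝ) + J / (m (d + e) * s)) * (m (d + e) * s) =
          J + m (d + e) * (1 / J * s) := by field_simp; ring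
      rw [h3]
      nlinarith
    have h4 : 0 ≤ 1 / (J : ℝ) + J / (m (d + e) * s) := by positivity
    rw [h1]
    linarith
  · rw [hth]
    have hj : ((j : ℕ) : ℝ) + 1 ≤ J := by exact_mod_cast j.2
    refine gg_of_eps hm hMn hs ?_ ?_ hS
    · exact Real.one_le_exp (by positivity)
    · have h1 : m d * (((j : ℕ) + 1 : ℕ) : ℝ) / J ≤ 1 := by
        rw [div_le_one hJ']
        push_cast
        have := hm.le_one d
        nlinarith
      exact (Real.exp_le_exp.2 h1).trans Real.exp_one_lt_three.le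

end Crest.Agent.R141
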