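import Crest.Agent.R141.LabLog

/-! Row 141, module I0: Poisson interpolation and thinning (pure real analysis). -/

set_option autoImplicit false

namespace Crest.Agent.R141

open Finset Crest.ProbabilityR.Diluted

/-- Binomial mixing operator. -/
noncomputable def pinOp (x y : ℝ) (g : ℕ → ℝ) (n : ℕ) : ℝ :=
  ∑ ij ∈ antidiagonal n, (n.choose ij.1 : ℝ) * (x ^ ij.1 * y ^ ij.2 * g ij.1)

theorem pinOp_zero (x y : ℝ) (g : ℕ → ℝ) : pinOp x y g 0 = g 0 := by simp [pinOp]

theorem pinOp_succ (x y : ℝ) (g : ℕ → ℝ) (n : ℕ) :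
    pinOp x y g (n + 1) = pinOp x y (fun a => x * g (a + 1) + y * g a) n := by
  unfold pinOp
  rw [sum_antidiagonal_choose_succ_mul (fun i j => x ^ i * y ^ j * g i) n, ← sum_add_distrib]
  refine sum_congr rfl (fun ij hij => ?_)
  rw [← Nat.choose_symm_of_eq_add (mem_antidiagonal.1 hij).symm]
  ring

theorem pinOp_mono {x y : ℝ} (hx : 0 ≤ x) (hy : 0 ≤ y) {g g' : ℕ → ℝ} (h : ∀ a, g a ≤ g' a) (n : ℕ) :
    pinOp x y g n ≤ pinOp x y g' n :=
  sum_le_sum (fun ij _ => mul_le_mul_of_nonneg_left
    (mul_le_mul_of_nonneg_left (h _) (by positivity)) (by positivity))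

theorem pinOp_sub_const (x y : ℝ) (g : ℕ → ℝ) (c : ℝ) (n : ℕ) :
    pinOp x y (fun a => g a - c) n = pinOp x y g n - (x + y) ^ n * c := by
  unfold pinOp
  rw [(Commute.all x y).add_pow', sum_mul, ← sum_sub_distrib]
  refine sum_congr rfl (fun ij _ => ?_)
  rw [nsmul_eq_mul]
  ring

theorem pinOp_smul (x y r : ℝ) (g : ℕ → ℝ) (n : ℕ) :
    pinOp (r * x) (r * y) g n = r ^ n * pinOp x y g n := by
  unfold pinOp
  rw [mul_sum]
  refine sum_congr rfl (fun ij hij => ?_)
  rw [← mem_antidiagonal.1 hij]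
  ring

theorem pin_summable_exp (x : ℝ) : Summable (fun a : ℕ => ‖x ^ a / (a.factorial : ℝ)‖) :=
  (Real.summable_pow_div_factorial x).norm

theorem pin_hasSum_exp (x : ℝ) : HasSum (fun a : ℕ => x ^ a / (a.factorial : ℝ)) (Real.exp x) := by
  have h := NormedSpace.expSeries_div_hasSum_exp x
  rwa [← Real.exp_eq_exp_ℝ] at h

theorem pin_hasSum_mul_exp (x : ℝ) :
    HasSum (fun n : ℕ => (n : ℝ) * x ^ (n - 1) / (n.factorial : ℝ)) (Real.exp x) := by
  rw [← hasSum_nat_add_iff' 1]
  simp only [range_one, sum_singleton, CharP.cast_eq_zero, zero_mul, zero_div, sub_zero,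
    Nat.add_sub_cancel]
  have e : (fun n : ℕ => ((n + 1 : ℕ) : ℝ) * x ^ n / ((n + 1).factorial : ℝ)) =
      fun n : ℕ => x ^ n / (n.factorial : ℝ) := by
    funext n
    rw [Nat.factorial_succ]
    push_cast
    have : (n.factorial : ℝ) ≠ 0 := by positivity
    field_simp
  rw [e]
  exact pin_hasSum_exp x

theorem pin_summable {x A B : ℝ} (hx : 0 ≤ x) {g : ℕ → ℝ} (hg : ∀ k, |g k| ≤ A + B * k) :
    Summable (fun a : ℕ => ‖x ^ a / (a.factorial : ℝ) * g a‖) := by
  have h1 := ((pin_hasSum_exp x).summable.mul_left A).add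
    ((pin_hasSum_mul_exp x).summable.mul_left (B * x))
  refine h1.of_nonneg_of_le (fun _ => norm_nonneg _) (fun a => ?_)
  rw [Real.norm_eq_abs, abs_mul, abs_of_nonneg (by positivity)]
  refine (mul_le_mul_of_nonneg_left (hg a) (by positivity)).trans (le_of_eq ?_)
  cases a with
  | zero => simp
  | succ a => rw [Nat.add_sub_cancel]; ring

theorem hasSum_pinOp {x A B : ℝ} (hx : 0 ≤ x) (y : ℝ) {g : ℕ → ℝ} (hg : ∀ k, |g k| ≤ A + B * k) :
    HasSum (fun n : ℕ => pinOp x y g n / (n.factorial : ℝ))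
      ((∑' a, x ^ a / (a.factorial : ℝ) * g a) * Real.exp y) := by
  have h1 := pin_summable hx hg
  have h2 := pin_summable_exp y
  have e : (fun n : ℕ => pinOp x y g n / (n.factorial : ℝ)) = fun n => ∑ kl ∈ antidiagonal n,
      (x ^ kl.1 / (kl.1.factorial : ℝ) * g kl.1) * (y ^ kl.2 / (kl.2.factorial : ℝ)) := by
    funext n
    unfold pinOp
    rw [sum_div]
    refine sum_congr rfl (fun ij hij => ?_)
    rw [← mem_antidiagonal.1 hij, Nat.cast_add_choose]
    have : (ij.1.factorial : ℝ) ≠ 0 := by positivity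
    have : (ij.2.factorial : ℝ) ≠ 0 := by positivity
    have : ((ij.1 + ij.2).factorial : ℝ) ≠ 0 := by positivity
    field_simp
  rw [e, ← (pin_hasSum_exp y).tsum_eq, tsum_mul_tsum_eq_tsum_sum_antidiagonal_of_summable_norm h1 h2]
  exact (summable_norm_sum_mul_antidiagonal_of_summable_norm h1 h2).of_norm.hasSum

theorem tsum_poissonWeight_mul (x : ℝ) (g : ℕ → ℝ) :
    ∑' a, poissonWeight x a * g a = Real.exp (-x) * ∑' a, x ^ a / (a.factorial : ℝ) * g a := by
  rw [← tsum_mul_left]
  refine tsum_congr (fun a => ?_)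
  unfold poissonWeight
  ring

theorem pinOp_interp {q lam : ℝ} (hlam : 0 ≤ lam) (hq : 0 ≤ q) (n : ℕ) :
    ∀ (Φ : ℕ → ℕ → ℝ) (e : ℝ),
      (∀ a b, Φ (a + 1) b - Φ a b ≤ q * (Φ a (b + 1) - Φ a b) - e) →
      pinOp lam (lam * q) (fun a => Φ a 0) n ≤
        pinOp (lam * q) lam (fun b => Φ 0 b) n - n * (lam * q + lam) ^ (n - 1) * (lam * e) := by
  induction n with
  | zero => intro Φ e _; simp [pinOp_zero]
  | succ n ih =>
    intro Φ e h
    rw [pinOp_succ, pinOp_succ]
    have h1 := ih (fun a b => lam * Φ (a + 1) b + lam * q * Φ a b) ((lam * q + lam) * e)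
      (fun a b => by
        have k1 := mul_le_mul_of_nonneg_left (h (a + 1) b) hlam
        have k2 := mul_le_mul_of_nonneg_left (h a b) (mul_nonneg hlam hq)
        linarith)
    have h2 := pinOp_mono (mul_nonneg hlam hq) hlam
      (g := fun b => lam * Φ (0 + 1) b + lam * q * Φ 0 b)
      (g' := fun b => (lam * q * Φ 0 (b + 1) + lam * Φ 0 b) - lam * e) (fun b => by
        have k1 := mul_le_mul_of_nonneg_left (h 0 b) hlam
        linarith) n
    rw [pinOp_sub_const] at h2
    have h3 : (n : ℝ) * (lam * q + lam) ^ (n - 1) * (lam * ((lam * q + lam) * e)) =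
        n * (lam * q + lam) ^ n * (lam * e) := by
      cases n with
      | zero => simp
      | succ n => rw [Nat.add_sub_cancel]; ring
    rw [Nat.add_sub_cancel]
    push_cast
    linarith

theorem sum_site_eq_pinOp {N : ℕ} (i : Fin N) (b : ℕ) : ∀ g : ℕ → ℝ,
    ∑ site : Fin b → Fin N, g (univ.filter (fun j => site j = i)).card =
      pinOp 1 ((N : ℝ) - 1) g b := by
  induction b with
  | zero => intro g; simp [pinOp_zero]
  | succ b ih =>
    intro g
    rw [pinOp_succ, ← ih, ← (Fin.consEquiv (fun _ : Fin (b + 1) => Fin N)).sum_comp,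
      Fintype.sum_prod_type, sum_comm]
    refine sum_congr rfl (fun site _ => ?_)
    have e : ∀ x : Fin N, (univ.filter (fun j : Fin (b + 1) =>
        (Fin.consEquiv (fun _ : Fin (b + 1) => Fin N)) (x, site) j = i)).card =
        (univ.filter (fun j => site j = i)).card + if x = i then 1 else 0 := by
      intro x
      simp only [card_filter, Fin.sum_univ_succ, Fin.consEquiv_apply, Fin.cons_zero, Fin.cons_succ]
      rw [add_comm]
    simp only [e]
    have e2 : ∀ x : Fin N, g ((univ.filter (fun j => site j = i)).card + if x = i then 1 else 0) =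
        g (univ.filter (fun j => site j = i)).card + if x = i then
          (g ((univ.filter (fun j => site j = i)).card + 1) -
            g (univ.filter (fun j => site j = i)).card) else 0 := by
      intro x
      split_ifs <;> simp
    simp only [e2, sum_add_distrib, sum_const, card_univ, Fintype.card_fin, nsmul_eq_mul,
      sum_ite_eq', mem_univ, if_true]
    ring

/-- Poisson interpolation for a double sequence of linear growth. -/
theorem poisson_interp {Φ : ℕ → ℕ → ℝ} {A B q e lam : ℝ} (hlam : 0 ≤ lam) (hq : 0 ≤ q)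
    (hΦ : ∀ a b, |Φ a b| ≤ A + B * (a + b))
    (h : ∀ a b, Φ (a + 1) b - Φ a b ≤ q * (Φ a (b + 1) - Φ a b) - e) :
    ∑' a, poissonWeight lam a * Φ a 0 ≤ (∑' b, poissonWeight (lam * q) b * Φ 0 b) - lam * e := by
  have h1 := hasSum_pinOp hlam (lam * q) (g := fun a => Φ a 0) (A := A) (B := B)
    (fun k => by simpa using hΦ k 0)
  have h2 := hasSum_pinOp (mul_nonneg hlam hq) lam (g := fun b => Φ 0 b) (A := A) (B := B)
    (fun k => by simpa using hΦ 0 k)
  have h3 := h2.sub ((pin_hasSum_mul_exp (lam * q + lam)).mul_right (lam * e))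
  have h4 := hasSum_le (fun n => by
    have := div_le_div_of_nonneg_right (pinOp_interp hlam hq n Φ e h)
      (Nat.cast_nonneg n.factorial : (0 : ℝ) ≤ n.factorial)
    refine this.trans (le_of_eq ?_)
    ring) h1 h3
  rw [tsum_poissonWeight_mul, tsum_poissonWeight_mul]
  have h5 := mul_le_mul_of_nonneg_left h4 (Real.exp_pos (-(lam * q + lam))).le
  have e1 : Real.exp (-(lam * q + lam)) * Real.exp (lam * q) = Real.exp (-lam) := by
    rw [← Real.exp_add]; congr 1; ring
  have e2 : Real.exp (-(lam * q + lam)) * Real.exp lam = Real.exp (-(lam * q)) := by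
    rw [← Real.exp_add]; congr 1; ring
  have e3 : Real.exp (-(lam * q + lam)) * Real.exp (lam * q + lam) = 1 := by
    rw [← Real.exp_add]; simp
  rw [← e1, ← e2]
  calc _ = Real.exp (-(lam * q + lam)) *
        ((∑' a, lam ^ a / (a.factorial : ℝ) * Φ a 0) * Real.exp (lam * q)) := by ring
    _ ≤ _ := h5
    _ = Real.exp (-(lam * q + lam)) * Real.exp lam * (∑' a, (lam * q) ^ a / (a.factorial : ℝ) * Φ 0 a)
        - (Real.exp (-(lam * q + lam)) * Real.exp (lam * q + lam)) * (lam * e) := by ring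
    _ = _ := by rw [e3, one_mul]

/-- Poisson thinning for uniform allocation to `N` sites. -/
theorem poisson_thin {N : ℕ} (hN : 0 < N) (i : Fin N) {g : ℕ → ℝ} {A B lam : ℝ} (hlam : 0 ≤ lam)
    (hg : ∀ k, |g k| ≤ A + B * k) :
    ∑' b, poissonWeight (lam * N) b *
        avg (fun site : Fin b → Fin N => g (univ.filter (fun j => site j = i)).card) =
      ∑' k, poissonWeight lam k * g k := by
  have h1 := (hasSum_pinOp hlam (lam * (N - 1)) hg).mul_left (Real.exp (-(lam * N)))
  have hN' : (N : ℝ) ≠ 0 := by positivity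
  have e : (fun b => poissonWeight (lam * N) b *
      avg (fun site : Fin b → Fin N => g (univ.filter (fun j => site j = i)).card)) =
      fun b => Real.exp (-(lam * N)) * (pinOp lam (lam * (N - 1)) g b / (b.factorial : ℝ)) := by
    funext b
    have := pinOp_smul 1 ((N : ℝ) - 1) lam g b
    rw [mul_one] at this
    rw [this, avg, sum_site_eq_pinOp]
    simp only [poissonWeight, Fintype.card_pi, Fintype.card_fin, prod_const, card_univ]
    push_cast
    rw [mul_pow]
    field_simp
  rw [e, h1.tsum_eq, tsum_poissonWeight_mul]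
  have e1 : Real.exp (-(lam * N)) * Real.exp (lam * (N - 1)) = Real.exp (-lam) := by
    rw [← Real.exp_add]; congr 1; ring
  rw [← e1]
  ring

end Crest.Agent.R141
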