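import Crest.Agent.R141.Upper2Aux2

/-! Row 141, module I2, part 3: the interpolating double sequence `u2Phi` and its increments. -/

set_option autoImplicit false

namespace Crest.Agent.R141

open Finset Sys MeasureTheory Crest.ProbabilityR.Diluted

/-! ### measure preserving maps -/

theorem u2_mp_cons {E : Type} [MeasurableSpace E] (μ : Measure E) [IsProbabilityMeasure μ]
    (n : ℕ) : MeasurePreserving (fun z : E × (Fin n → E) => (Fin.cons z.1 z.2 : Fin (n + 1) → E))
      (μ.prod (Measure.pi fun _ : Fin n => μ)) (Measure.pi fun _ : Fin (n + 1) => μ) := by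
  have h := (measurePreserving_piFinSuccAbove (fun _ : Fin (n + 1) => μ) 0).symm
  convert h using 1
  funext z
  simp [MeasurableEquiv.piFinSuccAbove, Fin.insertNthEquiv, Fin.insertNth_zero']

theorem u2_mp_consA {E Y : Type} [MeasurableSpace E] [MeasurableSpace Y] (μ : Measure E)
    [IsProbabilityMeasure μ] (κ : Measure Y) [IsProbabilityMeasure κ] (n : ℕ) :
    MeasurePreserving
      (fun z : E × ((Fin n → E) × Y) => ((Fin.cons z.1 z.2.1 : Fin (n + 1) → E), z.2.2))
      (μ.prod ((Measure.pi fun _ : Fin n => μ).prod κ))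
      ((Measure.pi fun _ : Fin (n + 1) => μ).prod κ) := by
  have h1 := (measurePreserving_prodAssoc μ (Measure.pi fun _ : Fin n => μ) κ).symm
  have h2 := (u2_mp_cons μ n).prod (MeasurePreserving.id κ)
  exact h2.comp h1

theorem u2_mp_consB {E Y Z : Type} [MeasurableSpace E] [MeasurableSpace Y] [MeasurableSpace Z]
    (μ : Measure E) [IsProbabilityMeasure μ] (κ : Measure Y) [IsProbabilityMeasure κ]
    (ξ : Measure Z) [IsProbabilityMeasure ξ] (n : ℕ) :
    MeasurePreserving
      (fun z : E × (Z × ((Fin n → E) × Y)) =>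
        (z.2.1, ((Fin.cons z.1 z.2.2.1 : Fin (n + 1) → E), z.2.2.2)))
      (μ.prod (ξ.prod ((Measure.pi fun _ : Fin n => μ).prod κ)))
      (ξ.prod ((Measure.pi fun _ : Fin (n + 1) => μ).prod κ)) := by
  have h1 := (measurePreserving_prodAssoc μ ξ ((Measure.pi fun _ : Fin n => μ).prod κ)).symm
  have h2 := (Measure.measurePreserving_swap (μ := μ) (ν := ξ)).prod
    (MeasurePreserving.id ((Measure.pi fun _ : Fin n => μ).prod κ))
  have h3 := measurePreserving_prodAssoc ξ μ ((Measure.pi fun _ : Fin n => μ).prod κ)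
  have h4 := (MeasurePreserving.id ξ).prod (u2_mp_consA μ κ n)
  exact h4.comp (h3.comp (h2.comp h1))

theorem u2_mp_restrict {E J J' : Type} [MeasurableSpace E] [Fintype J] [Fintype J']
    (μ : Measure E) [IsProbabilityMeasure μ] (e : J' → J) (he : Function.Injective e) :
    MeasurePreserving (fun (θ : J → E) (j : J') => θ (e j)) (Measure.pi fun _ : J => μ)
      (Measure.pi fun _ : J' => μ) := by
  refine ⟨by fun_prop, ?_⟩
  have h1 : ProbabilityTheory.iIndepFun (fun (j : J) (θ : J → E) => θ j)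
      (Measure.pi fun _ : J => μ) :=
    ProbabilityTheory.iIndepFun_pi (μ := fun _ : J => μ) (X := fun _ => id)
      (fun _ => aemeasurable_id)
  have h2 := (h1.precomp he).map_fun_eq_pi_map
    (fun j => (measurable_pi_apply (e j)).aemeasurable)
  rw [h2]
  congr 1
  funext j
  exact (measurePreserving_eval (fun _ : J => μ) (e j)).map_eq

/-- Integration along a measure preserving map from a product. -/
theorem u2_fubini {E Ω Ω' : Type} [MeasurableSpace E] [MeasurableSpace Ω] [MeasurableSpace Ω']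
    {μ : Measure E} [IsProbabilityMeasure μ] {ρ : Measure Ω} [IsProbabilityMeasure ρ]
    {ρ' : Measure Ω'} {φ : E × Ω → Ω'} (hφ : MeasurePreserving φ (μ.prod ρ) ρ') {f : Ω' → ℝ}
    (hf : Integrable f ρ') :
    Integrable (fun z => ∫ θ, f (φ (θ, z)) ∂μ) ρ ∧
      ∫ w, f w ∂ρ' = ∫ z, ∫ θ, f (φ (θ, z)) ∂μ ∂ρ := by
  have h1 : Integrable (fun y => f (φ y)) (μ.prod ρ) := hφ.integrable_comp_of_integrable hf
  refine ⟨h1.integral_prod_right, ?_⟩
  rw [← integral_prod_symm _ h1, ← hφ.map_eq,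
    integral_map hφ.measurable.aemeasurable (by rw [hφ.map_eq]; exact hf.aestronglyMeasurable)]

/-! ### the double sequence -/

/-- Disorder: `a` clauses, `b` site terms, `N` fields. -/
abbrev U2Om (p N a b : ℕ) : Type := (Fin a → Inter p) × ((Fin b → Inter p) × (Fin N → ℝ))

/-- The law of the disorder. -/
noncomputable abbrev u2rho {p : ℕ} (μ : Measure (Inter p)) (ν : Measure ℝ) (N a b : ℕ) :
    Measure (U2Om p N a b) :=
  (Measure.pi fun _ : Fin a => μ).prod
    ((Measure.pi fun _ : Fin b => μ).prod (Measure.pi fun _ : Fin N => ν))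

/-- The interpolating energy. -/
noncomputable def u2W {p N a b : ℕ} (z : U2Om p N a b) (idx : Fin a → Fin p → Fin N)
    (site : Fin b → Fin N) (s : Fin N → Bool) (x : Fin b × Fin (p - 1) → Bool) : ℝ :=
  ((∑ k, z.1 k (fun l => s (idx k l))) + ∑ i, z.2.2 i * spinVal (s i)) +
    ∑ j, z.2.1 j (ext (fun l => x (j, l)) (s (site j)))

/-- The interpolating functional, averaged over the indices. -/
noncomputable def u2G (m : ℕ → ℝ) (r : ℕ) (Lab : Sys Bool) {p : ℕ} (N a b : ℕ)
    (z : U2Om p N a b) : ℝ :=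
  avg (fun idx : Fin a → Fin p → Fin N => avg (fun site : Fin b → Fin N =>
    u2F m r Lab (u2W z idx site)))

/-- The interpolating double sequence. -/
noncomputable def u2Phi (m : ℕ → ℝ) (r : ℕ) (Lab : Sys Bool) {p : ℕ} (μ : Measure (Inter p))
    (ν : Measure ℝ) (N a b : ℕ) : ℝ :=
  ∫ z, u2G m r Lab N a b z ∂(u2rho μ ν N a b)

variable {m : ℕ → ℝ} {r : ℕ} {Lab : Sys Bool} {p N : ℕ}

theorem u2W_continuous {a b : ℕ} (idx : Fin a → Fin p → Fin N) (site : Fin b → Fin N) :
    Continuous (fun z : U2Om p N a b => u2W z idx site) := by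
  unfold u2W
  fun_prop

theorem u2FW_continuous (hm : Exps m) (hL : Prob (r + 2) Lab) {a b : ℕ}
    (idx : Fin a → Fin p → Fin N) (site : Fin b → Fin N) :
    Continuous (fun z : U2Om p N a b => u2F m r Lab (u2W z idx site)) :=
  (u2F_continuous hm hL).comp (u2W_continuous idx site)

/-- The size of the disorder. -/
noncomputable def u2B {a b : ℕ} (z : U2Om p N a b) : ℝ :=
  ((∑ k, ‖z.1 k‖) + ∑ i, |z.2.2 i|) + ∑ j, ‖z.2.1 j‖

theorem u2W_abs_le {a b : ℕ} (z : U2Om p N a b) (idx : Fin a → Fin p → Fin N)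
    (site : Fin b → Fin N) (s : Fin N → Bool) (x : Fin b × Fin (p - 1) → Bool) :
    |u2W z idx site s x| ≤ u2B z := by
  unfold u2W u2B
  refine (abs_add_le _ _).trans (add_le_add ((abs_add_le _ _).trans (add_le_add ?_ ?_)) ?_)
  · exact (Finset.abs_sum_le_sum_abs _ _).trans
      (Finset.sum_le_sum (fun k _ => norm_le_pi_norm (z.1 k) _))
  · refine (Finset.abs_sum_le_sum_abs _ _).trans (Finset.sum_le_sum (fun i _ => ?_))
    rw [abs_mul]
    have : |spinVal (s i)| = 1 := by unfold spinVal; split_ifs <;> simp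
    rw [this, mul_one]
  · exact (Finset.abs_sum_le_sum_abs _ _).trans
      (Finset.sum_le_sum (fun j _ => norm_le_pi_norm (z.2.1 j) _))

theorem u2FW_abs_le (hm : Exps m) (hL : Prob (r + 2) Lab) {a b : ℕ} (z : U2Om p N a b)
    (idx : Fin a → Fin p → Fin N) (site : Fin b → Fin N) :
    |u2F m r Lab (u2W z idx site)| ≤ Real.log (Fintype.card (Fin N → Bool)) + u2B z :=
  u2F_abs_le hm hL _ (u2W_abs_le z idx site)

section integ

variable {μ : Measure (Inter p)} [IsProbabilityMeasure μ] {ν : Measure ℝ} [IsProbabilityMeasure ν]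

theorem u2_integrable_sum_abs (hν : Integrable (fun x : ℝ => x) ν) :
    Integrable (fun hs : Fin N → ℝ => ∑ i, |hs i|) (Measure.pi fun _ : Fin N => ν) :=
  integrable_finsetSum _ (fun i _ =>
    (measurePreserving_eval (fun _ : Fin N => ν) i).integrable_comp_of_integrable hν.abs)

theorem u2B_integrable (hμ : Integrable (fun θ : Inter p => ‖θ‖) μ)
    (hν : Integrable (fun x : ℝ => x) ν) (a b : ℕ) :
    Integrable (fun z : U2Om p N a b => u2B z) (u2rho μ ν N a b) :=
  (((integrable_sum_norm hμ (Fin a)).comp_fst _).add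
    (((u2_integrable_sum_abs hν).comp_snd _).comp_snd _)).add
    (((integrable_sum_norm hμ (Fin b)).comp_fst _).comp_snd _)

theorem u2B_integral (hμ : Integrable (fun θ : Inter p => ‖θ‖) μ)
    (hν : Integrable (fun x : ℝ => x) ν) (a b : ℕ) :
    ∫ z, u2B z ∂(u2rho μ ν N a b) =
      (∫ hs : Fin N → ℝ, ∑ i, |hs i| ∂(Measure.pi fun _ : Fin N => ν)) +
        (∫ θ, ‖θ‖ ∂μ) * (a + b) := by
  unfold u2B
  have i1 : Integrable (fun z : U2Om p N a b => ∑ k, ‖z.1 k‖) (u2rho μ ν N a b) :=
    (integrable_sum_norm hμ (Fin a)).comp_fst _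
  have i2 : Integrable (fun z : U2Om p N a b => ∑ i, |z.2.2 i|) (u2rho μ ν N a b) :=
    ((u2_integrable_sum_abs hν).comp_snd _).comp_snd _
  have i3 : Integrable (fun z : U2Om p N a b => ∑ j, ‖z.2.1 j‖) (u2rho μ ν N a b) :=
    ((integrable_sum_norm hμ (Fin b)).comp_fst _).comp_snd _
  have i12 : Integrable (fun z : U2Om p N a b => (∑ k, ‖z.1 k‖) + ∑ i, |z.2.2 i|)
      (u2rho μ ν N a b) := i1.add i2
  rw [integral_add i12 i3, integral_add i1 i2]
  rw [integral_fun_fst (fun θs : Fin a → Inter p => ∑ k, ‖θs k‖),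
    integral_fun_snd (fun w : (Fin b → Inter p) × (Fin N → ℝ) => ∑ i, |w.2 i|),
    integral_fun_snd (fun w : (Fin b → Inter p) × (Fin N → ℝ) => ∑ j, ‖w.1 j‖),
    integral_fun_snd (fun hs : Fin N → ℝ => ∑ i, |hs i|),
    integral_fun_fst (fun θs : Fin b → Inter p => ∑ k, ‖θs k‖),
    integral_sum_norm hμ, integral_sum_norm hμ]
  simp only [probReal_univ, smul_eq_mul, one_mul, Fintype.card_fin]
  ring

theorem u2FW_integrable (hμ : Integrable (fun θ : Inter p => ‖θ‖) μ)
    (hν : Integrable (fun x : ℝ => x) ν) (hm : Exps m) (hL : Prob (r + 2) Lab) {a b : ℕ}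
    (idx : Fin a → Fin p → Fin N) (site : Fin b → Fin N) :
    Integrable (fun z : U2Om p N a b => u2F m r Lab (u2W z idx site)) (u2rho μ ν N a b) :=
  Integrable.mono' ((integrable_const _).add (u2B_integrable hμ hν a b))
    (u2FW_continuous hm hL idx site).aestronglyMeasurable
    (Filter.Eventually.of_forall (fun z => u2FW_abs_le hm hL z idx site))

theorem u2G_integrable (hμ : Integrable (fun θ : Inter p => ‖θ‖) μ)
    (hν : Integrable (fun x : ℝ => x) ν) (hm : Exps m) (hL : Prob (r + 2) Lab) (a b : ℕ) :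
    Integrable (u2G m r Lab N a b) (u2rho μ ν N a b) :=
  u2_integrable_avg (fun idx => u2_integrable_avg (fun site =>
    u2FW_integrable hμ hν hm hL idx site))

theorem u2G_abs_le (hm : Exps m) (hL : Prob (r + 2) Lab) (hN : 1 ≤ N) {a b : ℕ}
    (z : U2Om p N a b) :
    |u2G m r Lab N a b z| ≤ Real.log (Fintype.card (Fin N → Bool)) + u2B z := by
  have : Nonempty (Fin N) := ⟨⟨0, hN⟩⟩
  refine (abs_avg_le _).trans ((avg_mono (fun idx => (abs_avg_le _).trans
    ((avg_mono (fun site => u2FW_abs_le hm hL z idx site)).trans (avg_const _).le))).trans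
    (avg_const _).le)

theorem u2Phi_abs_le (hμ : Integrable (fun θ : Inter p => ‖θ‖) μ)
    (hν : Integrable (fun x : ℝ => x) ν) (hm : Exps m) (hL : Prob (r + 2) Lab) (hN : 1 ≤ N)
    (a b : ℕ) :
    |u2Phi m r Lab μ ν N a b| ≤ (Real.log (Fintype.card (Fin N → Bool)) +
      ∫ hs : Fin N → ℝ, ∑ i, |hs i| ∂(Measure.pi fun _ : Fin N => ν)) +
        (∫ θ, ‖θ‖ ∂μ) * (a + b) := by
  have h := norm_integral_le_of_norm_le (μ := u2rho μ ν N a b) (f := u2G m r Lab N a b)
    ((integrable_const (Real.log (Fintype.card (Fin N → Bool)))).add (u2B_integrable hμ hν a b))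
    (Filter.Eventually.of_forall (fun z => u2G_abs_le hm hL hN z))
  simp only [Pi.add_apply] at h
  rw [integral_add (integrable_const _) (u2B_integrable hμ hν a b), u2B_integral hμ hν] at h
  simp only [integral_const, probReal_univ, smul_eq_mul, one_mul] at h
  rw [add_assoc]
  exact h

end integ

/-! ### increments -/

theorem u2_avg_cons {J : Type} [Fintype J] {n : ℕ} (f : (Fin (n + 1) → J) → ℝ) :
    avg f = avg (fun u : Fin n → J => avg (fun j : J => f (Fin.cons j u))) := by
  unfold avg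
  rw [← (Fin.consEquiv (fun _ : Fin (n + 1) => J)).sum_comp, Fintype.sum_prod_type_right]
  simp only [Fintype.card_fun, Fintype.card_fin, Nat.cast_pow, Nat.cast_mul, pow_succ, mul_inv,
    ← Finset.mul_sum, mul_assoc]
  rfl

theorem u2G_consA {a b : ℕ} (θ : Inter p) (z : U2Om p N a b) :
    u2G m r Lab N (a + 1) b (Fin.cons θ z.1, z.2) =
      avg (fun idx : Fin a → Fin p → Fin N => avg (fun site : Fin b → Fin N =>
        avg (fun i0 : Fin p → Fin N =>
          u2F m r Lab (fun s x => u2W z idx site s x + θ (fun l => s (i0 l)))))) := by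
  unfold u2G
  rw [u2_avg_cons]
  congr 1
  funext idx
  rw [avg_comm]
  congr 1
  funext site
  congr 1
  funext i0
  congr 1
  funext s x
  simp only [u2W, Fin.sum_univ_succ, Fin.cons_zero, Fin.cons_succ]
  ring

theorem u2G_consB {a b : ℕ} (θ : Inter p) (z : U2Om p N a b) :
    u2G m r Lab N a (b + 1) (z.1, (Fin.cons θ z.2.1, z.2.2)) =
      avg (fun idx : Fin a → Fin p → Fin N => avg (fun site : Fin b → Fin N =>
        avg (fun i0 : Fin N =>
          u2F m r Lab (fun s (x : Fin (b + 1) × Fin (p - 1) → Bool) =>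
            u2W z idx site s (fun l => x (l.1.succ, l.2)) +
              θ (ext (fun l => x (0, l)) (s i0)))))) := by
  unfold u2G
  congr 1
  funext idx
  rw [u2_avg_cons]
  congr 1
  funext site
  congr 1
  funext i0
  congr 1
  funext s x
  simp only [u2W, Fin.sum_univ_succ, Fin.cons_zero, Fin.cons_succ]
  ring

theorem u2_split_inj (b q : ℕ) : Function.Injective
    (Sum.elim (fun l : Fin b × Fin q => ((l.1.succ, l.2) : Fin (b + 1) × Fin q))
      (fun l : Fin q => ((0, l) : Fin (b + 1) × Fin q))) := by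
  rintro (⟨j, l⟩ | l) (⟨j', l'⟩ | l') h
  · simp only [Sum.elim_inl, Prod.mk.injEq, Fin.succ_inj] at h
    rw [h.1, h.2]
  · simp only [Sum.elim_inl, Sum.elim_inr, Prod.mk.injEq] at h
    exact absurd h.1 (Fin.succ_ne_zero j)
  · simp only [Sum.elim_inl, Sum.elim_inr, Prod.mk.injEq] at h
    exact absurd h.1.symm (Fin.succ_ne_zero j')
  · simp only [Sum.elim_inr, Prod.mk.injEq, true_and] at h
    rw [h]

section incr

variable {μ : Measure (Inter p)} [IsProbabilityMeasure μ] {ν : Measure ℝ} [IsProbabilityMeasure ν]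

theorem u2G_inc (hp : 1 ≤ p) (hμ : Integrable (fun θ : Inter p => ‖θ‖) μ) (hfac : HasFac p μ)
    (hm : Exps m) (hL : Prob (r + 2) Lab) (hN : 1 ≤ N) {a b : ℕ} (z : U2Om p N a b) :
    (∫ θ, u2G m r Lab N (a + 1) b (Fin.cons θ z.1, z.2) ∂μ) - u2G m r Lab N a b z ≤
      p * ((∫ θ, u2G m r Lab N a (b + 1) (z.1, (Fin.cons θ z.2.1, z.2.2)) ∂μ) -
          u2G m r Lab N a b z) -
        (p - 1 : ℝ) * ∫ θ, labLog m r Lab (fun s : Fin p → Bool => Real.exp (θ s)) ∂μ := by
  have : Nonempty (Fin N) := ⟨⟨0, hN⟩⟩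
  have iA : ∀ (idx : Fin a → Fin p → Fin N) (site : Fin b → Fin N),
      Integrable (fun θ : Inter p => avg (fun i0 : Fin p → Fin N =>
          u2F m r Lab (fun s x => u2W z idx site s x + θ (fun l => s (i0 l))))) μ :=
    fun idx site => u2_integrable_avg (fun i0 => u2_integrable_of_lip hμ (fun θ θ' =>
      u2F_lip hm hL _ _ (fun s x => by
        rw [add_sub_add_left_eq_sub]
        exact norm_le_pi_norm (θ - θ') _)))
  have iB : ∀ (idx : Fin a → Fin p → Fin N) (site : Fin b → Fin N),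
      Integrable (fun θ : Inter p => avg (fun i0 : Fin N =>
          u2F m r Lab (fun s (x : Fin (b + 1) × Fin (p - 1) → Bool) =>
            u2W z idx site s (fun l => x (l.1.succ, l.2)) +
              θ (ext (fun l => x (0, l)) (s i0))))) μ :=
    fun idx site => u2_integrable_avg (fun i0 => u2_integrable_of_lip hμ (fun θ θ' =>
      u2F_lip hm hL _ _ (fun s x => by
        rw [add_sub_add_left_eq_sub]
        exact norm_le_pi_norm (θ - θ') _)))
  simp only [u2G_consA, u2G_consB]
  rw [u2_integral_avg (fun idx => u2_integrable_avg (iA idx)),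
    u2_integral_avg (fun idx => u2_integrable_avg (iB idx))]
  simp only [u2_integral_avg (iA _), u2_integral_avg (iB _)]
  set e := (p - 1 : ℝ) * ∫ θ, labLog m r Lab (fun s : Fin p → Bool => Real.exp (θ s)) ∂μ
    with he
  unfold u2G
  rw [← avg_sub, ← avg_sub, ← avg_const_mul, ← avg_const (I := Fin a → Fin p → Fin N) e,
    ← avg_sub]
  refine avg_mono (fun idx => ?_)
  rw [← avg_sub, ← avg_sub, ← avg_const_mul, ← avg_const (I := Fin b → Fin N) e, ← avg_sub]
  refine avg_mono (fun site => ?_)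
  exact u2_inc hp hμ hfac hm hL (fun (i : Fin N) (s : Fin N → Bool) => s i) _ _
    (u2_split_inj b (p - 1)) (u2W z idx site)

theorem u2_int_mono {Ω : Type} [MeasurableSpace Ω] {ρ : Measure Ω} [IsProbabilityMeasure ρ]
    {f g h : Ω → ℝ} (hf : Integrable f ρ) (hg : Integrable g ρ) (hh : Integrable h ρ) {c e : ℝ}
    (H : ∀ z, f z - h z ≤ c * (g z - h z) - e) :
    (∫ z, f z ∂ρ) - ∫ z, h z ∂ρ ≤ c * ((∫ z, g z ∂ρ) - ∫ z, h z ∂ρ) - e := by
  have i1 : Integrable (fun z => c * (g z - h z)) ρ := (hg.sub hh).const_mul c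
  have h1 := integral_mono (hf.sub hh) (i1.sub (integrable_const e)) H
  simp only [Pi.sub_apply] at h1
  rw [integral_sub hf hh, integral_sub i1 (integrable_const e), integral_const_mul,
    integral_sub hg hh] at h1
  simpa using h1

theorem u2Phi_inc (hp : 1 ≤ p) (hμ : Integrable (fun θ : Inter p => ‖θ‖) μ)
    (hν : Integrable (fun x : ℝ => x) ν) (hfac : HasFac p μ)
    (hm : Exps m) (hL : Prob (r + 2) Lab) (hN : 1 ≤ N) (a b : ℕ) :
    u2Phi m r Lab μ ν N (a + 1) b - u2Phi m r Lab μ ν N a b ≤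
      p * (u2Phi m r Lab μ ν N a (b + 1) - u2Phi m r Lab μ ν N a b) -
        (p - 1 : ℝ) * ∫ θ, labLog m r Lab (fun s : Fin p → Bool => Real.exp (θ s)) ∂μ := by
  obtain ⟨iA, hA⟩ := u2_fubini (u2_mp_consA μ
    ((Measure.pi fun _ : Fin b => μ).prod (Measure.pi fun _ : Fin N => ν)) a)
    (u2G_integrable hμ hν hm hL (a + 1) b)
  obtain ⟨iB, hB⟩ := u2_fubini (u2_mp_consB μ (Measure.pi fun _ : Fin N => ν)
    (Measure.pi fun _ : Fin a => μ) b) (u2G_integrable hμ hν hm hL a (b + 1))
  have i0 := u2G_integrable (N := N) hμ hν hm hL a b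
  unfold u2Phi
  rw [hA, hB]
  exact u2_int_mono iA iB i0 (fun z => u2G_inc hp hμ hfac hm hL hN z)

end incr

end Crest.Agent.R141
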