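import Crest.Agent.R141.Upper1
import Crest.Agent.R141.PoissonInterp
import Crest.Agent.R141.Upper2Aux3

/-! Row 141, module I2: the interpolation upper bound. -/

set_option autoImplicit false

namespace Crest.Agent.R141

open Finset Sys MeasureTheory Crest.ProbabilityR.Diluted

section ends

variable {m : ℕ → ℝ} {r : ℕ} {Lab : Sys Bool} {p N : ℕ}

theorem u2G_left (hm : Exps m) (hL : Prob (r + 2) Lab) {a : ℕ} (z : U2Om p N a 0) :
    u2G m r Lab N a 0 z = (Fintype.card (Fin a → Fin p → Fin N) : ℝ)⁻¹ *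
      ∑ idx : Fin a → Fin p → Fin N, logPartition N z.1 idx z.2.2 := by
  unfold u2G
  change avg _ = avg (fun idx : Fin a → Fin p → Fin N => logPartition N z.1 idx z.2.2)
  congr 1
  funext idx
  rw [← avg_const (I := Fin 0 → Fin N) (logPartition N z.1 idx z.2.2)]
  congr 1
  funext site
  unfold logPartition
  rw [← u2F_const (Λ := Fin 0 × Fin (p - 1)) hm hL]
  congr 1
  funext s x
  simp [u2W]

/-- Enumeration of the fibre of a site. -/
noncomputable def u2en {b : ℕ} (site : Fin b → Fin N) (i : Fin N)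
    (t : Fin (univ.filter (fun j => site j = i)).card) : Fin b :=
  ((univ.filter (fun j => site j = i)).equivFin.symm t).1

theorem u2en_site {b : ℕ} (site : Fin b → Fin N) (i : Fin N)
    (t : Fin (univ.filter (fun j => site j = i)).card) : site (u2en site i t) = i :=
  (Finset.mem_filter.1 ((univ.filter (fun j => site j = i)).equivFin.symm t).2).2

theorem u2en_inj {b : ℕ} (site : Fin b → Fin N) (i : Fin N) :
    Function.Injective (u2en site i) :=
  Subtype.val_injective.comp (univ.filter (fun j => site j = i)).equivFin.symm.injective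

theorem u2en_sum {b : ℕ} (site : Fin b → Fin N) (f : Fin N → Fin b → ℝ) :
    ∑ j, f (site j) j = ∑ i, ∑ t, f i (u2en site i t) := by
  rw [← Finset.sum_fiberwise (s := univ) (g := site)]
  refine Finset.sum_congr rfl (fun i _ => ?_)
  unfold u2en
  rw [(univ.filter (fun j => site j = i)).equivFin.symm.sum_comp (fun j => f i j.1),
    Finset.sum_coe_sort _ (fun j => f i j)]
  refine Finset.sum_congr rfl (fun j hj => ?_)
  rw [(Finset.mem_filter.1 hj).2]

theorem u2F_right (hm : Exps m) (hL : Prob (r + 2) Lab) {b : ℕ} (z : U2Om p N 0 b)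
    (idx : Fin 0 → Fin p → Fin N) (site : Fin b → Fin N) :
    u2F m r Lab (u2W z idx site) = N * Real.log 2 +
      ∑ i, labLog m r Lab (siteV (z.2.2 i) (fun t => z.2.1 (u2en site i t))) := by
  have he : Function.Injective (fun x : Σ i : Fin N,
      Fin (univ.filter (fun j => site j = i)).card × Fin (p - 1) =>
        ((u2en site x.1 x.2.1, x.2.2) : Fin b × Fin (p - 1))) := by
    rintro ⟨i, t, l⟩ ⟨i', t', l'⟩ h
    simp only [Prod.mk.injEq] at h
    have hi : i = i' := by rw [← u2en_site site i t, h.1, u2en_site site i' t']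
    subst hi
    rw [u2en_inj site i h.1, h.2]
  have h1 := labLog_groups (Λ := Fin b × Fin (p - 1)) hm.pos hL
    (Λ' := fun i : Fin N => Fin (univ.filter (fun j => site j = i)).card × Fin (p - 1))
    (fun i y => (u2en site i y.1, y.2)) he
    (fun i => siteV (z.2.2 i) (fun t => z.2.1 (u2en site i t))) (fun i s => siteV_pos _ _ _)
  have h2 := labLog_const_mul (Λ := Fin b × Fin (p - 1)) hm.pos hL
    (V := fun x => ∏ i, siteV (z.2.2 i) (fun t => z.2.1 (u2en site i t))
      (fun y => x (u2en site i y.1, y.2)))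
    (fun x => Finset.prod_pos (fun i _ => siteV_pos _ _ _)) (c := 2 ^ N) (by positivity)
  rw [h1, Real.log_pow] at h2
  rw [← h2]
  unfold u2F
  congr 1
  funext x
  have h3 : ∀ s : Fin N → Bool, Real.exp (u2W z idx site s x) =
      ∏ i, Real.exp (z.2.2 i * spinVal (s i) + ∑ t, z.2.1 (u2en site i t)
        (ext (fun l => x (u2en site i t, l)) (s i))) := by
    intro s
    rw [← Real.exp_sum, Finset.sum_add_distrib,
      ← u2en_sum site (fun i j => z.2.1 j (ext (fun l => x (j, l)) (s i)))]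
    simp [u2W]
  simp only [h3]
  rw [← Fintype.piFinset_univ, ← Finset.prod_univ_sum (fun _ => Finset.univ)
    (fun (i : Fin N) (ε : Bool) => Real.exp (z.2.2 i * spinVal ε + ∑ t, z.2.1 (u2en site i t)
        (ext (fun l => x (u2en site i t, l)) ε)))]
  have h4 : (2 : ℝ) ^ N = ∏ _i : Fin N, 2 := by simp
  rw [h4, ← Finset.prod_mul_distrib]
  refine Finset.prod_congr rfl (fun i _ => ?_)
  unfold siteV
  ring

variable {μ : Measure (Inter p)} [IsProbabilityMeasure μ] {ν : Measure ℝ} [IsProbabilityMeasure ν]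

theorem u2Phi_left (hμ : Integrable (fun θ : Inter p => ‖θ‖) μ)
    (hν : Integrable (fun x : ℝ => x) ν) (hm : Exps m) (hL : Prob (r + 2) Lab) (a : ℕ) :
    u2Phi m r Lab μ ν N a 0 = ∫ θs, ∫ hs, ((Fintype.card (Fin a → Fin p → Fin N) : ℝ)⁻¹ *
        ∑ idx : Fin a → Fin p → Fin N, logPartition N θs idx hs)
      ∂(Measure.pi fun _ : Fin N => ν) ∂(Measure.pi fun _ : Fin a => μ) := by
  unfold u2Phi
  rw [integral_prod _ (u2G_integrable hμ hν hm hL a 0)]
  congr 1
  funext θs
  simp only [u2G_left hm hL]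
  rw [integral_fun_snd (fun hs : Fin N → ℝ => (Fintype.card (Fin a → Fin p → Fin N) : ℝ)⁻¹ *
        ∑ idx : Fin a → Fin p → Fin N, logPartition N θs idx hs)]
  simp only [probReal_univ, one_smul]

/-- The site term with `k` interactions. -/
noncomputable def u2g (m : ℕ → ℝ) (r : ℕ) (Lab : Sys Bool) (μ : Measure (Inter p))
    (ν : Measure ℝ) (k : ℕ) : ℝ :=
  ∫ θs, ∫ h, labLog m r Lab (siteV (k := k) h θs) ∂ν ∂(Measure.pi fun _ : Fin k => μ)

theorem u2_site_bound (hm : Exps m) (hL : Prob (r + 2) Lab) (k : ℕ)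
    (z : (Fin k → Inter p) × ℝ) :
    |labLog m r Lab (siteV z.2 z.1)| ≤ 0 + 1 * (|z.2| + ∑ j, ‖z.1 j‖) := by
  rw [zero_add, one_mul]
  exact abs_labLog_le hm.pos hL (siteV_pos _ _) (abs_log_siteV_le _ _)

theorem u2g_abs_le (hμ : Integrable (fun θ : Inter p => ‖θ‖) μ)
    (hν : Integrable (fun x : ℝ => x) ν) (hm : Exps m) (hL : Prob (r + 2) Lab) (k : ℕ) :
    |u2g m r Lab μ ν k| ≤ (∫ h, |h| ∂ν) + (∫ θ, ‖θ‖ ∂μ) * k := by
  have h := abs_integral_integral_le hμ hν (continuous_labLog_site hm.pos hL p k)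
    (u2_site_bound hm hL k)
  rw [zero_add, one_mul, Fintype.card_fin, mul_comm] at h
  exact h

theorem u2_site_integral (hμ : Integrable (fun θ : Inter p => ‖θ‖) μ)
    (hν : Integrable (fun x : ℝ => x) ν) (hm : Exps m) (hL : Prob (r + 2) Lab) {b k : ℕ}
    (e : Fin k → Fin b) (he : Function.Injective e) (i : Fin N) :
    Integrable (fun z : U2Om p N 0 b => labLog m r Lab (siteV (z.2.2 i) (fun t => z.2.1 (e t))))
      (u2rho μ ν N 0 b) ∧
    ∫ z : U2Om p N 0 b, labLog m r Lab (siteV (z.2.2 i) (fun t => z.2.1 (e t)))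
      ∂(u2rho μ ν N 0 b) = u2g m r Lab μ ν k := by
  have hφ : MeasurePreserving (fun z : U2Om p N 0 b => ((fun t => z.2.1 (e t)), z.2.2 i))
      (u2rho μ ν N 0 b) ((Measure.pi fun _ : Fin k => μ).prod ν) :=
    ((u2_mp_restrict μ e he).prod (measurePreserving_eval (fun _ : Fin N => ν) i)).comp
      measurePreserving_snd
  have hi := integrable_of_growth hμ hν (continuous_labLog_site hm.pos hL p k)
    (u2_site_bound hm hL k)
  refine ⟨hφ.integrable_comp_of_integrable hi, ?_⟩
  unfold u2g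
  rw [← integral_prod _ hi, ← hφ.map_eq,
    integral_map hφ.measurable.aemeasurable (by rw [hφ.map_eq]; exact hi.aestronglyMeasurable)]

theorem u2Phi_right (hμ : Integrable (fun θ : Inter p => ‖θ‖) μ)
    (hν : Integrable (fun x : ℝ => x) ν) (hm : Exps m) (hL : Prob (r + 2) Lab) (hN : 1 ≤ N)
    (b : ℕ) :
    u2Phi m r Lab μ ν N 0 b = N * Real.log 2 + ∑ i : Fin N, avg (fun site : Fin b → Fin N =>
      u2g m r Lab μ ν (univ.filter (fun j => site j = i)).card) := by
  have : Nonempty (Fin N) := ⟨⟨0, hN⟩⟩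
  unfold u2Phi u2G
  rw [u2_integral_avg (fun idx => u2_integrable_avg (fun site =>
    u2FW_integrable hμ hν hm hL idx site))]
  simp only [u2_integral_avg (fun site => u2FW_integrable hμ hν hm hL _ site)]
  have h1 : ∀ (idx : Fin 0 → Fin p → Fin N) (site : Fin b → Fin N),
      ∫ z, u2F m r Lab (u2W z idx site) ∂(u2rho μ ν N 0 b) = N * Real.log 2 +
        ∑ i : Fin N, u2g m r Lab μ ν (univ.filter (fun j => site j = i)).card := by
    intro idx site
    have hs := fun i => u2_site_integral (N := N) hμ hν hm hL (u2en site i) (u2en_inj site i) i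
    simp only [u2F_right hm hL]
    rw [integral_add (integrable_const _) (integrable_finsetSum _ (fun i _ => (hs i).1)),
      integral_finsetSum _ (fun i _ => (hs i).1)]
    simp only [(hs _).2, integral_const, probReal_univ, one_smul]
  simp only [h1]
  rw [avg_const, avg_add, avg_const, avg_sum]

end ends

theorem pressure_le_Pfin {p : ℕ} (hp : 1 ≤ p) {α : ℝ} (hα : 0 ≤ α) {μ : Measure (Inter p)}
    [IsProbabilityMeasure μ] {ν : Measure ℝ} [IsProbabilityMeasure ν]
    (hμ : Integrable (fun θ : Inter p => ‖θ‖) μ) (hν : Integrable (fun x : ℝ => x) ν)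
    (hfac : HasFac p μ) {m : ℕ → ℝ} (hm : Exps m) {r : ℕ} {Lab : Sys Bool}
    (hL : Prob (r + 2) Lab) {N : ℕ} (hN : 1 ≤ N) : pressure p α μ ν N ≤ Pfin p α μ ν m r Lab := by
  have : Nonempty (Fin N) := ⟨⟨0, hN⟩⟩
  have hN' : (0 : ℝ) < N := by exact_mod_cast hN
  have hlam : 0 ≤ α * N := mul_nonneg hα hN'.le
  have hlam' : 0 ≤ α * p := mul_nonneg hα (Nat.cast_nonneg p)
  have h1 := poisson_interp hlam (Nat.cast_nonneg p) (u2Phi_abs_le hμ hν hm hL hN)
    (u2Phi_inc hp hμ hν hfac hm hL hN)
  simp only [u2Phi_left hμ hν hm hL, u2Phi_right hμ hν hm hL hN] at h1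
  have hB : 0 ≤ ∫ θ, ‖θ‖ ∂μ := integral_nonneg (fun _ => norm_nonneg _)
  have hsum : ∀ i : Fin N, Summable (fun b => poissonWeight (α * p * N) b *
      avg (fun site : Fin b → Fin N =>
        u2g m r Lab μ ν (univ.filter (fun j => site j = i)).card)) := by
    intro i
    refine summable_poissonWeight_mul (mul_nonneg hlam' hN'.le) (A := ∫ h, |h| ∂ν)
      (B := ∫ θ, ‖θ‖ ∂μ) (fun b => ?_)
    refine (abs_avg_le _).trans ((avg_mono (fun site => ?_)).trans (avg_const _).le)
    refine (u2g_abs_le hμ hν hm hL _).trans (add_le_add le_rfl (mul_le_mul_of_nonneg_left ?_ hB))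
    exact_mod_cast (Finset.card_filter_le _ _).trans (by simp)
  have h2 : ∑' b, poissonWeight (α * N * p) b * (N * Real.log 2 +
      ∑ i : Fin N, avg (fun site : Fin b → Fin N =>
        u2g m r Lab μ ν (univ.filter (fun j => site j = i)).card)) =
      N * Real.log 2 + N * ∑' k, poissonWeight (α * p) k * u2g m r Lab μ ν k := by
    rw [mul_right_comm α]
    simp only [mul_add, Finset.mul_sum]
    rw [((hasSum_poissonWeight _).summable.mul_right _).tsum_add
      (summable_sum (fun i _ => hsum i)), tsum_mul_right, (hasSum_poissonWeight _).tsum_eq,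
      Summable.tsum_finsetSum (fun i _ => hsum i)]
    simp only [poisson_thin hN _ hlam' (u2g_abs_le hμ hν hm hL)]
    simp
  rw [h2] at h1
  unfold pressure Pfin
  rw [one_div, inv_mul_le_iff₀ hN']
  refine h1.trans (le_of_eq ?_)
  unfold u2g
  ring

end Crest.Agent.R141
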