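import Crest.Agent.R141.Symm
import Crest.Agent.R141.Upper2
import Crest.Agent.R141.Bridge2

/-! Row 141: assembly. -/

set_option autoImplicit false

namespace Crest.Agent.R141

open Finset Sys MeasureTheory Crest.ProbabilityR.Diluted

/-- Lower bound in terms of finite label systems. -/
theorem lower_fin {p : ℕ} (hp : 1 ≤ p) {α : ℝ} (hα : 0 ≤ α) {μ : Measure (Inter p)}
    [IsProbabilityMeasure μ] {ν : Measure ℝ} [IsProbabilityMeasure ν]
    (hμ : Integrable (fun θ : Inter p => ‖θ‖) μ) (hν : Integrable (fun x : ℝ => x) ν)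
    (hfac : HasFac p μ) {b : ℝ}
    (hb : ∀ (r : ℕ) (m : ℕ → ℝ) (Lab : Sys Bool), Exps m → (∀ d, d < r → m (d + 1) < m d) →
      Prob (r + 2) Lab → Full (r + 1) Lab → b ≤ Pfin p α μ ν m r Lab)
    {ε : ℝ} (hε : 0 < ε) : ∀ᶠ N in Filter.atTop, b - ε ≤ pressure p α μ ν N := by
  have : IsProbabilityMeasure (μ.map (center (p := p))) :=
    Measure.isProbabilityMeasure_map measurable_center.aemeasurable
  set c := α * ∫ θ, θ (fun _ => true) ∂μ with hc
  have hμ' := integrable_norm_center hμ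
  obtain ⟨C, hC⟩ := cavity (b := b - c) hp hα hμ' hν (fun r m Lab hm hs hL hF => by
    have h1 := hb r m Lab hm hs hL hF
    rw [Pfin_center hα hμ hν hm hL] at h1
    linarith) (half_pos hε)
  have h2 := ass hp hα hμ' hν (symLaw_center hfac) hC (half_pos hε)
  filter_upwards [h2, Filter.eventually_ge_atTop 1] with N h3 hN
  rw [pressure_center hα hμ hν hN]
  linarith

theorem main {p : ℕ} (hp : 1 ≤ p) {α : ℝ} (hα : 0 ≤ α) (μ : Measure (Inter p))
    [IsProbabilityMeasure μ] (ν : Measure ℝ) [IsProbabilityMeasure ν]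
    (hμ : Integrable (fun θ : Inter p => ‖θ‖) μ) (hν : Integrable (fun x : ℝ => x) ν)
    (hfac : HasFac p μ) :
    ∃ F : ℝ, Filter.Tendsto (pressure p α μ ν) Filter.atTop (nhds F) ∧
      IsGLB {B : ℝ | ∃ (r : ℕ) (m : Fin r → ℝ) (X : (Fin (r + 1) → unitInterval) → ℝ),
        AdmissibleExponents m ∧ Measurable X ∧ B = trialFunctional p α μ ν r m X} F := by
  set 𝒮 := {B : ℝ | ∃ (r : ℕ) (m : Fin r → ℝ) (X : (Fin (r + 1) → unitInterval) → ℝ),
        AdmissibleExponents m ∧ Measurable X ∧ B = trialFunctional p α μ ν r m X} with h𝒮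
  have hup : ∀ N, 1 ≤ N → pressure p α μ ν N ∈ lowerBounds 𝒮 := by
    rintro N hN B ⟨r, mm, X, hmm, hX, rfl⟩
    refine le_of_forall_pos_le_add fun ε hε => ?_
    obtain ⟨m, Lab, hm, hL, h⟩ := bridge2 (p := p) hα hμ hν hmm hX hε
    have h1 := pressure_le_Pfin hp hα hμ hν hfac hm hL hN
    have h2 := abs_le.1 h
    linarith [h2.1]
  have hne : 𝒮.Nonempty :=
    ⟨_, 0, Fin.elim0, fun _ => 0, ⟨fun a => a.elim0, fun a => a.elim0⟩, measurable_const, rfl⟩
  have hbdd : BddBelow 𝒮 := ⟨_, hup 1 le_rfl⟩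
  have hglb := isGLB_csInf hne hbdd
  refine ⟨sInf 𝒮, ?_, hglb⟩
  rw [Metric.tendsto_atTop]
  intro ε hε
  have hlow := lower_fin (b := sInf 𝒮) hp hα hμ hν hfac (fun r m Lab hm hs hL hF => by
    obtain ⟨mm, X, h1, h2, h3⟩ := bridge1 α μ ν hm hs hL hF
    exact hglb.1 ⟨r, mm, X, h1, h2, h3⟩) (half_pos hε)
  obtain ⟨N₀, hN₀⟩ := Filter.eventually_atTop.1 (hlow.and (Filter.eventually_ge_atTop 1))
  refine ⟨N₀, fun N hN => ?_⟩
  obtain ⟨h1, h2⟩ := hN₀ N hN
  have h3 := hglb.2 (hup N h2)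
  rw [Real.dist_eq, abs_lt]
  constructor <;> linarith

end Crest.Agent.R141
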