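import Crest.Agent.R141.Tree

/-! Row 141, module I1 (analytic part): from nonnegativity of the signed tree moments to the sign
of the signed sum of log power means. -/

set_option autoImplicit false

namespace Crest.Agent.R141

open Finset Sys MeasureTheory

variable {Sp : Type}

/-- `log T (exp θ)` for a system whose leaves carry a point of `Sp`. -/
noncomputable def u1H (m : ℕ → ℝ) (d : ℕ) (Z : Sys Sp) (θ : Sp → ℝ) : ℝ :=
  Real.log (T m d Z (fun L => Real.exp (θ L.val)))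

theorem u1H_lip {m : ℕ → ℝ} (hm : ∀ d, 0 < m d) {d : ℕ} {Z : Sys Sp} (hZ : Prob d Z)
    {θ θ' : Sp → ℝ} {c : ℝ} (h : ∀ s, |θ s - θ' s| ≤ c) : |u1H m d Z θ - u1H m d Z θ'| ≤ c := by
  unfold u1H
  refine abs_log_T_sub_le hm hZ (allAt_of_forall _ _ fun Q => ⟨Real.exp_pos _, Real.exp_pos _, ?_⟩)
  simpa only [Real.log_exp] using h _

theorem u1H_const {m : ℕ → ℝ} (hm : ∀ d, 0 < m d) {d : ℕ} {Z : Sys Sp} (hZ : Prob d Z) (k : ℝ) :
    u1H m d Z (fun _ => k) = k := by
  unfold u1H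
  rw [T_const hm hZ (Real.exp_pos k), Real.log_exp]

theorem u1H_add_const {m : ℕ → ℝ} (hm : ∀ d, 0 < m d) {d : ℕ} {Z : Sys Sp} (hZ : Prob d Z)
    (θ : Sp → ℝ) (k : ℝ) : u1H m d Z (fun s => k + θ s) = k + u1H m d Z θ := by
  unfold u1H
  have hp : AllAt d Z (fun Q => 0 < Real.exp (θ Q.val)) :=
    allAt_of_forall _ _ fun Q => Real.exp_pos _
  simp only [Real.exp_add]
  rw [T_const_mul hm hZ hp (Real.exp_pos k),
    Real.log_mul (Real.exp_pos k).ne' (T_pos hZ hp).ne', Real.log_exp]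

theorem u1H_sub_const_le {m : ℕ → ℝ} (hm : ∀ d, 0 < m d) {d : ℕ} {Z : Sys Sp} (hZ : Prob d Z)
    {θ : Sp → ℝ} {k c : ℝ} (h : ∀ s, |θ s - k| ≤ c) : |u1H m d Z θ - k| ≤ c := by
  have := u1H_lip hm hZ (θ := θ) (θ' := fun _ => k) h
  rwa [u1H_const hm hZ] at this

theorem u1H_abs_le [Fintype Sp] {m : ℕ → ℝ} (hm : ∀ d, 0 < m d) {d : ℕ} {Z : Sys Sp}
    (hZ : Prob d Z) (θ : Sp → ℝ) : |u1H m d Z θ| ≤ ‖θ‖ := by
  have := u1H_sub_const_le hm hZ (θ := θ) (k := 0) (c := ‖θ‖) fun s => by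
    simpa using norm_le_pi_norm θ s
  simpa using this

theorem u1H_continuous [Fintype Sp] {m : ℕ → ℝ} (hm : ∀ d, 0 < m d) {d : ℕ} {Z : Sys Sp}
    (hZ : Prob d Z) : Continuous (u1H m d Z) := by
  have : LipschitzWith 1 (u1H m d Z) := by
    refine LipschitzWith.of_dist_le_mul fun θ θ' => ?_
    rw [Real.dist_eq, NNReal.coe_one, one_mul]
    refine u1H_lip hm hZ fun s => ?_
    rw [← Real.dist_eq]
    exact dist_le_pi_dist θ θ' s
  exact this.continuous

theorem u1H_integrable [Fintype Sp] {m : ℕ → ℝ} (hm : ∀ d, 0 < m d) {d : ℕ} {Z : Sys Sp}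
    (hZ : Prob d Z) {μ : Measure (Sp → ℝ)} (hμ : Integrable (fun θ : Sp → ℝ => ‖θ‖) μ) :
    Integrable (u1H m d Z) μ :=
  hμ.mono' (u1H_continuous hm hZ).aestronglyMeasurable
    (Filter.Eventually.of_forall fun θ => u1H_abs_le hm hZ θ)

/-- Tree moments are continuous in the leaf function. -/
theorem u1_Mom_continuous {K : ℕ} (d : ℕ) (τ : Shape Unit K d) (Z : Sys Sp) :
    Continuous (fun y : Sp → ℝ => Mom (fun (_ : Unit) => y) d τ Z) := by
  induction d generalizing Z with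
  | zero => exact continuous_apply _
  | succ d ih =>
    change Continuous (fun y : Sp → ℝ =>
      ∏ c, ∑ ω, Z.p ω * Mom (fun (_ : Unit) => y) d (τ.2 c) (Z.ch ω))
    exact continuous_finsetProd _ fun c _ => continuous_finsetSum _ fun ω _ =>
      continuous_const.mul (ih _ _)

/-- The uniform tree expansion of `log T (1 - y)`. -/
theorem u1_expansion {m : ℕ → ℝ} (hm : Exps m) (r : ℕ) {lam : ℝ} (h0 : 0 ≤ lam) (h1 : lam < 1)
    {δ : ℝ} (hδ : 0 < δ) :
    ∃ (K : ℕ) (m' : ℕ → ℝ) (μ0 : ℝ), 0 < μ0 ∧ Exps m' ∧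
      ∀ (Z : Sys Sp), Prob (r + 1) Z → ∀ y : Sp → ℝ, (∀ x, |y x| ≤ lam) →
        |Real.log (T m (r + 1) Z (fun L => 1 - y L.val)) +
          μ0⁻¹ * ∑ τ : Shape Unit K (r + 1), wt m' (r + 1) τ * Mom (fun _ => y) (r + 1) τ Z| ≤ δ := by
  set c : ℝ := -Real.log (1 - lam) with hc
  have hlam : 0 < 1 - lam := by linarith
  have hc0 : 0 ≤ c := by
    rw [hc, neg_nonneg]
    exact Real.log_nonpos hlam.le (by linarith)
  obtain ⟨μ0, hμ0, hμm, hμc, hμδ⟩ :
      ∃ μ0 : ℝ, 0 < μ0 ∧ μ0 ≤ m r ∧ μ0 * c ≤ 1 ∧ μ0 * (c ^ 2 + 1) ≤ δ := by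
    refine ⟨min (m r) (min (1 / (c + 1)) (δ / (c ^ 2 + 1))), ?_, min_le_left _ _, ?_, ?_⟩
    · have := hm.pos r
      positivity
    · have h2 : min (m r) (min (1 / (c + 1)) (δ / (c ^ 2 + 1))) ≤ 1 / (c + 1) :=
        (min_le_right _ _).trans (min_le_left _ _)
      calc _ ≤ 1 / (c + 1) * c := mul_le_mul_of_nonneg_right h2 hc0
        _ ≤ 1 := by
          rw [div_mul_eq_mul_div, div_le_one (by positivity)]
          linarith
    · have h2 : min (m r) (min (1 / (c + 1)) (δ / (c ^ 2 + 1))) ≤ δ / (c ^ 2 + 1) :=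
        (min_le_right _ _).trans (min_le_right _ _)
      calc _ ≤ δ / (c ^ 2 + 1) * (c ^ 2 + 1) := mul_le_mul_of_nonneg_right h2 (by positivity)
        _ = δ := by field_simp
  obtain ⟨K, hK⟩ := UK_approx h1 (r + 1) (ε := μ0 ^ 2) (by positivity)
  set m' : ℕ → ℝ := fun k => if k ≤ r then m k else μ0 with hm'
  have hE : Exps m' := by
    refine ⟨fun k => ?_, fun a b hab => ?_, ?_⟩
    · simp only [hm']
      split_ifs
      · exact hm.pos _
      · exact hμ0
    · simp only [hm']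
      by_cases hb : b ≤ r
      · rw [if_pos hb, if_pos (hab.trans hb)]
        exact hm.anti hab
      · rw [if_neg hb]
        split_ifs with ha
        · exact hμm.trans (hm.anti ha)
        · exact le_rfl
    · simp only [hm', Nat.zero_le, if_true, hm.zero]
  refine ⟨K, m', μ0, hμ0, hE, fun Z hZ y hy => ?_⟩
  have hT : T m (r + 1) Z (fun L => 1 - y L.val) = T m' (r + 1) Z (fun L => 1 - y L.val) :=
    T_congr_exps (fun k hk => by simp only [hm', if_pos (Nat.lt_succ_iff.1 hk)]) _ _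
  have hb := T_bounds hm.pos hZ (Φ := fun L => 1 - y L.val) (lo := 1 - lam) (hi := 1 + lam) hlam
    (allAt_of_forall _ _ fun Q => by
      have := abs_le.1 (hy Q.val)
      constructor <;> linarith [this.1, this.2])
  have hTpos : 0 < T m (r + 1) Z (fun L => 1 - y L.val) := hlam.trans_le hb.1
  have hlog : |Real.log (T m (r + 1) Z (fun L => 1 - y L.val))| ≤ c := by
    rw [abs_le]
    constructor
    · rw [hc, neg_neg]
      exact Real.log_le_log hlam hb.1
    · have h3 : Real.log (T m (r + 1) Z (fun L => 1 - y L.val)) ≤ Real.log (1 + lam) :=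
        Real.log_le_log hTpos hb.2
      have h4 : Real.log (1 + lam) + Real.log (1 - lam) ≤ 0 := by
        rw [← Real.log_mul (by linarith) hlam.ne']
        exact Real.log_nonpos (by nlinarith) (by nlinarith)
      linarith
  have h5 := abs_log_add_div_le hTpos hμ0 hlog hμc
  have h6 := hK K le_rfl m' hE Sp Z y hZ hy
  have h7 : UK m' K (r + 1) Z y =
      ∑ τ : Shape Unit K (r + 1), wt m' (r + 1) τ * Mom (fun _ => y) (r + 1) τ Z := by
    rw [← UK_eq_sum]
    simp
  have h8 : Uf m' (r + 1) Z y = 1 - T m (r + 1) Z (fun L => 1 - y L.val) ^ μ0 := by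
    rw [hT, Uf]
    simp only [hm', Nat.add_one_le_iff, lt_irrefl, if_false]
  rw [← h7]
  rw [← h8] at h5
  have h9 : |μ0⁻¹ * (Uf m' (r + 1) Z y - UK m' K (r + 1) Z y)| ≤ μ0 := by
    rw [abs_mul, abs_of_pos (inv_pos.2 hμ0)]
    calc _ ≤ μ0⁻¹ * μ0 ^ 2 := mul_le_mul_of_nonneg_left h6 (inv_pos.2 hμ0).le
      _ = μ0 := by field_simp
  have h10 : Real.log (T m (r + 1) Z (fun L => 1 - y L.val)) + μ0⁻¹ * UK m' K (r + 1) Z y =
      (Real.log (T m (r + 1) Z (fun L => 1 - y L.val)) + Uf m' (r + 1) Z y / μ0) -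
        μ0⁻¹ * (Uf m' (r + 1) Z y - UK m' K (r + 1) Z y) := by
    ring
  rw [h10]
  calc _ ≤ _ := abs_sub _ _
    _ ≤ μ0 * c ^ 2 + μ0 := add_le_add h5 h9
    _ ≤ δ := by linarith

theorem u1_log_osc {lam z z0 : ℝ} (h0 : 0 ≤ lam) (h1 : lam ≤ 1) (hz : |z| < 1) (hz0 : |z0| < 1) :
    |Real.log (1 + lam * z) - Real.log (1 + lam * z0)| ≤ |Real.log (1 + z) - Real.log (1 + z0)| := by
  wlog h : z0 ≤ z generalizing z z0
  · rw [abs_sub_comm, abs_sub_comm (Real.log (1 + z))]
    exact this hz0 hz (le_of_not_ge h)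
  have a1 := abs_lt.1 hz
  have a2 := abs_lt.1 hz0
  have p1 : 0 < 1 + z := by linarith
  have p2 : 0 < 1 + z0 := by linarith
  have p3 : 0 < 1 + lam * z := by nlinarith
  have p4 : 0 < 1 + lam * z0 := by nlinarith
  have q1 : Real.log (1 + lam * z0) ≤ Real.log (1 + lam * z) :=
    Real.log_le_log p4 (by nlinarith)
  have q2 : Real.log (1 + lam * z) + Real.log (1 + z0) ≤
      Real.log (1 + z) + Real.log (1 + lam * z0) := by
    rw [← Real.log_mul p3.ne' p2.ne', ← Real.log_mul p1.ne' p4.ne']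
    exact Real.log_le_log (by positivity) (by nlinarith)
  rw [abs_of_nonneg (by linarith)]
  exact le_trans (by linarith) (le_abs_self _)

theorem u1_abs_aux {c u v w e : ℝ} (h : |u + w * v| ≤ e) : |c * u + w * (c * v)| ≤ |c| * e := by
  rw [mul_left_comm, ← mul_add, abs_mul]
  exact mul_le_mul_of_nonneg_left h (abs_nonneg _)

section main

variable [Fintype Sp] {A : Type} [Fintype A] {Ω : Type} [MeasurableSpace Ω] {P : Measure Ω}
  [IsProbabilityMeasure P]

theorem u1_fixed_lam {m : ℕ → ℝ} (hm : Exps m) {r : ℕ} (c : A → ℝ) (Z : A → Sys Sp)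
    (hZ : ∀ a, Prob (r + 1) (Z a)) {z : Ω → Sp → ℝ} (hz : Measurable z)
    (hz1 : ∀ᵐ ω ∂P, ∀ s, |z ω s| < 1)
    (hM : ∀ (K : ℕ) (τ : Shape Unit K (r + 1)),
      0 ≤ ∫ ω, ∑ a, c a * Mom (fun (_ : Unit) s => -z ω s) (r + 1) τ (Z a) ∂P)
    {lam : ℝ} (h0 : 0 ≤ lam) (h1 : lam < 1) :
    ∫ ω, ∑ a, c a * u1H m (r + 1) (Z a) (fun s => Real.log (1 + lam * z ω s)) ∂P ≤ 0 := by
  have hC : 0 ≤ ∑ a, |c a| := Finset.sum_nonneg fun a _ => abs_nonneg _
  refine le_of_forall_pos_le_add fun ε hε => ?_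
  obtain ⟨K, m', μ0, hμ0, hE, hexp⟩ :=
    u1_expansion (Sp := Sp) hm r h0 h1 (δ := ε / (∑ a, |c a| + 1)) (by positivity)
  -- integrability of the moments
  have hMi : ∀ (τ : Shape Unit K (r + 1)) (a : A),
      Integrable (fun ω => Mom (fun (_ : Unit) s => -z ω s) (r + 1) τ (Z a)) P := by
    intro τ a
    refine (integrable_const (1 : ℝ)).mono' ?_ ?_
    · exact (((u1_Mom_continuous (r + 1) τ (Z a)).measurable).comp hz.neg).aestronglyMeasurable
    · filter_upwards [hz1] with ω hω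
      exact abs_Mom_le_one (fun _ s => by rw [abs_neg]; exact (hω s).le) τ (hZ a)
  set G : Ω → ℝ := fun ω => ∑ τ : Shape Unit K (r + 1), (wt m' (r + 1) τ * lam ^ τ.size (r + 1)) *
    ∑ a, c a * Mom (fun (_ : Unit) s => -z ω s) (r + 1) τ (Z a) with hG
  have hGi' : ∀ τ : Shape Unit K (r + 1), Integrable (fun ω =>
      ∑ a, c a * Mom (fun (_ : Unit) s => -z ω s) (r + 1) τ (Z a)) P :=
    fun τ => integrable_finsetSum _ fun a _ => (hMi τ a).const_mul _
  have hGi : Integrable G P := integrable_finsetSum _ fun τ _ => (hGi' τ).const_mul _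
  have hG0 : 0 ≤ ∫ ω, G ω ∂P := by
    rw [hG, integral_finsetSum _ fun τ _ => (hGi' τ).const_mul _]
    refine Finset.sum_nonneg fun τ _ => ?_
    rw [integral_const_mul]
    exact mul_nonneg (mul_nonneg (wt_nonneg hE _ τ) (pow_nonneg h0 _)) (hM K τ)
  have hpt : ∀ᵐ ω ∂P, |(∑ a, c a * u1H m (r + 1) (Z a) (fun s => Real.log (1 + lam * z ω s))) +
      μ0⁻¹ * G ω| ≤ ε := by
    filter_upwards [hz1] with ω hω
    have hy : ∀ s, |lam * -z ω s| ≤ lam := fun s => by
      rw [abs_mul, abs_of_nonneg h0, abs_neg]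
      exact mul_le_of_le_one_right h0 (hω s).le
    have e1 : ∀ a, u1H m (r + 1) (Z a) (fun s => Real.log (1 + lam * z ω s)) =
        Real.log (T m (r + 1) (Z a) (fun L => 1 - lam * -z ω L.val)) := by
      intro a
      unfold u1H
      congr 2
      funext L
      have := abs_le.1 (hy L.val)
      rw [Real.exp_log (by linarith [this.2])]
      ring
    have e2 : G ω = ∑ a, c a * ∑ τ : Shape Unit K (r + 1),
        wt m' (r + 1) τ * Mom (fun _ s => lam * -z ω s) (r + 1) τ (Z a) := by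
      simp only [hG, Finset.mul_sum]
      rw [Finset.sum_comm]
      refine Finset.sum_congr rfl fun a _ => Finset.sum_congr rfl fun τ _ => ?_
      rw [Mom_smul (fun _ => lam) (fun _ s => -z ω s), Shape.lprod_const]
      ring
    rw [e2, Finset.mul_sum, ← Finset.sum_add_distrib]
    refine (Finset.abs_sum_le_sum_abs _ _).trans ?_
    calc _ ≤ ∑ a, |c a| * (ε / (∑ a, |c a| + 1)) := by
          refine Finset.sum_le_sum fun a _ => ?_
          rw [e1]
          exact u1_abs_aux (hexp (Z a) (hZ a) (fun s => lam * -z ω s) hy)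
      _ ≤ ε := by
          rw [← Finset.sum_mul, ← mul_div_assoc, div_le_iff₀ (by positivity)]
          nlinarith
  have hmeas : Measurable (fun ω (s : Sp) => Real.log (1 + lam * z ω s)) := by
    refine measurable_pi_iff.2 fun s => ?_
    have := measurable_pi_iff.1 hz s
    fun_prop
  have hJm : AEStronglyMeasurable (fun ω =>
      ∑ a, c a * u1H m (r + 1) (Z a) (fun s => Real.log (1 + lam * z ω s))) P := by
    refine Measurable.aestronglyMeasurable ?_
    exact Finset.measurable_sum _ fun a _ =>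
      (((u1H_continuous hm.pos (hZ a)).measurable).comp hmeas).const_mul _
  have hsum : Integrable (fun ω =>
      (∑ a, c a * u1H m (r + 1) (Z a) (fun s => Real.log (1 + lam * z ω s))) + μ0⁻¹ * G ω) P :=
    (integrable_const ε).mono' (hJm.add (hGi.const_mul _).aestronglyMeasurable) hpt
  have hJi : Integrable (fun ω =>
      ∑ a, c a * u1H m (r + 1) (Z a) (fun s => Real.log (1 + lam * z ω s))) P := by
    have := hsum.sub (hGi.const_mul μ0⁻¹)
    refine this.congr (Filter.Eventually.of_forall fun ω => ?_)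
    simp
  have h2 : ∫ ω, ((∑ a, c a * u1H m (r + 1) (Z a) (fun s => Real.log (1 + lam * z ω s))) +
      μ0⁻¹ * G ω) ∂P ≤ ∫ _ω, ε ∂P :=
    integral_mono_ae hsum (integrable_const ε) (hpt.mono fun ω hω => (le_abs_self _).trans hω)
  rw [integral_add hJi (hGi.const_mul _), integral_const_mul] at h2
  simp only [integral_const, probReal_univ, smul_eq_mul, one_mul] at h2
  have h3 : 0 ≤ μ0⁻¹ * ∫ ω, G ω ∂P := mul_nonneg (inv_pos.2 hμ0).le hG0
  linarith

theorem u1_main [Nonempty Sp] {m : ℕ → ℝ} (hm : Exps m) {r : ℕ} (c : A → ℝ) (hc : ∑ a, c a = 0)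
    (Z : A → Sys Sp) (hZ : ∀ a, Prob (r + 1) (Z a)) {z : Ω → Sp → ℝ} (hz : Measurable z)
    {a0 : Ω → ℝ} (hz1 : ∀ᵐ ω ∂P, 0 < a0 ω ∧ ∀ s, |z ω s| < 1)
    (hint : Integrable (fun ω => ‖fun s => Real.log (a0 ω * (1 + z ω s))‖) P)
    (hM : ∀ (K : ℕ) (τ : Shape Unit K (r + 1)),
      0 ≤ ∫ ω, ∑ a, c a * Mom (fun (_ : Unit) s => -z ω s) (r + 1) τ (Z a) ∂P) :
    ∫ ω, ∑ a, c a * u1H m (r + 1) (Z a) (fun s => Real.log (a0 ω * (1 + z ω s))) ∂P ≤ 0 := by
  obtain ⟨s0⟩ := ‹Nonempty Sp›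
  set J : (Sp → ℝ) → ℝ := fun θ => ∑ a, c a * u1H m (r + 1) (Z a) θ with hJ
  have hJc : Continuous J :=
    continuous_finsetSum _ fun a _ => continuous_const.mul (u1H_continuous hm.pos (hZ a))
  have hJk : ∀ (θ : Sp → ℝ) (k : ℝ), J (fun s => k + θ s) = J θ := by
    intro θ k
    simp only [hJ, u1H_add_const hm.pos (hZ _), mul_add, Finset.sum_add_distrib, ← Finset.sum_mul,
      hc, zero_mul, zero_add]
  have hJb : ∀ (θ : Sp → ℝ) (k e : ℝ), (∀ s, |θ s - k| ≤ e) → |J θ| ≤ (∑ a, |c a|) * e := by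
    intro θ k e h
    have e1 : J θ = ∑ a, c a * (u1H m (r + 1) (Z a) θ - k) := by
      simp only [hJ, mul_sub, Finset.sum_sub_distrib, ← Finset.sum_mul, hc, zero_mul, sub_zero]
    rw [e1, Finset.sum_mul]
    refine (Finset.abs_sum_le_sum_abs _ _).trans (Finset.sum_le_sum fun a _ => ?_)
    rw [abs_mul]
    exact mul_le_mul_of_nonneg_left (u1H_sub_const_le hm.pos (hZ a) h) (abs_nonneg _)
  set lam : ℕ → ℝ := fun n => 1 - 1 / ((n : ℝ) + 1) with hlam
  have hl0 : ∀ n, 0 ≤ lam n := fun n => by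
    simp only [hlam, sub_nonneg]
    rw [div_le_one (by positivity)]
    linarith [Nat.cast_nonneg (α := ℝ) n]
  have hl1 : ∀ n, lam n < 1 := fun n => by
    simp only [hlam, sub_lt_self_iff]
    positivity
  have hlim : Filter.Tendsto lam Filter.atTop (nhds 1) := by
    have := (tendsto_const_nhds (x := (1 : ℝ))).sub
      (tendsto_one_div_add_atTop_nhds_zero_nat (𝕜 := ℝ))
    simpa [hlam] using this
  have hconv : Filter.Tendsto (fun n => ∫ ω, J (fun s => Real.log (1 + lam n * z ω s)) ∂P)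
      Filter.atTop (nhds (∫ ω, J (fun s => Real.log (a0 ω * (1 + z ω s))) ∂P)) := by
    refine tendsto_integral_of_dominated_convergence
      (fun ω => (∑ a, |c a|) * (2 * ‖fun s => Real.log (a0 ω * (1 + z ω s))‖)) (fun n => ?_)
      ((hint.const_mul _).const_mul _) (fun n => ?_) ?_
    · refine (hJc.measurable.comp (measurable_pi_iff.2 fun s => ?_)).aestronglyMeasurable
      have := measurable_pi_iff.1 hz s
      fun_prop
    · filter_upwards [hz1] with ω hω
      refine hJb _ (Real.log (1 + lam n * z ω s0)) _ fun s => ?_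
      refine (u1_log_osc (hl0 n) (hl1 n).le (hω.2 s) (hω.2 s0)).trans ?_
      have b1 := abs_lt.1 (hω.2 s)
      have b2 := abs_lt.1 (hω.2 s0)
      have e1 : Real.log (1 + z ω s) - Real.log (1 + z ω s0) =
          Real.log (a0 ω * (1 + z ω s)) - Real.log (a0 ω * (1 + z ω s0)) := by
        rw [Real.log_mul hω.1.ne' (by linarith), Real.log_mul hω.1.ne' (by linarith)]
        ring
      rw [e1]
      have n1 := norm_le_pi_norm (fun s => Real.log (a0 ω * (1 + z ω s))) s
      have n2 := norm_le_pi_norm (fun s => Real.log (a0 ω * (1 + z ω s))) s0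
      rw [Real.norm_eq_abs] at n1 n2
      refine (abs_sub _ _).trans ?_
      linarith
    · filter_upwards [hz1] with ω hω
      have e1 : J (fun s => Real.log (a0 ω * (1 + z ω s))) = J (fun s => Real.log (1 + z ω s)) := by
        rw [← hJk (fun s => Real.log (1 + z ω s)) (Real.log (a0 ω))]
        congr 1
        funext s
        have b1 := abs_lt.1 (hω.2 s)
        rw [Real.log_mul hω.1.ne' (by linarith)]
      rw [e1]
      refine (hJc.tendsto _).comp (tendsto_pi_nhds.2 fun s => ?_)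
      have b1 := abs_lt.1 (hω.2 s)
      have h2 : Filter.Tendsto (fun n => 1 + lam n * z ω s) Filter.atTop (nhds (1 + z ω s)) := by
        simpa using (hlim.mul_const (z ω s)).const_add 1
      exact h2.log (by linarith)
  exact le_of_tendsto' hconv fun n =>
    u1_fixed_lam hm c Z hZ hz (hz1.mono fun ω hω => hω.2) hM (hl0 n) (hl1 n)

end main

end Crest.Agent.R141
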