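import Crest.Agent.R141.Tree

/-! Row 141, module I1 (probabilistic part): the signed tree moments have nonnegative mean. -/

set_option autoImplicit false

namespace Crest.Agent.R141

open Finset Sys MeasureTheory ProbabilityTheory

/-- A functional that is a finite linear combination of point evaluations. -/
def u1Lin {Tt : Type} [Fintype Tt] (Λ : (Tt → ℝ) → ℝ) : Prop :=
  ∃ ρ : Tt → ℝ, ∀ G, Λ G = ∑ t, ρ t * G t

theorem u1Lin_sum {Tt J : Type} [Fintype Tt] [Fintype J] (w : J → ℝ) (x : J → Tt) :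
    u1Lin (fun G : Tt → ℝ => ∑ j, w j * G (x j)) := by
  classical
  refine ⟨fun t => ∑ j, if x j = t then w j else 0, fun G => ?_⟩
  simp only [Finset.sum_mul]
  rw [Finset.sum_comm]
  refine Finset.sum_congr rfl fun j _ => ?_
  simp

theorem u1Lin_avg {Tt J : Type} [Fintype Tt] [Fintype J] (x : J → Tt) :
    u1Lin (fun G : Tt → ℝ => avg (fun j => G (x j))) := by
  simp only [avg, Finset.mul_sum]
  exact u1Lin_sum _ x

/-- The tangent-line inequality for `x ^ (q + 1)`. -/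
theorem u1_tangent {q : ℕ} {A B : ℝ} (h : Even (q + 1) ∨ (0 ≤ A ∧ 0 ≤ B)) :
    0 ≤ A ^ (q + 1) - ((q : ℝ) + 1) * (B ^ q * A) + q * B ^ (q + 1) := by
  have key : ∀ {s : Set ℝ}, ConvexOn ℝ s (fun x : ℝ => x ^ (q + 1)) → A ∈ s → B ∈ s →
      0 ≤ A ^ (q + 1) - ((q : ℝ) + 1) * (B ^ q * A) + q * B ^ (q + 1) := by
    intro s hs hA hB
    have hd : HasDerivAt (fun x : ℝ => x ^ (q + 1)) (((q : ℝ) + 1) * B ^ q) B := by
      simpa using hasDerivAt_pow (q + 1) B
    rcases lt_trichotomy A B with hlt | heq | hgt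
    · have h1 := hs.slope_le_of_hasDerivAt hA hB hlt hd
      rw [slope_def_field, div_le_iff₀ (by linarith)] at h1
      have : B ^ (q + 1) = B ^ q * B := pow_succ _ _
      nlinarith
    · subst heq
      have : A ^ (q + 1) = A ^ q * A := pow_succ _ _
      nlinarith
    · have h1 := hs.le_slope_of_hasDerivAt hB hA hgt hd
      rw [slope_def_field, le_div_iff₀ (by linarith)] at h1
      have : B ^ (q + 1) = B ^ q * B := pow_succ _ _
      nlinarith
  rcases h with h | h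
  · exact key h.convexOn_pow (Set.mem_univ _) (Set.mem_univ _)
  · exact key (convexOn_pow (q + 1)) h.1 h.2

section prob

variable {Ω : Type} [MeasurableSpace Ω] {P : Measure Ω} [IsProbabilityMeasure P] {p : ℕ}
  {b : Ω → ℝ} {f : Fin p → Ω → Bool → ℝ} {Lf : Type} [Fintype Lf]

omit [IsProbabilityMeasure P] in
theorem u1_point (hb : Measurable b) (hf : ∀ l, Measurable (f l)) (hind : iIndepFun f P)
    (l0 : Fin p) (hid : ∀ l, IdentDistrib (f l) (f l0) P P)
    (hbf : IndepFun b (fun ω => fun l => f l ω) P) (n : ℕ) (t : Fin p → Lf → Bool) :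
    ∫ ω, (-b ω) ^ n * ∏ l, ∏ e, f l ω (t l e) ∂P =
      (∫ ω, (-b ω) ^ n ∂P) * ∏ l, ∫ ω, ∏ e, f l0 ω (t l e) ∂P := by
  have m1 : Measurable (fun x : ℝ => (-x) ^ n) := by fun_prop
  have m2 : Measurable (fun F : Fin p → Bool → ℝ => ∏ l, ∏ e, F l (t l e)) := by fun_prop
  have m3 : ∀ l, Measurable (fun F : Bool → ℝ => ∏ e, F (t l e)) := fun l => by fun_prop
  have h1 := hbf.integral_fun_comp_mul_comp (𝕜 := ℝ) hb.aemeasurable
    (measurable_pi_iff.2 hf).aemeasurable m1.aestronglyMeasurable m2.aestronglyMeasurable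
  have h2 := hind.integral_fun_prod_comp (𝕜 := ℝ) (f := fun l (F : Bool → ℝ) => ∏ e, F (t l e))
    (fun l => (hf l).aemeasurable) (fun l => (m3 l).aestronglyMeasurable)
  rw [h1, h2]
  congr 1
  exact Finset.prod_congr rfl fun l _ => ((hid l).comp (m3 l)).integral_eq

theorem u1_point_integrable (hb : Measurable b) (hf : ∀ l, Measurable (f l))
    (hz : ∀ᵐ ω ∂P, ∀ s : Fin p → Bool, |b ω * ∏ l, f l ω (s l)| < 1) (t : Fin p → Lf → Bool) :
    Integrable (fun ω => (-b ω) ^ Fintype.card Lf * ∏ l, ∏ e, f l ω (t l e)) P := by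
  refine (integrable_const (1 : ℝ)).mono' ?_ ?_
  · refine Measurable.aestronglyMeasurable ?_
    refine (hb.neg.pow_const _).mul
      (Finset.measurable_prod _ fun l _ => Finset.measurable_prod _ fun e _ => ?_)
    exact measurable_pi_iff.1 (hf l) _
  · filter_upwards [hz] with ω hω
    have e1 : (-b ω) ^ Fintype.card Lf * ∏ l, ∏ e, f l ω (t l e) =
        ∏ e : Lf, -(b ω * ∏ l, f l ω (t l e)) := by
      simp only [← neg_mul]
      rw [Finset.prod_mul_distrib, Finset.prod_const, Finset.card_univ, Finset.prod_comm]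
    rw [e1, Real.norm_eq_abs, Finset.abs_prod]
    exact Finset.prod_le_one (fun _ _ => abs_nonneg _) fun e _ => by
      rw [abs_neg]
      exact (hω fun l => t l e).le

theorem u1_multi [DecidableEq Lf] (hb : Measurable b) (hf : ∀ l, Measurable (f l))
    (hind : iIndepFun f P) (l0 : Fin p) (hid : ∀ l, IdentDistrib (f l) (f l0) P P)
    (hbf : IndepFun b (fun ω => fun l => f l ω) P)
    (hz : ∀ᵐ ω ∂P, ∀ s : Fin p → Bool, |b ω * ∏ l, f l ω (s l)| < 1)
    (Λ : Fin p → ((Lf → Bool) → ℝ) → ℝ) (hΛ : ∀ l, u1Lin (Λ l)) :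
    Integrable (fun ω => (-b ω) ^ Fintype.card Lf * ∏ l, Λ l (fun t => ∏ e, f l ω (t e))) P ∧
      ∫ ω, (-b ω) ^ Fintype.card Lf * ∏ l, Λ l (fun t => ∏ e, f l ω (t e)) ∂P =
        (∫ ω, (-b ω) ^ Fintype.card Lf ∂P) * ∏ l, Λ l (fun t => ∫ ω, ∏ e, f l0 ω (t e) ∂P) := by
  choose ρ hρ using hΛ
  have e1 : ∀ (k : ℝ) (G : Fin p → (Lf → Bool) → ℝ), k * ∏ l, Λ l (G l) =
      ∑ t : Fin p → Lf → Bool, (∏ l, ρ l (t l)) * (k * ∏ l, G l (t l)) := by
    intro k G
    simp only [hρ]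
    rw [Finset.prod_univ_sum, Fintype.piFinset_univ, Finset.mul_sum]
    refine Finset.sum_congr rfl fun t _ => ?_
    rw [Finset.prod_mul_distrib]
    ring
  have hi : ∀ t : Fin p → Lf → Bool, Integrable (fun ω => (∏ l, ρ l (t l)) *
      ((-b ω) ^ Fintype.card Lf * ∏ l, ∏ e, f l ω (t l e))) P :=
    fun t => (u1_point_integrable hb hf hz t).const_mul _
  simp only [e1]
  refine ⟨integrable_finsetSum _ fun t _ => hi t, ?_⟩
  rw [integral_finsetSum _ fun t _ => hi t]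
  refine Finset.sum_congr rfl fun t _ => ?_
  rw [integral_const_mul, u1_point hb hf hind l0 hid hbf]

end prob

/-! ### the three moment terms for fixed coefficients -/

section terms

variable {X I : Type} [Fintype I] {K d : ℕ} {τ : Shape Unit K d}

theorem u1_term1 {p : ℕ} (β : ℝ) (g : Fin p → Bool → ℝ) (spin : I → X → Bool) {S : Sys X}
    {W : Type} [Fintype W] {w : W → ℝ} {x : W → Shape.Leaf d τ → X}
    (hrep : ∀ a : Unit → X → ℝ, Mom a d τ S = ∑ ω, w ω * ∏ l, a (Shape.col d τ l) (x ω l)) :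
    avg (fun idx : Fin p → I =>
        Mom (fun (_ : Unit) y => -(β * ∏ l, g l (spin (idx l) y))) d τ S) =
      ∑ ω, w ω * ((-β) ^ Fintype.card (Shape.Leaf d τ) *
        ∏ l, avg (fun i => ∏ e, g l (spin i (x ω e)))) := by
  simp only [hrep]
  rw [avg_sum]
  refine Finset.sum_congr rfl fun ω _ => ?_
  rw [avg_const_mul, ← avg_pi_prod, ← avg_const_mul ((-β) ^ _)]
  congr 2
  funext idx
  simp only [← neg_mul]
  rw [Finset.prod_mul_distrib, Finset.prod_const, Finset.card_univ, Finset.prod_comm]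

theorem u1_labels {Λ : Type} [Fintype Λ] [DecidableEq Λ] (g : Λ → Bool → ℝ) (Lab : Sys Bool) :
    ∑ u : Λ → Lab.ι, (∏ l, Lab.p (u l)) *
        Mom (fun (_ : Unit) (s : Λ → Bool) => ∏ l, g l (s l)) d τ
          (piProd d (fun l => Lab.ch (u l))) =
      ∏ l, Exp 1 Lab (Mom (fun (_ : Unit) => g l) d τ) := by
  simp only [Exp_one]
  rw [Finset.prod_univ_sum, Fintype.piFinset_univ]
  refine Finset.sum_congr rfl fun u _ => ?_
  rw [Mom_piProd (fun l (_ : Unit) => g l), Finset.prod_mul_distrib]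

theorem u1_term3 {p : ℕ} (β : ℝ) (g : Fin p → Bool → ℝ) {Lab : Sys Bool}
    {V : Type} [Fintype V] {w : V → ℝ} {x : V → Shape.Leaf d τ → Bool}
    (hrep : ∀ a : Unit → Bool → ℝ,
      Exp 1 Lab (Mom a d τ) = ∑ v, w v * ∏ l, a (Shape.col d τ l) (x v l)) :
    ∑ u : Fin p → Lab.ι, (∏ l, Lab.p (u l)) *
        Mom (fun (_ : Unit) (s : Fin p → Bool) => -(β * ∏ l, g l (s l))) d τ
          (piProd d (fun l => Lab.ch (u l))) =
      (-β) ^ Fintype.card (Shape.Leaf d τ) * ∏ l, ∑ v, w v * ∏ e, g l (x v e) := by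
  simp only [← neg_mul]
  simp only [Mom_smul (fun _ : Unit => -β), Shape.lprod_const, Shape.card_leaf]
  simp only [mul_left_comm _ ((-β) ^ _), ← Finset.mul_sum]
  rw [u1_labels]
  simp only [hrep]

theorem u1_prod_ext {q : ℕ} (g : Fin (q + 1) → Bool → ℝ) (s : Fin (q + 1 - 1) → Bool) (ε : Bool) :
    ∏ l, g l (ext s ε l) = g (Fin.last q) ε * ∏ l : Fin q, g l.castSucc (s l) := by
  rw [Fin.prod_univ_castSucc, mul_comm]
  congr 1
  · simp [ext]
  · refine Finset.prod_congr rfl fun l _ => ?_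
    simp [ext]

theorem u1_term2 {q : ℕ} (β : ℝ) (g : Fin (q + 1) → Bool → ℝ) (spin : I → X → Bool) {S : Sys X}
    {Lab : Sys Bool} {W : Type} [Fintype W] {w : W → ℝ} {x : W → Shape.Leaf d τ → X}
    (hrep : ∀ a : Unit → X → ℝ, Mom a d τ S = ∑ ω, w ω * ∏ l, a (Shape.col d τ l) (x ω l))
    {V : Type} [Fintype V] {w' : V → ℝ} {x' : V → Shape.Leaf d τ → Bool}
    (hrep' : ∀ a : Unit → Bool → ℝ,
      Exp 1 Lab (Mom a d τ) = ∑ v, w' v * ∏ l, a (Shape.col d τ l) (x' v l)) :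
    avg (fun i : I => ∑ u : Fin (q + 1 - 1) → Lab.ι, (∏ l, Lab.p (u l)) *
        Mom (fun (_ : Unit) (y : X × (Fin (q + 1 - 1) → Bool)) =>
            -(β * ∏ l, g l (ext y.2 (spin i y.1) l))) d τ
          (prod d S (piProd d (fun l => Lab.ch (u l))))) =
      ∑ ω, w ω * ((-β) ^ Fintype.card (Shape.Leaf d τ) *
        ((∏ l : Fin q, ∑ v, w' v * ∏ e, g l.castSucc (x' v e)) *
          avg (fun i => ∏ e, g (Fin.last q) (spin i (x ω e))))) := by
  have e1 : ∀ i : I, ∑ u : Fin (q + 1 - 1) → Lab.ι, (∏ l, Lab.p (u l)) *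
        Mom (fun (_ : Unit) (y : X × (Fin (q + 1 - 1) → Bool)) =>
            -(β * ∏ l, g l (ext y.2 (spin i y.1) l))) d τ
          (prod d S (piProd d (fun l => Lab.ch (u l)))) =
      ∑ ω, w ω * ((-β) ^ Fintype.card (Shape.Leaf d τ) *
        ((∏ l : Fin q, ∑ v, w' v * ∏ e, g l.castSucc (x' v e)) *
          ∏ e, g (Fin.last q) (spin i (x ω e)))) := by
    intro i
    simp only [← neg_mul, u1_prod_ext]
    simp only [Mom_smul (fun _ : Unit => -β), Shape.lprod_const, Shape.card_leaf]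
    have e2 : ∀ u : Fin q → Lab.ι,
        Mom (fun (_ : Unit) (y : X × (Fin q → Bool)) =>
            g (Fin.last q) (spin i y.1) * ∏ l : Fin q, g l.castSucc (y.2 l)) d τ
          (prod d S (piProd d (fun l => Lab.ch (u l)))) =
        Mom (fun (_ : Unit) y => g (Fin.last q) (spin i y)) d τ S *
          Mom (fun (_ : Unit) (s : Fin q → Bool) => ∏ l : Fin q, g l.castSucc (s l)) d τ
            (piProd d (fun l => Lab.ch (u l))) := fun u =>
      Mom_prod (fun (_ : Unit) y => g (Fin.last q) (spin i y))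
        (fun (_ : Unit) (s : Fin q → Bool) => ∏ l : Fin q, g l.castSucc (s l)) d τ _ _
    have e3 := u1_labels (τ := τ) (fun l : Fin q => g l.castSucc) Lab
    simp only [hrep'] at e3
    rw [← e3]
    change ∑ u : Fin q → Lab.ι, (∏ l : Fin q, Lab.p (u l)) * ((-β) ^ Shape.size d τ *
        Mom (fun (_ : Unit) (y : X × (Fin q → Bool)) =>
            g (Fin.last q) (spin i y.1) * ∏ l : Fin q, g l.castSucc (y.2 l)) d τ
          (prod d S (piProd d (fun l => Lab.ch (u l))))) = _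
    simp only [e2, hrep, Finset.mul_sum, Finset.sum_mul]
    rw [Finset.sum_comm]
    refine Finset.sum_congr rfl fun ω _ => Finset.sum_congr rfl fun u _ => ?_
    ring
  simp only [e1]
  rw [avg_sum]
  refine Finset.sum_congr rfl fun ω _ => ?_
  rw [avg_const_mul, avg_const_mul, avg_const_mul]

end terms

/-- The signed tree moments have nonnegative mean. -/
theorem u1_moments {Ω : Type} [MeasurableSpace Ω] {P : Measure Ω} [IsProbabilityMeasure P] {q : ℕ}
    {b : Ω → ℝ} {f : Fin (q + 1) → Ω → Bool → ℝ} (hb : Measurable b) (hf : ∀ l, Measurable (f l))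
    (hind : iIndepFun f P) (l0 : Fin (q + 1)) (hid : ∀ l, IdentDistrib (f l) (f l0) P P)
    (hbf : IndepFun b (fun ω => fun l => f l ω) P)
    (hz : ∀ᵐ ω ∂P, ∀ s : Fin (q + 1) → Bool, |b ω * ∏ l, f l ω (s l)| < 1)
    (hβ : ∀ n : ℕ, 1 ≤ n → 0 ≤ ∫ ω, (-b ω) ^ n ∂P)
    (hcv : Even (q + 1) ∨ ∀ l ω s, 0 ≤ f l ω s)
    {X I : Type} [Fintype I] (spin : I → X → Bool) {K d : ℕ} (τ : Shape Unit K d) {S : Sys X}
    (hS : Prob d S) {Lab : Sys Bool} (hL : Prob (d + 1) Lab) :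
    0 ≤ ∫ ω, (avg (fun idx : Fin (q + 1) → I =>
        Mom (fun (_ : Unit) y => -(b ω * ∏ l, f l ω (spin (idx l) y))) d τ S) -
      ((q : ℝ) + 1) * avg (fun i : I => ∑ u : Fin (q + 1 - 1) → Lab.ι, (∏ l, Lab.p (u l)) *
        Mom (fun (_ : Unit) (y : X × (Fin (q + 1 - 1) → Bool)) =>
            -(b ω * ∏ l, f l ω (ext y.2 (spin i y.1) l))) d τ
          (prod d S (piProd d (fun l => Lab.ch (u l))))) +
      (q : ℝ) * ∑ u : Fin (q + 1) → Lab.ι, (∏ l, Lab.p (u l)) *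
        Mom (fun (_ : Unit) (s : Fin (q + 1) → Bool) => -(b ω * ∏ l, f l ω (s l))) d τ
          (piProd d (fun l => Lab.ch (u l)))) ∂P := by
  classical
  obtain ⟨W, _, w, x, hw0, hw1, hrep⟩ := Mom_repr τ hS
  obtain ⟨V, _, w', x', hw0', -, hrep'⟩ := Exp_one_Mom_repr τ hL
  set ΛA : W → ((Shape.Leaf d τ → Bool) → ℝ) → ℝ :=
    fun o G => avg (fun i => G (fun e => spin i (x o e))) with hΛA
  set ΛB : ((Shape.Leaf d τ → Bool) → ℝ) → ℝ := fun G => ∑ v, w' v * G (x' v) with hΛB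
  have lA : ∀ o, u1Lin (ΛA o) := fun o => u1Lin_avg _
  have lB : u1Lin ΛB := u1Lin_sum _ _
  have lC : ∀ o (l : Fin (q + 1)),
      u1Lin ((Fin.snoc (α := fun _ => ((Shape.Leaf d τ → Bool) → ℝ) → ℝ) (fun _ => ΛB) (ΛA o)) l) := by
    intro o l
    refine Fin.lastCases ?_ (fun i => ?_) l
    · rw [Fin.snoc_last]
      exact lA o
    · rw [Fin.snoc_castSucc]
      exact lB
  have m1 := fun o => u1_multi hb hf hind l0 hid hbf hz (fun _ => ΛA o) (fun _ => lA o)
  have m2 := fun o => u1_multi hb hf hind l0 hid hbf hz _ (lC o)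
  have m3 := u1_multi hb hf hind l0 hid hbf hz (fun _ => ΛB) (fun _ => lB)
  simp only [Fin.prod_univ_castSucc (n := q) (fun l => (Fin.snoc
    (α := fun _ => ((Shape.Leaf d τ → Bool) → ℝ) → ℝ) (fun _ => ΛB) (ΛA _)) l _),
    Fin.snoc_last, Fin.snoc_castSucc] at m2
  simp only [Finset.prod_const, Finset.card_univ, Fintype.card_fin] at m1 m2 m3
  set β : ℝ := ∫ ω, (-b ω) ^ Fintype.card (Shape.Leaf d τ) ∂P with hβ'
  set φ : (Shape.Leaf d τ → Bool) → ℝ := fun t => ∫ ω, ∏ e, f l0 ω (t e) ∂P with hφ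
  have hβ0 : 0 ≤ β := hβ _ (by rw [Shape.card_leaf]; exact Shape.one_le_size d τ)
  simp only [u1_term1 _ _ spin hrep, u1_term2 _ _ spin hrep hrep', u1_term3 _ _ hrep']
  have i1 := integrable_finsetSum (μ := P) Finset.univ fun o _ => (m1 o).1.const_mul (w o)
  have i2 := integrable_finsetSum (μ := P) Finset.univ fun o _ => (m2 o).1.const_mul (w o)
  have j1 := integral_finsetSum (μ := P) Finset.univ fun o _ => (m1 o).1.const_mul (w o)
  have j2 := integral_finsetSum (μ := P) Finset.univ fun o _ => (m2 o).1.const_mul (w o)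
  simp only [integral_const_mul, (m1 _).2] at j1
  simp only [integral_const_mul, (m2 _).2] at j2
  have j3 := integral_add (i1.sub (i2.const_mul ((q : ℝ) + 1))) (m3.1.const_mul (q : ℝ))
  have j4 := integral_sub i1 (i2.const_mul ((q : ℝ) + 1))
  simp only [Pi.sub_apply] at j3
  rw [j4, integral_const_mul, integral_const_mul, j1, j2, m3.2] at j3
  refine le_of_le_of_eq ?_ j3.symm
  have e4 : ∑ o, w o * (β * ΛA o φ ^ (q + 1)) -
        ((q : ℝ) + 1) * ∑ o, w o * (β * (ΛB φ ^ q * ΛA o φ)) + (q : ℝ) * (β * ΛB φ ^ (q + 1)) =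
      ∑ o, w o * β * (ΛA o φ ^ (q + 1) - ((q : ℝ) + 1) * (ΛB φ ^ q * ΛA o φ) +
        q * ΛB φ ^ (q + 1)) := by
    have : (q : ℝ) * (β * ΛB φ ^ (q + 1)) = ∑ o, w o * ((q : ℝ) * (β * ΛB φ ^ (q + 1))) := by
      rw [← Finset.sum_mul, hw1, one_mul]
    rw [this, Finset.mul_sum, ← Finset.sum_sub_distrib, ← Finset.sum_add_distrib]
    exact Finset.sum_congr rfl fun o _ => by ring
  rw [e4]
  refine Finset.sum_nonneg fun o _ => mul_nonneg (mul_nonneg (hw0 o) hβ0) (u1_tangent ?_)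
  rcases hcv with h | h
  · exact Or.inl h
  · have hφ0 : ∀ t, 0 ≤ φ t := fun t =>
      integral_nonneg fun ω => Finset.prod_nonneg fun e _ => h _ _ _
    exact Or.inr ⟨avg_nonneg fun i => hφ0 _,
      Finset.sum_nonneg fun v _ => mul_nonneg (hw0' v) (hφ0 _)⟩

end Crest.Agent.R141
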