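import Crest.Agent.R141.Tree
import Crest.Agent.R141.LabLog
import Crest.Agent.R141.Upper1AuxA
import Crest.Agent.R141.Upper1AuxB

/-! Row 141, module I1: the increment inequality behind the interpolation bound. -/

set_option autoImplicit false

namespace Crest.Agent.R141

open Finset Sys MeasureTheory Crest.ProbabilityR.Diluted

/-- `HasFactorization` together with the convexity condition (even `p`, or nonnegative `f`). -/
def HasFac (p : ℕ) (μ : Measure (Inter p)) : Prop :=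
  ∃ (Ω : Type) (_ : MeasurableSpace Ω) (P : Measure Ω) (_ : IsProbabilityMeasure P)
    (a b : Ω → ℝ) (f : Fin p → Ω → Bool → ℝ),
    Measurable a ∧ Measurable b ∧ (∀ ℓ, Measurable (f ℓ)) ∧
    ProbabilityTheory.iIndepFun f P ∧
    (∀ ℓ, ProbabilityTheory.IdentDistrib (f ℓ) (f ⟨0, Fin.pos ℓ⟩) P P) ∧
    ProbabilityTheory.IndepFun b (fun ω => fun ℓ => f ℓ ω) P ∧
    (∀ᵐ ω ∂P, 0 < a ω ∧ ∀ s : Fin p → Bool, |b ω * ∏ ℓ, f ℓ ω (s ℓ)| < 1) ∧
    (∀ n : ℕ, 1 ≤ n → Integrable (fun ω => (-b ω) ^ n) P ∧ 0 ≤ ∫ ω, (-b ω) ^ n ∂P) ∧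
    P.map (fun ω => fun s : Fin p → Bool => Real.log (a ω * (1 + b ω * ∏ ℓ, f ℓ ω (s ℓ)))) = μ ∧
    (Even p ∨ ∀ ℓ ω s, 0 ≤ f ℓ ω s)

theorem hasFac_of_even {p : ℕ} {μ : Measure (Inter p)} (hp : Even p) (h : HasFactorization p μ) :
    HasFac p μ := by
  obtain ⟨Ω, mΩ, P, hP, a, b, f, h1, h2, h3, h4, h5, h6, h7, h8, h9⟩ := h
  exact ⟨Ω, mΩ, P, hP, a, b, f, h1, h2, h3, h4, h5, h6, h7, h8, h9, Or.inl hp⟩

/-- Log-increment for a full interaction on `p` uniform sites. -/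
noncomputable def incClause {X I : Type} [Fintype I] (p : ℕ) (m : ℕ → ℝ) (r : ℕ) (S : Sys X)
    (spin : I → X → Bool) (θ : Inter p) : ℝ :=
  avg (fun idx : Fin p → I =>
    Real.log (T m (r + 1) S (fun L => Real.exp (θ (fun l => spin (idx l) L.val)))))

/-- Log-increment for an interaction on one uniform site and `p - 1` independent labels. -/
noncomputable def incSite {X I : Type} [Fintype I] (p : ℕ) (m : ℕ → ℝ) (r : ℕ) (S : Sys X)
    (spin : I → X → Bool) (Lab : Sys Bool) (θ : Inter p) : ℝ :=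
  avg (fun i : I => ∑ u : Fin (p - 1) → Lab.ι, (∏ l, Lab.p (u l)) *
    Real.log (T m (r + 1) (prod (r + 1) S (piProd (r + 1) (fun l => Lab.ch (u l))))
      (fun L => Real.exp (θ (ext L.val.2 (spin i L.val.1))))))

theorem u1H_map {Y Sp : Type} (m : ℕ → ℝ) (d : ℕ) (σ : Y → Sp) (Z : Sys Y) (θ : Sp → ℝ) :
    u1H m d (map σ d Z) θ = Real.log (T m d Z (fun L => Real.exp (θ (σ L.val)))) := by
  unfold u1H
  rw [T_map σ d Z (fun s => Real.exp (θ s))]

theorem u1_Mom_map {Y Sp : Type} {K d : ℕ} (τ : Shape Unit K d) (σ : Y → Sp) (Z : Sys Y)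
    (y : Sp → ℝ) :
    Mom (fun (_ : Unit) => y) d τ (map σ d Z) = Mom (fun (_ : Unit) x => y (σ x)) d τ Z :=
  (Mom_proj (proj_map σ d Z) (fun (_ : Unit) => y) τ).symm

theorem u1_sum_prod_p {Λ : Type} [Fintype Λ] [DecidableEq Λ] {d : ℕ} {Lab : Sys Bool}
    (hL : Prob (d + 1) Lab) : ∑ u : Λ → Lab.ι, ∏ l, Lab.p (u l) = 1 := by
  rw [← Fintype.piFinset_univ, ← Finset.prod_univ_sum (fun _ => Finset.univ) (fun _ => Lab.p)]
  simp [hL.2.1]

/-- The signed combination of the three families of systems. -/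
theorem u1_signed {q : ℕ} {I J : Type} [Fintype I] [Fintype J] (pl : J → ℝ)
    (F1 : (Fin (q + 1) → I) → ℝ) (F2 : I × (Fin (q + 1 - 1) → J) → ℝ) (F3 : (Fin (q + 1) → J) → ℝ) :
    ∑ a : (Fin (q + 1) → I) ⊕ (I × (Fin (q + 1 - 1) → J)) ⊕ (Fin (q + 1) → J),
      Sum.elim (fun _ => (Fintype.card (Fin (q + 1) → I) : ℝ)⁻¹)
        (Sum.elim (fun x => -(((q : ℝ) + 1) * ((Fintype.card I : ℝ)⁻¹ * ∏ l, pl (x.2 l))))
          (fun u => (q : ℝ) * ∏ l, pl (u l))) a * Sum.elim F1 (Sum.elim F2 F3) a =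
      avg F1 - ((q : ℝ) + 1) * avg (fun i => ∑ u, (∏ l, pl (u l)) * F2 (i, u)) +
        (q : ℝ) * ∑ u, (∏ l, pl (u l)) * F3 u := by
  simp only [Fintype.sum_sum_type, Sum.elim_inl, Sum.elim_inr, Fintype.sum_prod_type, avg,
    Finset.mul_sum, neg_mul, Finset.sum_neg_distrib, mul_assoc]
  ring

theorem increment_ineq {p : ℕ} (hp : 1 ≤ p) {μ : Measure (Inter p)} [IsProbabilityMeasure μ]
    (hμ : Integrable (fun θ : Inter p => ‖θ‖) μ) (hfac : HasFac p μ) {m : ℕ → ℝ} (hm : Exps m)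
    {r : ℕ} {X I : Type} [Fintype I] [Nonempty I] (spin : I → X → Bool) {S : Sys X}
    (hS : Prob (r + 1) S) {Lab : Sys Bool} (hL : Prob (r + 2) Lab) :
    ∫ θ, incClause p m r S spin θ ∂μ ≤
      p * ∫ θ, incSite p m r S spin Lab θ ∂μ -
        (p - 1 : ℝ) * ∫ θ, labLog m r Lab (fun s : Fin p → Bool => Real.exp (θ s)) ∂μ := by
  obtain ⟨q, rfl⟩ : ∃ q, p = q + 1 := ⟨p - 1, by omega⟩
  obtain ⟨Ω, _, P, _, a, b, f, ha, hb, hf, hind, hid, hbf, hz, hβ, hmap, hcv⟩ := hfac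
  set Z1 : (Fin (q + 1) → I) → Sys (Fin (q + 1) → Bool) :=
    fun idx => map (fun y l => spin (idx l) y) (r + 1) S with hZ1
  set Z2 : I × (Fin (q + 1 - 1) → Lab.ι) → Sys (Fin (q + 1) → Bool) :=
    fun x => map (fun y : X × (Fin (q + 1 - 1) → Bool) => ext y.2 (spin x.1 y.1)) (r + 1)
      (prod (r + 1) S (piProd (r + 1) (fun l => Lab.ch (x.2 l)))) with hZ2
  set Z3 : (Fin (q + 1) → Lab.ι) → Sys (Fin (q + 1) → Bool) :=
    fun u => piProd (r + 1) (fun l => Lab.ch (u l)) with hZ3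
  have p1 : ∀ x, Prob (r + 1) (Z1 x) := fun x => prob_map _ hS
  have p2 : ∀ x, Prob (r + 1) (Z2 x) := fun x =>
    prob_map _ (prob_prod hS (prob_piProd fun l => hL.2.2 _))
  have p3 : ∀ x, Prob (r + 1) (Z3 x) := fun x => prob_piProd fun l => hL.2.2 _
  have e1 : ∀ θ, incClause (q + 1) m r S spin θ = avg (fun x => u1H m (r + 1) (Z1 x) θ) := by
    intro θ
    simp only [incClause, hZ1, u1H_map]
  have e2 : ∀ θ, incSite (q + 1) m r S spin Lab θ =
      avg (fun i => ∑ u, (∏ l, Lab.p (u l)) * u1H m (r + 1) (Z2 (i, u)) θ) := by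
    intro θ
    simp only [incSite, hZ2, u1H_map]
  have e3 : ∀ θ : (Fin (q + 1) → Bool) → ℝ, labLog m r Lab (fun s : Fin (q + 1) → Bool => Real.exp (θ s)) =
      ∑ u, (∏ l, Lab.p (u l)) * u1H m (r + 1) (Z3 u) θ := fun θ => rfl
  simp only [e1, e2, e3]
  have i1 : Integrable (fun θ => avg (fun x => u1H m (r + 1) (Z1 x) θ)) μ :=
    (integrable_finsetSum _ fun x _ => u1H_integrable hm.pos (p1 x) hμ).const_mul _
  have i2 : Integrable
      (fun θ => avg (fun i => ∑ u, (∏ l, Lab.p (u l)) * u1H m (r + 1) (Z2 (i, u)) θ)) μ :=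
    (integrable_finsetSum _ fun i _ => integrable_finsetSum _ fun u _ =>
      (u1H_integrable hm.pos (p2 (i, u)) hμ).const_mul _).const_mul _
  have i3 : Integrable (fun θ => ∑ u, (∏ l, Lab.p (u l)) * u1H m (r + 1) (Z3 u) θ) μ :=
    integrable_finsetSum _ fun u _ => (u1H_integrable hm.pos (p3 u) hμ).const_mul _
  have j3 := integral_add (i1.sub (i2.const_mul ((q : ℝ) + 1))) (i3.const_mul (q : ℝ))
  have j4 := integral_sub i1 (i2.const_mul ((q : ℝ) + 1))
  simp only [Pi.sub_apply] at j3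
  rw [j4, integral_const_mul, integral_const_mul] at j3
  suffices h : ∫ θ, (avg (fun x => u1H m (r + 1) (Z1 x) θ) - ((q : ℝ) + 1) *
      avg (fun i => ∑ u, (∏ l, Lab.p (u l)) * u1H m (r + 1) (Z2 (i, u)) θ) +
      (q : ℝ) * ∑ u, (∏ l, Lab.p (u l)) * u1H m (r + 1) (Z3 u) θ) ∂μ ≤ 0 by
    rw [j3] at h
    push_cast
    linarith
  have hzm : Measurable (fun ω (s : Fin (q + 1) → Bool) => b ω * ∏ l, f l ω (s l)) :=
    measurable_pi_iff.2 fun s =>
      hb.mul (Finset.measurable_prod _ fun l _ => measurable_pi_iff.1 (hf l) _)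
  have hθm : Measurable (fun ω (s : Fin (q + 1) → Bool) =>
      Real.log (a ω * (1 + b ω * ∏ l, f l ω (s l)))) :=
    measurable_pi_iff.2 fun s => (ha.mul ((measurable_pi_iff.1 hzm s).const_add 1)).log
  have hi := ((i1.sub (i2.const_mul ((q : ℝ) + 1))).add (i3.const_mul (q : ℝ))).1
  rw [← hmap] at hi ⊢
  refine le_of_eq_of_le (integral_map hθm.aemeasurable hi) ?_
  refine le_of_eq_of_le (integral_congr_ae (Filter.Eventually.of_forall fun ω => ?_))
    (u1_main (P := P) hm (r := r)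
    (A := (Fin (q + 1) → I) ⊕ (I × (Fin (q + 1 - 1) → Lab.ι)) ⊕ (Fin (q + 1) → Lab.ι))
    (Sum.elim (fun _ => (Fintype.card (Fin (q + 1) → I) : ℝ)⁻¹)
      (Sum.elim (fun x => -(((q : ℝ) + 1) * ((Fintype.card I : ℝ)⁻¹ * ∏ l, Lab.p (x.2 l))))
        (fun u => (q : ℝ) * ∏ l, Lab.p (u l)))) ?_
    (Sum.elim Z1 (Sum.elim Z2 Z3)) ?_ hzm (a0 := a) hz ?_ ?_)
  · refine (u1_signed (q := q) (I := I) Lab.p
      (fun x => u1H m (r + 1) (Z1 x) fun s => Real.log (a ω * (1 + b ω * ∏ l, f l ω (s l))))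
      (fun x => u1H m (r + 1) (Z2 x) fun s => Real.log (a ω * (1 + b ω * ∏ l, f l ω (s l))))
      (fun x => u1H m (r + 1) (Z3 x) fun s =>
        Real.log (a ω * (1 + b ω * ∏ l, f l ω (s l))))).symm.trans ?_
    refine Finset.sum_congr rfl fun x _ => ?_
    rcases x with x | x | x <;> rfl
  · have := u1_signed (q := q) (I := I) Lab.p (fun _ => 1) (fun _ => 1) (fun _ => 1)
    simp only [mul_one, u1_sum_prod_p hL, avg_const] at this
    refine Eq.trans (Finset.sum_congr rfl fun x _ => ?_) (this.trans (by ring))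
    rcases x with x | x | x <;> simp
  · rintro (x | x | x)
    · exact p1 x
    · exact p2 x
    · exact p3 x
  · rw [← hmap] at hμ
    exact (integrable_map_measure continuous_norm.aestronglyMeasurable hθm.aemeasurable).1 hμ
  · intro K τ
    refine le_of_le_of_eq (u1_moments hb hf hind ⟨0, Nat.succ_pos q⟩ hid hbf
      (hz.mono fun ω hω => hω.2) (fun n hn => (hβ n hn).2) hcv spin τ hS hL)
      (integral_congr_ae (Filter.Eventually.of_forall fun ω => ?_))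
    have := u1_signed (q := q) (I := I) Lab.p
      (fun x => Mom (fun (_ : Unit) s => -(b ω * ∏ l, f l ω (s l))) (r + 1) τ (Z1 x))
      (fun x => Mom (fun (_ : Unit) s => -(b ω * ∏ l, f l ω (s l))) (r + 1) τ (Z2 x))
      (fun x => Mom (fun (_ : Unit) s => -(b ω * ∏ l, f l ω (s l))) (r + 1) τ (Z3 x))
    simp only [hZ1, hZ2, u1_Mom_map] at this
    refine this.symm.trans (Finset.sum_congr rfl fun x _ => ?_)
    rcases x with x | x | x
    · simp only [Sum.elim_inl, hZ1, u1_Mom_map]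
    · simp only [Sum.elim_inl, Sum.elim_inr, hZ2, u1_Mom_map]
    · rfl

end Crest.Agent.R141
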