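import Crest.Agent.R141.ASS
import Crest.Agent.R141.Upper1

/-! Row 141, module J: subtracting the value at the all-true tuple symmetrises the law. -/

set_option autoImplicit false
set_option linter.style.haveILetI false
set_option linter.unusedSectionVars false

namespace Crest.Agent.R141

open Finset Sys MeasureTheory Crest.ProbabilityR.Diluted

/-- Subtract the value at the all-true tuple. -/
def center {p : ℕ} (θ : Inter p) : Inter p := fun s => θ s - θ (fun _ => true)

theorem symm_continuous_center {p : ℕ} : Continuous (center (p := p)) := by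
  unfold center
  fun_prop

theorem measurable_center {p : ℕ} : Measurable (center (p := p)) :=
  symm_continuous_center.measurable

theorem symm_norm_center_le {p : ℕ} (θ : Inter p) : ‖center θ‖ ≤ 2 * ‖θ‖ := by
  refine (pi_norm_le_iff_of_nonneg (by positivity)).2 fun s => ?_
  have h1 := norm_le_pi_norm θ s
  have h2 := norm_le_pi_norm θ (fun _ => true)
  exact (norm_sub_le _ _).trans (by linarith)

theorem integrable_norm_center {p : ℕ} {μ : Measure (Inter p)}
    (hμ : Integrable (fun θ : Inter p => ‖θ‖) μ) :
    Integrable (fun θ : Inter p => ‖θ‖) (μ.map center) := by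
  rw [integrable_map_measure continuous_norm.aestronglyMeasurable measurable_center.aemeasurable]
  refine (hμ.const_mul 2).mono' (continuous_norm.comp symm_continuous_center).aestronglyMeasurable
    (Filter.Eventually.of_forall fun θ => ?_)
  simpa using symm_norm_center_le θ

/-- the centred interaction as a function of `b` and the `f ℓ` -/
noncomputable def symmG {p : ℕ} (z : ℝ × (Fin p → Bool → ℝ)) : Inter p :=
  fun s => Real.log (1 + z.1 * ∏ l, z.2 l (s l)) - Real.log (1 + z.1 * ∏ l, z.2 l true)

theorem symm_measurable_G {p : ℕ} : Measurable (symmG (p := p)) := by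
  unfold symmG
  fun_prop

theorem symLaw_center {p : ℕ} {μ : Measure (Inter p)} (h : HasFac p μ) :
    SymLaw (μ.map center) := by
  obtain ⟨Ω, mΩ, P, hP, a, b, f, ha, hb, hf, hind, hid, hbf, hae, -, hmap, -⟩ := h
  have hΘ : Measurable (fun ω => fun s : Fin p → Bool =>
      Real.log (a ω * (1 + b ω * ∏ ℓ, f ℓ ω (s ℓ)))) := by
    fun_prop
  have hbF : ∀ g : Fin p → Ω → Bool → ℝ, (∀ l, Measurable (g l)) →
      Measurable (fun ω => (b ω, fun l => g l ω)) := fun g hg =>
    hb.prodMk (measurable_pi_lambda _ hg)
  have h1 : μ.map center = (P.map (fun ω => (b ω, fun l => f l ω))).map symmG := by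
    rw [← hmap, Measure.map_map measurable_center hΘ, Measure.map_map symm_measurable_G (hbF f hf)]
    refine Measure.map_congr ?_
    filter_upwards [hae] with ω hω
    funext s
    have hpos : ∀ s : Fin p → Bool, 0 < 1 + b ω * ∏ ℓ, f ℓ ω (s ℓ) := fun s => by
      linarith [(abs_lt.1 (hω.2 s)).1]
    simp only [Function.comp, center, symmG]
    rw [Real.log_mul hω.1.ne' (hpos s).ne', Real.log_mul hω.1.ne' (hpos fun _ => true).ne']
    ring
  intro π
  have hπ : Measurable (fun (θ : Inter p) (s : Fin p → Bool) => θ (fun l => s (π l))) := by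
    fun_prop
  have hf' : ∀ l, Measurable (f (π.symm l)) := fun l => hf _
  have h2 : P.map (fun ω => (b ω, fun l => f (π.symm l) ω)) =
      P.map (fun ω => (b ω, fun l => f l ω)) := by
    have i1 : ProbabilityTheory.IndepFun b (fun ω => fun l => f (π.symm l) ω) P :=
      hbf.comp (φ := id) (ψ := fun (g : Fin p → Bool → ℝ) l => g (π.symm l)) measurable_id
        (by fun_prop)
    have i2 : ProbabilityTheory.iIndepFun (fun l => f (π.symm l)) P :=
      hind.precomp π.symm.injective
    rw [(ProbabilityTheory.indepFun_iff_map_prod_eq_prod_map_map hb.aemeasurable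
        (measurable_pi_lambda _ hf').aemeasurable).1 i1,
      (ProbabilityTheory.indepFun_iff_map_prod_eq_prod_map_map hb.aemeasurable
        (measurable_pi_lambda _ hf).aemeasurable).1 hbf,
      (ProbabilityTheory.iIndepFun_iff_map_fun_eq_pi_map fun l => (hf' l).aemeasurable).1 i2,
      (ProbabilityTheory.iIndepFun_iff_map_fun_eq_pi_map fun l => (hf l).aemeasurable).1 hind]
    congr 2
    funext l
    exact ((hid (π.symm l)).trans (hid l).symm).map_eq
  rw [h1]
  conv_rhs => rw [← h2]
  rw [Measure.map_map hπ symm_measurable_G, Measure.map_map (hπ.comp symm_measurable_G) (hbF f hf),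
    Measure.map_map symm_measurable_G (hbF _ hf')]
  congr 1
  funext ω s
  simp only [Function.comp, symmG]
  rw [← Equiv.prod_comp π (fun l => f (π.symm l) ω (s l)),
    ← Equiv.prod_comp π (fun l => f (π.symm l) ω true)]
  simp

section shift

variable {p : ℕ} {μ : Measure (Inter p)} [IsProbabilityMeasure μ]
  {H : Type} [MeasurableSpace H] {ρ : Measure H} [IsProbabilityMeasure ρ] {J : Type} [Fintype J]

theorem symm_integrable_top (hμ : Integrable (fun θ : Inter p => ‖θ‖) μ) :
    Integrable (fun θ : Inter p => θ (fun _ => true)) μ :=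
  hμ.mono' (continuous_apply _).aestronglyMeasurable
    (Filter.Eventually.of_forall fun θ => norm_le_pi_norm θ _)

theorem symm_inner_bound {F : (J → Inter p) → H → ℝ} {g : H → ℝ} (hg : Integrable g ρ)
    (hb : ∀ θs h, |F θs h| ≤ g h + ∑ j, ‖θs j‖) (θs : J → Inter p) :
    ‖∫ h, F θs h ∂ρ‖ ≤ (∫ h, g h ∂ρ) + ∑ j, ‖θs j‖ := by
  have h1 : Integrable (fun h => g h + ∑ j, ‖θs j‖) ρ := hg.add (integrable_const _)
  refine (norm_integral_le_of_norm_le h1 (Filter.Eventually.of_forall (hb θs))).trans
    (le_of_eq ?_)
  rw [integral_add hg (integrable_const _)]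
  simp

theorem symm_outer_bound (hμ : Integrable (fun θ : Inter p => ‖θ‖) μ)
    {F : (J → Inter p) → H → ℝ} {g : H → ℝ} (hg : Integrable g ρ)
    (hb : ∀ θs h, |F θs h| ≤ g h + ∑ j, ‖θs j‖) :
    |∫ θs, ∫ h, F θs h ∂ρ ∂(Measure.pi fun _ : J => μ)| ≤
      (∫ h, g h ∂ρ) + (∫ θ, ‖θ‖ ∂μ) * Fintype.card J := by
  have h1 : Integrable (fun θs : J → Inter p => (∫ h, g h ∂ρ) + ∑ j, ‖θs j‖)
      (Measure.pi fun _ : J => μ) := (integrable_const _).add (integrable_sum_norm hμ J)
  rw [← Real.norm_eq_abs]
  refine (norm_integral_le_of_norm_le h1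
    (Filter.Eventually.of_forall (symm_inner_bound hg hb))).trans (le_of_eq ?_)
  rw [integral_add (integrable_const _) (integrable_sum_norm hμ J), integral_sum_norm hμ]
  simp [mul_comm]

theorem symm_shift (hμ : Integrable (fun θ : Inter p => ‖θ‖) μ)
    {F : (J → Inter p) → H → ℝ} (hF : Measurable (Function.uncurry F)) {g : H → ℝ}
    (hg : Integrable g ρ) (hb : ∀ θs h, |F θs h| ≤ g h + ∑ j, ‖θs j‖)
    (hs : ∀ θs h, F θs h = F (fun j => center (θs j)) h + ∑ j, θs j (fun _ => true)) :
    ∫ θs, ∫ h, F θs h ∂ρ ∂(Measure.pi fun _ : J => μ) =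
      ∫ θs, ∫ h, F θs h ∂ρ ∂(Measure.pi fun _ : J => μ.map center) +
        (∫ θ, θ (fun _ => true) ∂μ) * Fintype.card J := by
  haveI : IsProbabilityMeasure (μ.map center) :=
    Measure.isProbabilityMeasure_map measurable_center.aemeasurable
  have hG : StronglyMeasurable (fun θs => ∫ h, F θs h ∂ρ) :=
    hF.stronglyMeasurable.integral_prod_right
  have hFi : ∀ θs, Integrable (F θs) ρ := fun θs =>
    (hg.add (integrable_const (∑ j, ‖θs j‖))).mono'
      (hF.comp measurable_prodMk_left).aestronglyMeasurable (Filter.Eventually.of_forall (hb θs))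
  have hc : Measurable (fun (θs : J → Inter p) j => center (θs j)) :=
    measurable_pi_lambda _ fun j => measurable_center.comp (measurable_pi_apply j)
  have hmp : MeasurePreserving (fun (θs : J → Inter p) j => center (θs j))
      (Measure.pi fun _ : J => μ) (Measure.pi fun _ : J => μ.map center) :=
    measurePreserving_pi _ _ fun _ => ⟨measurable_center, rfl⟩
  have hGi : Integrable (fun θs => ∫ h, F θs h ∂ρ) (Measure.pi fun _ : J => μ.map center) :=
    ((integrable_const (∫ h, g h ∂ρ)).add (integrable_sum_norm (integrable_norm_center hμ) J)).mono'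
      hG.aestronglyMeasurable (Filter.Eventually.of_forall (symm_inner_bound hg hb))
  have hj : ∀ j : J, Integrable (fun θs : J → Inter p => θs j (fun _ => true))
      (Measure.pi fun _ : J => μ) := fun j =>
    (measurePreserving_eval (fun _ : J => μ) j).integrable_comp_of_integrable
      (symm_integrable_top hμ)
  have hj' : ∀ j : J, ∫ θs : J → Inter p, θs j (fun _ => true) ∂(Measure.pi fun _ : J => μ) =
      ∫ θ, θ (fun _ => true) ∂μ := by
    intro j
    have h1 := (measurePreserving_eval (fun _ : J => μ) j)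
    rw [← h1.map_eq, integral_map h1.measurable.aemeasurable
      (continuous_apply _).aestronglyMeasurable, h1.map_eq]
  have h1 : ∀ θs : J → Inter p, ∫ h, F θs h ∂ρ =
      (∫ h, F (fun j => center (θs j)) h ∂ρ) + ∑ j, θs j (fun _ => true) := by
    intro θs
    have e : F θs = fun h => F (fun j => center (θs j)) h + ∑ j, θs j (fun _ => true) :=
      funext (hs θs)
    conv_lhs => rw [e]
    rw [integral_add (hFi _) (integrable_const _)]
    simp
  have h2 : Integrable (fun θs : J → Inter p => ∫ h, F (fun j => center (θs j)) h ∂ρ)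
      (Measure.pi fun _ : J => μ) := hmp.integrable_comp_of_integrable hGi
  rw [integral_congr_ae (Filter.Eventually.of_forall h1),
    integral_add h2 (integrable_finsetSum _ fun j _ => hj j), integral_finsetSum _ fun j _ => hj j,
    ← hmp.map_eq, integral_map hc.aemeasurable hG.aestronglyMeasurable]
  simp [hj', mul_comm]

theorem symm_tsum_shift {lam : ℝ} (h : 0 ≤ lam) {X Y : ℕ → ℝ} {c A B : ℝ}
    (hY : ∀ k, |Y k| ≤ A + B * k) (hXY : ∀ k, X k = Y k + c * k) :
    ∑' k, poissonWeight lam k * X k = ∑' k, poissonWeight lam k * Y k + c * lam := by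
  have h1 := (summable_poissonWeight_mul h hY).hasSum.add ((hasSum_poissonWeight_mul lam).mul_left c)
  rw [← h1.tsum_eq]
  refine tsum_congr fun k => ?_
  rw [hXY]
  ring

end shift

theorem symm_logPartition_shift (N : ℕ) {p M : ℕ} (θs : Fin M → Inter p)
    (idx : Fin M → Fin p → Fin N) (hs : Fin N → ℝ) :
    logPartition N θs idx hs =
      logPartition N (fun k => center (θs k)) idx hs + ∑ k, θs k (fun _ => true) := by
  unfold logPartition
  rw [← Real.log_exp (∑ k, θs k (fun _ => true)), ← Real.log_mul
    (sum_pos (fun _ _ => Real.exp_pos _) univ_nonempty).ne' (Real.exp_pos _).ne', sum_mul]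
  congr 1
  refine sum_congr rfl fun σ _ => ?_
  rw [← Real.exp_add]
  congr 1
  simp only [center, sum_sub_distrib]
  ring

theorem symm_abs_logPartition_le (N : ℕ) {p M : ℕ} (θs : Fin M → Inter p)
    (idx : Fin M → Fin p → Fin N) (hs : Fin N → ℝ) :
    |logPartition N θs idx hs| ≤
      (Real.log (Fintype.card (Fin N → Bool)) + ∑ i, |hs i|) + ∑ k, ‖θs k‖ := by
  set c : ℝ := ∑ i, |hs i| + ∑ k, ‖θs k‖ with hc
  have hE : ∀ σ : Fin N → Bool,
      |(∑ k : Fin M, θs k (fun ℓ => σ (idx k ℓ))) + ∑ i : Fin N, hs i * spinVal (σ i)| ≤ c := by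
    intro σ
    refine (abs_add_le _ _).trans ?_
    rw [hc, add_comm]
    refine add_le_add ((abs_sum_le_sum_abs _ _).trans (sum_le_sum fun i _ => ?_))
      ((abs_sum_le_sum_abs _ _).trans (sum_le_sum fun k _ => norm_le_pi_norm (θs k) _))
    rw [abs_mul, labLog_abs_spinVal, mul_one]
  have hcard : (1 : ℝ) ≤ Fintype.card (Fin N → Bool) := by exact_mod_cast Fintype.card_pos
  have hlog : 0 ≤ Real.log (Fintype.card (Fin N → Bool)) := Real.log_nonneg hcard
  have hpos : 0 < ∑ σ : Fin N → Bool, Real.exp ((∑ k : Fin M, θs k (fun ℓ => σ (idx k ℓ))) +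
      ∑ i : Fin N, hs i * spinVal (σ i)) := sum_pos (fun _ _ => Real.exp_pos _) univ_nonempty
  unfold logPartition
  rw [add_assoc, ← hc, abs_le]
  constructor
  · have h1 : Real.exp (-c) ≤ ∑ σ : Fin N → Bool,
        Real.exp ((∑ k : Fin M, θs k (fun ℓ => σ (idx k ℓ))) + ∑ i : Fin N, hs i * spinVal (σ i)) := by
      refine le_trans (Real.exp_le_exp.2 (abs_le.1 (hE fun _ => true)).1) ?_
      exact single_le_sum (f := fun σ : Fin N → Bool =>
        Real.exp ((∑ k : Fin M, θs k (fun ℓ => σ (idx k ℓ))) + ∑ i : Fin N, hs i * spinVal (σ i)))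
        (fun _ _ => (Real.exp_pos _).le) (mem_univ (fun _ => true))
    have h2 := Real.log_le_log (Real.exp_pos _) h1
    rw [Real.log_exp] at h2
    linarith
  · rw [← Real.log_exp c, ← Real.log_mul (by positivity) (Real.exp_pos c).ne']
    refine Real.log_le_log hpos ?_
    refine (sum_le_sum fun σ _ => Real.exp_le_exp.2 (abs_le.1 (hE σ)).2).trans (le_of_eq ?_)
    simp

theorem symm_measurable_logPartition (N : ℕ) {p M : ℕ} (idx : Fin M → Fin p → Fin N) :
    Measurable (fun z : (Fin M → Inter p) × (Fin N → ℝ) => logPartition N z.1 idx z.2) := by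
  unfold logPartition
  fun_prop

theorem pressure_center {p : ℕ} {α : ℝ} (hα : 0 ≤ α) {μ : Measure (Inter p)}
    [IsProbabilityMeasure μ] {ν : Measure ℝ} [IsProbabilityMeasure ν]
    (hμ : Integrable (fun θ : Inter p => ‖θ‖) μ) (hν : Integrable (fun x : ℝ => x) ν) {N : ℕ}
    (hN : 1 ≤ N) :
    pressure p α μ ν N = pressure p α (μ.map center) ν N + α * ∫ θ, θ (fun _ => true) ∂μ := by
  haveI : IsProbabilityMeasure (μ.map center) :=
    Measure.isProbabilityMeasure_map measurable_center.aemeasurable
  haveI : NeZero N := ⟨by omega⟩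
  have hN' : (0 : ℝ) < N := by exact_mod_cast hN
  have hg : Integrable (fun hs : Fin N → ℝ => Real.log (Fintype.card (Fin N → Bool)) + ∑ i, |hs i|)
      (Measure.pi fun _ : Fin N => ν) :=
    (integrable_const _).add (integrable_finsetSum _ fun i _ =>
      (measurePreserving_eval (fun _ : Fin N => ν) i).integrable_comp_of_integrable hν.abs)
  have hcard : ∀ M : ℕ, (0 : ℝ) < Fintype.card (Fin M → Fin p → Fin N) := fun M => by
    exact_mod_cast Fintype.card_pos
  have hb : ∀ (M : ℕ) (θs : Fin M → Inter p) (hs : Fin N → ℝ),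
      |(Fintype.card (Fin M → Fin p → Fin N) : ℝ)⁻¹ *
        ∑ idx : Fin M → Fin p → Fin N, logPartition N θs idx hs| ≤
      (Real.log (Fintype.card (Fin N → Bool)) + ∑ i, |hs i|) + ∑ k, ‖θs k‖ := by
    intro M θs hs
    rw [abs_mul, abs_of_pos (inv_pos.2 (hcard M)), inv_mul_le_iff₀ (hcard M)]
    refine (abs_sum_le_sum_abs _ _).trans
      ((sum_le_sum fun idx _ => symm_abs_logPartition_le N θs idx hs).trans (le_of_eq ?_))
    rw [sum_const, card_univ, nsmul_eq_mul]
  unfold pressure
  rw [symm_tsum_shift (lam := α * N) (by positivity) (c := ∫ θ, θ (fun _ => true) ∂μ)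
    (fun M => by
      have := symm_outer_bound (integrable_norm_center hμ) hg (hb M)
      rwa [Fintype.card_fin] at this)
    (fun M => by
      have := symm_shift (ρ := Measure.pi fun _ : Fin N => ν) hμ
        (F := fun (θs : Fin M → Inter p) (hs : Fin N → ℝ) =>
          (Fintype.card (Fin M → Fin p → Fin N) : ℝ)⁻¹ *
            ∑ idx : Fin M → Fin p → Fin N, logPartition N θs idx hs)
        (measurable_const.mul (Finset.measurable_sum _ fun idx _ =>
          symm_measurable_logPartition N idx)) hg (hb M) (fun θs hs => by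
            rw [sum_congr rfl fun idx _ => symm_logPartition_shift N θs idx hs, sum_add_distrib,
              sum_const, card_univ, nsmul_eq_mul, mul_add, ← mul_assoc,
              inv_mul_cancel₀ (hcard M).ne', one_mul])
      rwa [Fintype.card_fin] at this)]
  field_simp

theorem symm_siteV_shift {p k : ℕ} (h : ℝ) (θs : Fin k → Inter p) :
    siteV h θs = fun s => Real.exp (∑ j, θs j (fun _ => true)) *
      siteV h (fun j => center (θs j)) s := by
  funext s
  unfold siteV
  rw [mul_left_comm]
  congr 1
  rw [mul_sum]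
  refine sum_congr rfl fun ε _ => ?_
  rw [← Real.exp_add]
  congr 1
  simp only [center, sum_sub_distrib]
  ring

theorem Pfin_center {p : ℕ} {α : ℝ} (hα : 0 ≤ α) {μ : Measure (Inter p)}
    [IsProbabilityMeasure μ] {ν : Measure ℝ} [IsProbabilityMeasure ν]
    (hμ : Integrable (fun θ : Inter p => ‖θ‖) μ) (hν : Integrable (fun x : ℝ => x) ν)
    {m : ℕ → ℝ} (hm : Exps m) {r : ℕ} {Lab : Sys Bool} (hL : Prob (r + 2) Lab) :
    Pfin p α μ ν m r Lab = Pfin p α (μ.map center) ν m r Lab + α * ∫ θ, θ (fun _ => true) ∂μ := by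
  haveI : IsProbabilityMeasure (μ.map center) :=
    Measure.isProbabilityMeasure_map measurable_center.aemeasurable
  have hb : ∀ (k : ℕ) (θs : Fin k → Inter p) (h : ℝ),
      |labLog m r Lab (siteV h θs)| ≤ |h| + ∑ j, ‖θs j‖ := fun k θs h =>
    abs_labLog_le hm.pos hL (siteV_pos h θs) (abs_log_siteV_le h θs)
  have hcont := continuous_labLog_edge hm.pos hL p
  have hedge : ∫ θ, labLog m r Lab (fun s : Fin p → Bool => Real.exp (θ s)) ∂μ =
      ∫ θ, labLog m r Lab (fun s : Fin p → Bool => Real.exp (θ s)) ∂(μ.map center) +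
        ∫ θ, θ (fun _ => true) ∂μ := by
    have hi : Integrable (fun θ : Inter p => labLog m r Lab (fun s => Real.exp (θ s)))
        (μ.map center) :=
      (integrable_norm_center hμ).mono' hcont.aestronglyMeasurable
        (Filter.Eventually.of_forall fun θ => abs_labLog_le hm.pos hL (fun _ => Real.exp_pos _)
          fun s => by rw [Real.log_exp]; exact norm_le_pi_norm θ s)
    have hi' : Integrable (fun θ : Inter p => labLog m r Lab (fun s => Real.exp (center θ s))) μ :=
      (integrable_map_measure hcont.aestronglyMeasurable measurable_center.aemeasurable).1 hi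
    rw [integral_map measurable_center.aemeasurable hcont.aestronglyMeasurable,
      ← integral_add hi' (symm_integrable_top hμ)]
    refine integral_congr_ae (Filter.Eventually.of_forall fun θ => ?_)
    have e : (fun s : Fin p → Bool => Real.exp (θ s)) =
        fun s => Real.exp (θ fun _ => true) * Real.exp (center θ s) := by
      funext s
      rw [← Real.exp_add, center]
      congr 1
      ring
    simp only
    rw [e, labLog_const_mul hm.pos hL (fun _ => Real.exp_pos _) (Real.exp_pos _), Real.log_exp,
      add_comm]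
  unfold Pfin
  rw [symm_tsum_shift (lam := α * p) (by positivity) (c := ∫ θ, θ (fun _ => true) ∂μ)
    (fun k => by
      have := symm_outer_bound (integrable_norm_center hμ) hν.abs (hb k)
      rwa [Fintype.card_fin] at this)
    (fun k => by
      have := symm_shift (ρ := ν) hμ
        (F := fun (θs : Fin k → Inter p) (h : ℝ) => labLog m r Lab (siteV h θs))
        (continuous_labLog_site hm.pos hL p k).measurable hν.abs (hb k) (fun θs h => by
          rw [symm_siteV_shift h θs, labLog_const_mul hm.pos hL (siteV_pos _ _) (Real.exp_pos _),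
            Real.log_exp, add_comm])
      rwa [Fintype.card_fin] at this), hedge]
  ring

end Crest.Agent.R141
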