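import Crest.Agent.R141.Upper1

/-! Row 141, module I2, part 1: the pointwise increment inequality for the interpolating
functional `u2F`. -/

set_option autoImplicit false

namespace Crest.Agent.R141

open Finset Sys MeasureTheory Crest.ProbabilityR.Diluted

/-- The interpolating functional: `E log T (∑ₛ exp W(s, x))`. -/
noncomputable def u2F {X Λ : Type} [Fintype X] [Fintype Λ] [DecidableEq Λ] (m : ℕ → ℝ) (r : ℕ)
    (Lab : Sys Bool) (W : X → (Λ → Bool) → ℝ) : ℝ :=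
  labLog m r Lab (fun x => ∑ s, Real.exp (W s x))

/-- The uniform configuration, drawn in the last step. -/
noncomputable def u2U (X : Type) [Fintype X] [Nonempty X] (r : ℕ) : Sys X :=
  lift r (node (Classical.arbitrary X) X (fun _ => (Fintype.card X : ℝ)⁻¹) (fun s => leaf s))

/-- The labels below the level-zero draw `u`. -/
def u2P {Λ : Type} [Fintype Λ] [DecidableEq Λ] (r : ℕ) (Lab : Sys Bool) (u : Λ → Lab.ι) :
    Sys (Λ → Bool) := piProd (r + 1) (fun l => Lab.ch (u l))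

section

variable {X : Type} [Fintype X] [Nonempty X] {m : ℕ → ℝ} {r : ℕ} {Lab : Sys Bool}

theorem u2_prob_U : Prob (r + 1) (u2U X r) := by
  have h1 : Prob 1 (node (Classical.arbitrary X) X (fun _ => (Fintype.card X : ℝ)⁻¹)
      (fun s => leaf s)) := by
    have hc : (0 : ℝ) < Fintype.card X := by exact_mod_cast Fintype.card_pos
    refine ⟨fun _ => inv_pos.2 hc, ?_, fun _ => trivial⟩
    change ∑ _s : X, (Fintype.card X : ℝ)⁻¹ = 1
    rw [Finset.sum_const, Finset.card_univ, nsmul_eq_mul, mul_inv_cancel₀ hc.ne']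
  have h := prob_lift r h1
  rw [Nat.add_comm 1 r] at h
  exact h

theorem u2_prob_P {Λ : Type} [Fintype Λ] [DecidableEq Λ] (hL : Prob (r + 2) Lab)
    (u : Λ → Lab.ι) : Prob (r + 1) (u2P r Lab u) :=
  prob_piProd (fun l => hL.2.2 (u l))

theorem u2_T_sum (hm : Exps m) {Y : Type} {S' : Sys Y} (hS' : Prob (r + 1) S')
    (V : X → Y → ℝ) (hV : ∀ s y, 0 < V s y) :
    Real.log (T m (r + 1) S' (fun L => ∑ s, V s L.val)) =
      Real.log (Fintype.card X) +
        Real.log (T m (r + 1) (prod (r + 1) (u2U X r) S') (fun L => V L.val.1 L.val.2)) := by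
  have hc : (0 : ℝ) < Fintype.card X := by exact_mod_cast Fintype.card_pos
  have h := T_prod_lift_last (m := m) hm.zero (Classical.arbitrary X)
    (fun _ : X => (Fintype.card X : ℝ)⁻¹) (fun s => s) r S' V
  rw [Nat.add_comm 1 r] at h
  have hpos : AllAt (r + 1) S' (fun L => 0 < ∑ s, V s L.val) :=
    allAt_of_forall _ _ (fun L => Finset.sum_pos (fun s _ => hV s _) Finset.univ_nonempty)
  have h2 : T m (r + 1) S' (fun L => ∑ s, (Fintype.card X : ℝ)⁻¹ * V s L.val) =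
      (Fintype.card X : ℝ)⁻¹ * T m (r + 1) S' (fun L => ∑ s, V s L.val) := by
    rw [← T_const_mul hm.pos hS' hpos (inv_pos.2 hc)]
    congr 1
    funext L
    rw [Finset.mul_sum]
  have h3 := T_pos (m := m) hS' hpos
  change Real.log _ = _ + Real.log (T m (r + 1) (prod (r + 1) (lift r _) S') _)
  rw [h, h2, Real.log_mul (inv_pos.2 hc).ne' h3.ne', Real.log_inv]
  ring

theorem u2_sum_w {Λ : Type} [Fintype Λ] [DecidableEq Λ] (hL : Prob (r + 2) Lab) :
    ∑ u : Λ → Lab.ι, ∏ l, Lab.p (u l) = 1 := by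
  rw [← Fintype.piFinset_univ, ← Finset.prod_univ_sum (fun _ => Finset.univ)
    (fun (_ : Λ) (i : Lab.ι) => Lab.p i)]
  simp [hL.2.1]

theorem u2_w_nonneg {Λ : Type} [Fintype Λ] (hL : Prob (r + 2) Lab) (u : Λ → Lab.ι) :
    0 ≤ ∏ l, Lab.p (u l) := Finset.prod_nonneg (fun l _ => (hL.1 (u l)).le)

/-- The tilted system of configurations and old labels. -/
noncomputable def u2S {Λ : Type} [Fintype Λ] [DecidableEq Λ] (m : ℕ → ℝ) (r : ℕ) (Lab : Sys Bool)
    (W : X → (Λ → Bool) → ℝ) (u : Λ → Lab.ι) : Sys (X × (Λ → Bool)) :=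
  tilt m (r + 1) (prod (r + 1) (u2U X r) (u2P r Lab u)) (fun L => Real.exp (W L.val.1 L.val.2))

/-- The normalisation of `u2S`. -/
noncomputable def u2Z {Λ : Type} [Fintype Λ] [DecidableEq Λ] (m : ℕ → ℝ) (r : ℕ) (Lab : Sys Bool)
    (W : X → (Λ → Bool) → ℝ) (u : Λ → Lab.ι) : ℝ :=
  T m (r + 1) (prod (r + 1) (u2U X r) (u2P r Lab u)) (fun L => Real.exp (W L.val.1 L.val.2))

variable {Λ : Type} [Fintype Λ] [DecidableEq Λ]

theorem u2_prob_S (hm : Exps m) (hL : Prob (r + 2) Lab) (W : X → (Λ → Bool) → ℝ)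
    (u : Λ → Lab.ι) : Prob (r + 1) (u2S m r Lab W u) :=
  prob_tilt' hm.pos (prob_prod u2_prob_U (u2_prob_P hL u))
    (allAt_of_forall _ _ (fun _ => Real.exp_pos _))

theorem u2_Z_pos (hL : Prob (r + 2) Lab) (W : X → (Λ → Bool) → ℝ)
    (u : Λ → Lab.ι) : 0 < u2Z m r Lab W u :=
  T_pos (prob_prod u2_prob_U (u2_prob_P hL u)) (allAt_of_forall _ _ (fun _ => Real.exp_pos _))

theorem u2F_eq (hm : Exps m) (hL : Prob (r + 2) Lab) (W : X → (Λ → Bool) → ℝ) :
    u2F m r Lab W = ∑ u : Λ → Lab.ι, (∏ l, Lab.p (u l)) *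
      (Real.log (Fintype.card X) + Real.log (u2Z m r Lab W u)) := by
  unfold u2F labLog
  refine Finset.sum_congr rfl (fun u _ => ?_)
  congr 1
  exact u2_T_sum hm (u2_prob_P hL u) (fun s x => Real.exp (W s x)) (fun _ _ => Real.exp_pos _)

theorem u2F_add_clause (hm : Exps m) (hL : Prob (r + 2) Lab) (W : X → (Λ → Bool) → ℝ)
    (H : X → ℝ) :
    u2F m r Lab (fun s x => W s x + H s) = u2F m r Lab W +
      ∑ u : Λ → Lab.ι, (∏ l, Lab.p (u l)) *
        Real.log (T m (r + 1) (u2S m r Lab W u) (fun L => Real.exp (H L.val.1))) := by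
  rw [u2F_eq hm hL, u2F_eq hm hL, ← Finset.sum_add_distrib]
  refine Finset.sum_congr rfl (fun u _ => ?_)
  rw [← mul_add]
  congr 1
  have hP := prob_prod (u2_prob_U (X := X) (r := r)) (u2_prob_P hL u)
  have h := T_mul hm.pos hP (Φ := fun L => Real.exp (W L.val.1 L.val.2))
    (Ψ := fun L => Real.exp (H L.val.1)) (allAt_of_forall _ _ (fun _ => Real.exp_pos _))
    (allAt_of_forall _ _ (fun _ => Real.exp_pos _))
  have h1 : u2Z m r Lab (fun s x => W s x + H s) u =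
      u2Z m r Lab W u * T m (r + 1) (u2S m r Lab W u) (fun L => Real.exp (H L.val.1)) := by
    unfold u2Z u2S
    rw [← h]
    simp only [Real.exp_add]
  have h2 : 0 < T m (r + 1) (u2S m r Lab W u) (fun L => Real.exp (H L.val.1)) :=
    T_pos (u2_prob_S hm hL W u) (allAt_of_forall _ _ (fun _ => Real.exp_pos _))
  rw [h1, Real.log_mul (u2_Z_pos hL W u).ne' h2.ne']
  ring

theorem u2_sum_split (hL : Prob (r + 2) Lab) {Λ' Λ₂ : Type} [Fintype Λ'] [DecidableEq Λ']
    [Fintype Λ₂] [DecidableEq Λ₂] (e₁ : Λ → Λ') (e₂ : Λ₂ → Λ')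
    (he : Function.Injective (Sum.elim e₁ e₂)) (G : (Λ → Lab.ι) → (Λ₂ → Lab.ι) → ℝ) :
    ∑ u : Λ' → Lab.ι, (∏ l, Lab.p (u l)) * G (fun l => u (e₁ l)) (fun l => u (e₂ l)) =
      ∑ u₁ : Λ → Lab.ι, (∏ l, Lab.p (u₁ l)) *
        ∑ u₂ : Λ₂ → Lab.ι, (∏ l, Lab.p (u₂ l)) * G u₁ u₂ := by
  have h := pi_marginal (A := fun _ : Λ' => Lab.ι) (fun _ i => Lab.p i) (fun _ => hL.2.1)
    (Sum.elim e₁ e₂) he (fun b => G (fun l => b (Sum.inl l)) (fun l => b (Sum.inr l)))
  simp only [Sum.elim_inl, Sum.elim_inr] at h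
  rw [h, ← (Equiv.sumArrowEquivProdArrow Λ Λ₂ Lab.ι).symm.sum_comp, Fintype.sum_prod_type]
  refine Finset.sum_congr rfl (fun u₁ _ => ?_)
  rw [Finset.mul_sum]
  refine Finset.sum_congr rfl (fun u₂ _ => ?_)
  rw [Fintype.prod_sum_type]
  simp only [Equiv.sumArrowEquivProdArrow_symm_apply_inl,
    Equiv.sumArrowEquivProdArrow_symm_apply_inr]
  ring

theorem u2F_add_site (hm : Exps m) (hL : Prob (r + 2) Lab) {Λ' Λ₂ : Type} [Fintype Λ']
    [DecidableEq Λ'] [Fintype Λ₂] [DecidableEq Λ₂] (e₁ : Λ → Λ') (e₂ : Λ₂ → Λ')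
    (he : Function.Injective (Sum.elim e₁ e₂)) (W : X → (Λ → Bool) → ℝ)
    (H : X → (Λ₂ → Bool) → ℝ) :
    u2F m r Lab (fun s (x : Λ' → Bool) => W s (fun l => x (e₁ l)) + H s (fun l => x (e₂ l))) =
      u2F m r Lab W + ∑ u : Λ → Lab.ι, (∏ l, Lab.p (u l)) *
        ∑ u₂ : Λ₂ → Lab.ι, (∏ l, Lab.p (u₂ l)) *
          Real.log (T m (r + 1) (prod (r + 1) (u2S m r Lab W u) (u2P r Lab u₂))
            (fun L => Real.exp (H L.val.1.1 L.val.2))) := by
  have key : ∀ u' : Λ' → Lab.ι, u2Z m r Lab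
      (fun s (x : Λ' → Bool) => W s (fun l => x (e₁ l)) + H s (fun l => x (e₂ l))) u' =
      u2Z m r Lab W (fun l => u' (e₁ l)) *
        T m (r + 1) (prod (r + 1) (u2S m r Lab W (fun l => u' (e₁ l)))
          (u2P r Lab (fun l => u' (e₂ l)))) (fun L => Real.exp (H L.val.1.1 L.val.2)) := by
    intro u'
    have hsplit := proj_piProd_split e₁ e₂ he (d := r + 1) (S := fun l => Lab.ch (u' l))
      (fun l => hL.2.2 (u' l))
    have hp1 := ((Proj.refl (r + 1) (u2U X r)).prod hsplit).trans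
      (proj_prod_assoc' (r + 1) (u2U X r) (u2P r Lab (fun l => u' (e₁ l)))
        (u2P r Lab (fun l => u' (e₂ l))))
    have hT := hp1.T_eq (m := m)
      (fun y => Real.exp (W y.1.1 y.1.2) * Real.exp (H y.1.1 y.2))
    have hA := prob_prod (u2_prob_U (X := X) (r := r)) (u2_prob_P hL (fun l => u' (e₁ l)))
    have hB := u2_prob_P hL (fun l => u' (e₂ l))
    have hmul := T_mul hm.pos (prob_prod hA hB)
      (Φ := fun L => Real.exp (W L.val.1.1 L.val.1.2))
      (Ψ := fun L => Real.exp (H L.val.1.1 L.val.2))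
      (allAt_of_forall _ _ (fun _ => Real.exp_pos _))
      (allAt_of_forall _ _ (fun _ => Real.exp_pos _))
    have htilt := tilt_prod_fst hm.pos hA hB (V := fun y => Real.exp (W y.1 y.2))
      (allAt_of_forall _ _ (fun _ => Real.exp_pos _))
    have hfst := (proj_prod_fst (prod (r + 1) (u2U X r) (u2P r Lab (fun l => u' (e₁ l)))) hB).T_eq
      (m := m) (fun y => Real.exp (W y.1 y.2))
    rw [hmul, htilt, hfst] at hT
    unfold u2Z u2S
    rw [← hT]
    simp only [Real.exp_add]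
    rfl
  rw [u2F_eq hm hL, u2F_eq hm hL, ← Finset.sum_add_distrib]
  have h2 : ∀ (u : Λ → Lab.ι) (u₂ : Λ₂ → Lab.ι),
      0 < T m (r + 1) (prod (r + 1) (u2S m r Lab W u) (u2P r Lab u₂))
        (fun L => Real.exp (H L.val.1.1 L.val.2)) := fun u u₂ =>
    T_pos (prob_prod (u2_prob_S hm hL W u) (u2_prob_P hL u₂))
      (allAt_of_forall _ _ (fun _ => Real.exp_pos _))
  simp only [key]
  have h3 := u2_sum_split hL e₁ e₂ he (fun u u₂ => Real.log (Fintype.card X) +
    Real.log (u2Z m r Lab W u * T m (r + 1) (prod (r + 1) (u2S m r Lab W u) (u2P r Lab u₂))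
        (fun L => Real.exp (H L.val.1.1 L.val.2))))
  rw [h3]
  refine Finset.sum_congr rfl (fun u _ => ?_)
  rw [← mul_add]
  congr 1
  have h4 : ∑ u₂ : Λ₂ → Lab.ι, ∏ l, Lab.p (u₂ l) = 1 := u2_sum_w hL
  simp only [Real.log_mul (u2_Z_pos hL W u).ne' (h2 u _).ne', ← add_assoc, mul_add,
    Finset.sum_add_distrib, ← Finset.sum_mul, h4, one_mul]

theorem u2F_lip (hm : Exps m) (hL : Prob (r + 2) Lab) (W W' : X → (Λ → Bool) → ℝ) {c : ℝ}
    (h : ∀ s x, |W s x - W' s x| ≤ c) : |u2F m r Lab W - u2F m r Lab W'| ≤ c := by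
  have hpos : ∀ (W : X → (Λ → Bool) → ℝ) x, 0 < ∑ s, Real.exp (W s x) := fun W x =>
    Finset.sum_pos (fun s _ => Real.exp_pos _) Finset.univ_nonempty
  have key : ∀ (W W' : X → (Λ → Bool) → ℝ), (∀ s x, W s x - W' s x ≤ c) → ∀ x,
      Real.log (∑ s, Real.exp (W s x)) - Real.log (∑ s, Real.exp (W' s x)) ≤ c := by
    intro W W' h x
    have h1 : ∑ s, Real.exp (W s x) ≤ Real.exp c * ∑ s, Real.exp (W' s x) := by
      rw [Finset.mul_sum]
      refine Finset.sum_le_sum (fun s _ => ?_)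
      rw [← Real.exp_add]
      exact Real.exp_le_exp.2 (by linarith [h s x])
    have h2 := Real.log_le_log (hpos W x) h1
    rw [Real.log_mul (Real.exp_pos c).ne' (hpos W' x).ne', Real.log_exp] at h2
    linarith
  refine abs_labLog_sub_le hm.pos hL (hpos W) (hpos W') (fun x => ?_)
  rw [abs_sub_le_iff]
  exact ⟨key W W' (fun s x => (abs_sub_le_iff.1 (h s x)).1) x,
    key W' W (fun s x => (abs_sub_le_iff.1 (h s x)).2) x⟩

theorem u2F_continuous (hm : Exps m) (hL : Prob (r + 2) Lab) :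
    Continuous (fun W : X → (Λ → Bool) → ℝ => u2F m r Lab W) := by
  have : LipschitzWith 1 (fun W : X → (Λ → Bool) → ℝ => u2F m r Lab W) := by
    refine LipschitzWith.of_dist_le_mul (fun W W' => ?_)
    rw [NNReal.coe_one, one_mul, Real.dist_eq]
    refine u2F_lip hm hL W W' (fun s x => ?_)
    rw [← Real.dist_eq]
    exact (dist_le_pi_dist (W s) (W' s) x).trans (dist_le_pi_dist W W' s)
  exact this.continuous

theorem u2_labLog_const (hm : Exps m) (hL : Prob (r + 2) Lab) {c : ℝ} (hc : 0 < c) :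
    labLog m r Lab (fun _ : Λ → Bool => c) = Real.log c := by
  have h1 := labLog_const_mul (Λ := Λ) hm.pos hL (V := fun _ => (1 : ℝ)) (fun _ => one_pos) hc
  have h2 := abs_labLog_le (Λ := Λ) hm.pos hL (V := fun _ => (1 : ℝ)) (c := 0) (fun _ => one_pos)
    (fun _ => by simp)
  simp only [mul_one] at h1
  rw [h1, abs_nonpos_iff.1 h2, add_zero]

theorem u2F_const (hm : Exps m) (hL : Prob (r + 2) Lab) (H : X → ℝ) :
    u2F m r Lab (fun s (_ : Λ → Bool) => H s) = Real.log (∑ s, Real.exp (H s)) :=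
  u2_labLog_const hm hL (Finset.sum_pos (fun _ _ => Real.exp_pos _) Finset.univ_nonempty)

theorem u2F_abs_le (hm : Exps m) (hL : Prob (r + 2) Lab) (W : X → (Λ → Bool) → ℝ) {c : ℝ}
    (h : ∀ s x, |W s x| ≤ c) : |u2F m r Lab W| ≤ Real.log (Fintype.card X) + c := by
  have h1 := u2F_lip hm hL W (fun _ _ => 0) (c := c) (by simpa using h)
  rw [u2F_const hm hL (fun _ => 0)] at h1
  simp only [Real.exp_zero, Finset.sum_const, Finset.card_univ, nsmul_eq_mul, mul_one] at h1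
  have h2 : 0 ≤ Real.log (Fintype.card X) :=
    Real.log_nonneg (by exact_mod_cast Fintype.card_pos)
  rw [abs_le] at h1 ⊢
  constructor <;> linarith [h1.1, h1.2]

end

end Crest.Agent.R141
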