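import Crest.Agent.R141.Upper2Aux1

/-! Row 141, module I2, part 2: the increment inequality for `u2F`, integrated over the new
interaction. -/

set_option autoImplicit false

namespace Crest.Agent.R141

open Finset Sys MeasureTheory Crest.ProbabilityR.Diluted

theorem u2_integrable_of_lip {p : ℕ} {μ : Measure (Inter p)} [IsProbabilityMeasure μ]
    (hμ : Integrable (fun θ : Inter p => ‖θ‖) μ) {f : Inter p → ℝ}
    (hf : ∀ θ θ', |f θ - f θ'| ≤ ‖θ - θ'‖) : Integrable f μ := by
  have hl : LipschitzWith 1 f := by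
    refine LipschitzWith.of_dist_le_mul (fun θ θ' => ?_)
    rw [NNReal.coe_one, one_mul, Real.dist_eq, dist_eq_norm]
    exact hf θ θ'
  refine Integrable.mono' ((integrable_const |f 0|).add hμ) hl.continuous.aestronglyMeasurable
    (Filter.Eventually.of_forall (fun θ => ?_))
  have h := hf θ 0
  rw [sub_zero] at h
  have h2 := abs_sub_abs_le_abs_sub (f θ) (f 0)
  simp only [Real.norm_eq_abs, Pi.add_apply]
  linarith

theorem u2_integrable_logT {p : ℕ} {μ : Measure (Inter p)} [IsProbabilityMeasure μ]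
    (hμ : Integrable (fun θ : Inter p => ‖θ‖) μ) {m : ℕ → ℝ} (hm : Exps m) {Y : Type} {j : ℕ}
    {S : Sys Y} (hS : Prob j S) (φ : Sys Y → Fin p → Bool) :
    Integrable (fun θ : Inter p => Real.log (T m j S (fun L => Real.exp (θ (φ L))))) μ := by
  refine u2_integrable_of_lip hμ (fun θ θ' => abs_log_T_sub_le hm.pos hS
    (allAt_of_forall _ _ (fun L => ⟨Real.exp_pos _, Real.exp_pos _, ?_⟩)))
  rw [Real.log_exp, Real.log_exp]
  exact norm_le_pi_norm (θ - θ') (φ L)

theorem u2_integrable_avg {Ω I : Type} [MeasurableSpace Ω] {κ : Measure Ω} [Fintype I]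
    {f : I → Ω → ℝ} (hf : ∀ i, Integrable (f i) κ) :
    Integrable (fun ω => avg (fun i => f i ω)) κ :=
  (integrable_finsetSum _ (fun i _ => hf i)).const_mul _

theorem u2_integral_avg {Ω I : Type} [MeasurableSpace Ω] {κ : Measure Ω} [Fintype I]
    {f : I → Ω → ℝ} (hf : ∀ i, Integrable (f i) κ) :
    ∫ ω, avg (fun i => f i ω) ∂κ = avg (fun i => ∫ ω, f i ω ∂κ) := by
  unfold avg
  rw [integral_const_mul, integral_finsetSum _ (fun i _ => hf i)]

theorem u2_inc {p : ℕ} (hp : 1 ≤ p) {μ : Measure (Inter p)} [IsProbabilityMeasure μ]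
    (hμ : Integrable (fun θ : Inter p => ‖θ‖) μ) (hfac : HasFac p μ) {m : ℕ → ℝ} (hm : Exps m)
    {r : ℕ} {Lab : Sys Bool} (hL : Prob (r + 2) Lab) {X I : Type} [Fintype X] [Nonempty X]
    [Fintype I] [Nonempty I] (spin : I → X → Bool) {Λ Λ' : Type} [Fintype Λ] [DecidableEq Λ]
    [Fintype Λ'] [DecidableEq Λ'] (e₁ : Λ → Λ') (e₂ : Fin (p - 1) → Λ')
    (he : Function.Injective (Sum.elim e₁ e₂)) (W : X → (Λ → Bool) → ℝ) :
    (∫ θ : Inter p, avg (fun idx : Fin p → I =>
        u2F m r Lab (fun s x => W s x + θ (fun l => spin (idx l) s))) ∂μ) - u2F m r Lab W ≤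
      p * ((∫ θ : Inter p, avg (fun i : I => u2F m r Lab (fun s (x : Λ' → Bool) =>
          W s (fun l => x (e₁ l)) + θ (ext (fun l => x (e₂ l)) (spin i s)))) ∂μ) - u2F m r Lab W) -
        (p - 1 : ℝ) * ∫ θ, labLog m r Lab (fun s : Fin p → Bool => Real.exp (θ s)) ∂μ := by
  set spin' : I → X × (Λ → Bool) → Bool := fun i z => spin i z.1 with hspin'
  have hA : ∀ θ : Inter p, avg (fun idx : Fin p → I =>
      u2F m r Lab (fun s x => W s x + θ (fun l => spin (idx l) s))) =
      u2F m r Lab W + ∑ u : Λ → Lab.ι, (∏ l, Lab.p (u l)) *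
        incClause p m r (u2S m r Lab W u) spin' θ := by
    intro θ
    have h1 : ∀ idx : Fin p → I, u2F m r Lab (fun s x => W s x + θ (fun l => spin (idx l) s)) =
        u2F m r Lab W + ∑ u : Λ → Lab.ι, (∏ l, Lab.p (u l)) *
          Real.log (T m (r + 1) (u2S m r Lab W u)
            (fun L => Real.exp (θ (fun l => spin (idx l) L.val.1)))) := fun idx =>
      u2F_add_clause hm hL W (fun s => θ (fun l => spin (idx l) s))
    simp only [h1]
    rw [avg_add, avg_const, avg_sum]
    simp only [avg_const_mul]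
    rfl
  have hB : ∀ θ : Inter p, avg (fun i : I => u2F m r Lab (fun s (x : Λ' → Bool) =>
      W s (fun l => x (e₁ l)) + θ (ext (fun l => x (e₂ l)) (spin i s)))) =
      u2F m r Lab W + ∑ u : Λ → Lab.ι, (∏ l, Lab.p (u l)) *
        incSite p m r (u2S m r Lab W u) spin' Lab θ := by
    intro θ
    have h1 : ∀ i : I, u2F m r Lab (fun s (x : Λ' → Bool) =>
        W s (fun l => x (e₁ l)) + θ (ext (fun l => x (e₂ l)) (spin i s))) =
        u2F m r Lab W + ∑ u : Λ → Lab.ι, (∏ l, Lab.p (u l)) *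
          ∑ u₂ : Fin (p - 1) → Lab.ι, (∏ l, Lab.p (u₂ l)) *
            Real.log (T m (r + 1) (prod (r + 1) (u2S m r Lab W u) (u2P r Lab u₂))
              (fun L => Real.exp (θ (ext L.val.2 (spin i L.val.1.1))))) := fun i =>
      u2F_add_site hm hL e₁ e₂ he W (fun s y => θ (ext y (spin i s)))
    simp only [h1]
    rw [avg_add, avg_const, avg_sum]
    simp only [avg_const_mul]
    rfl
  have iA : ∀ u : Λ → Lab.ι,
      Integrable (fun θ : Inter p => incClause p m r (u2S m r Lab W u) spin' θ) μ := fun u =>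
    u2_integrable_avg (fun idx => u2_integrable_logT hμ hm (u2_prob_S hm hL W u)
      (fun L l => spin' (idx l) L.val))
  have iB : ∀ u : Λ → Lab.ι,
      Integrable (fun θ : Inter p => incSite p m r (u2S m r Lab W u) spin' Lab θ) μ := fun u =>
    u2_integrable_avg (fun i => integrable_finsetSum _ (fun u₂ _ =>
      (u2_integrable_logT hμ hm (prob_prod (u2_prob_S hm hL W u) (u2_prob_P hL u₂))
        (fun L => ext L.val.2 (spin' i L.val.1))).const_mul _))
  simp only [hA, hB]
  rw [integral_add (integrable_const _) (integrable_finsetSum _ (fun u _ => (iA u).const_mul _)),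
    integral_add (integrable_const _) (integrable_finsetSum _ (fun u _ => (iB u).const_mul _)),
    integral_finsetSum _ (fun u _ => (iA u).const_mul _),
    integral_finsetSum _ (fun u _ => (iB u).const_mul _)]
  simp only [integral_const, probReal_univ, smul_eq_mul, one_mul, add_sub_cancel_left,
    integral_const_mul]
  set e := ∫ θ, labLog m r Lab (fun s : Fin p → Bool => Real.exp (θ s)) ∂μ with he'
  have hw : ∑ u : Λ → Lab.ι, ∏ l, Lab.p (u l) = 1 := u2_sum_w hL
  calc ∑ u : Λ → Lab.ι, (∏ l, Lab.p (u l)) * ∫ θ, incClause p m r (u2S m r Lab W u) spin' θ ∂μ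
      ≤ ∑ u : Λ → Lab.ι, (∏ l, Lab.p (u l)) *
          (p * ∫ θ, incSite p m r (u2S m r Lab W u) spin' Lab θ ∂μ - (p - 1 : ℝ) * e) :=
        Finset.sum_le_sum (fun u _ => mul_le_mul_of_nonneg_left
          (increment_ineq hp hμ hfac hm spin' (u2_prob_S hm hL W u) hL) (u2_w_nonneg hL u))
    _ = _ := by
        simp only [mul_sub, Finset.sum_sub_distrib, ← Finset.sum_mul, hw, one_mul, Finset.mul_sum]
        congr 1
        exact Finset.sum_congr rfl (fun u _ => by ring)

end Crest.Agent.R141
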